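import Crest.Agent.Crouzeix.RMT

/-! Circle averages: orthogonality and kernels of a conformal map. -/

set_option autoImplicit false

open Set Metric Filter Topology Complex Real
open scoped ComplexConjugate

namespace Crest.Agent.Crouzeix

section avg
variable {E : Type*} [NormedAddCommGroup E] [NormedSpace ℝ E]

omit [NormedSpace ℝ E] in
lemma cint {r : ℝ} (hr : 0 < r) {f : ℂ → E} (hf : ContinuousOn f (sphere 0 r)) :
    CircleIntegrable f 0 r := hf.circleIntegrable hr.le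

lemma avg_add {r : ℝ} (hr : 0 < r) {f g : ℂ → E} (hf : ContinuousOn f (sphere 0 r))
    (hg : ContinuousOn g (sphere 0 r)) :
    circleAverage (fun z => f z + g z) 0 r = circleAverage f 0 r + circleAverage g 0 r :=
  circleAverage_fun_add (cint hr hf) (cint hr hg)

lemma avg_sub {r : ℝ} (hr : 0 < r) {f g : ℂ → E} (hf : ContinuousOn f (sphere 0 r))
    (hg : ContinuousOn g (sphere 0 r)) :
    circleAverage (fun z => f z - g z) 0 r = circleAverage f 0 r - circleAverage g 0 r :=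
  circleAverage_fun_sub (cint hr hf) (cint hr hg)

lemma avg_congr {r : ℝ} (hr : 0 < r) {f g : ℂ → E} (h : ∀ z ∈ sphere (0 : ℂ) r, f z = g z) :
    circleAverage f 0 r = circleAverage g 0 r :=
  circleAverage_congr_sphere (by rw [abs_of_pos hr]; exact h)

lemma avg_sum {r : ℝ} (hr : 0 < r) {ι : Type*} (s : Finset ι) {f : ι → ℂ → E}
    (hf : ∀ i ∈ s, ContinuousOn (f i) (sphere 0 r)) :
    circleAverage (fun z => ∑ i ∈ s, f i z) 0 r = ∑ i ∈ s, circleAverage (f i) 0 r :=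
  circleAverage_fun_sum fun i hi => cint hr (hf i hi)

end avg

lemma avg_mono {r : ℝ} (hr : 0 < r) {f g : ℂ → ℝ} (hf : ContinuousOn f (sphere 0 r))
    (hg : ContinuousOn g (sphere 0 r)) (h : ∀ z ∈ sphere (0 : ℂ) r, f z ≤ g z) :
    circleAverage f 0 r ≤ circleAverage g 0 r :=
  circleAverage_mono (cint hr hf) (cint hr hg) (by rw [abs_of_pos hr]; exact h)

lemma avg_nonneg {r : ℝ} {f : ℂ → ℝ} (h : ∀ z, 0 ≤ f z) : 0 ≤ circleAverage f 0 r :=
  circleAverage_nonneg_of_nonneg fun z _ => h z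

lemma avg_const_mul {r : ℝ} (a : ℂ) (f : ℂ → ℂ) :
    circleAverage (fun z => a * f z) 0 r = a * circleAverage f 0 r :=
  circleAverage_fun_smul (a := a) (f := f)

lemma avg_const_mul_real {r : ℝ} (a : ℝ) (f : ℂ → ℝ) :
    circleAverage (fun z => a * f z) 0 r = a * circleAverage f 0 r :=
  circleAverage_fun_smul (a := a) (f := f)

lemma avg_re {r : ℝ} (hr : 0 < r) {f : ℂ → ℂ} (hf : ContinuousOn f (sphere 0 r)) :
    circleAverage (fun z => (f z).re) 0 r = (circleAverage f 0 r).re :=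
  Complex.reCLM.circleAverage_comp_comm (cint hr hf)

lemma avg_conj {r : ℝ} (hr : 0 < r) {f : ℂ → ℂ} (hf : ContinuousOn f (sphere 0 r)) :
    circleAverage (fun z => conj (f z)) 0 r = conj (circleAverage f 0 r) :=
  (Complex.conjCLE : ℂ →L[ℝ] ℂ).circleAverage_comp_comm (cint hr hf)

lemma sphere_sub_ball {r R : ℝ} (h : r < R) : sphere (0 : ℂ) r ⊆ ball 0 R :=
  sphere_subset_closedBall.trans (closedBall_subset_ball h)

lemma diffContOnCl_of {E : Type*} [NormedAddCommGroup E] [NormedSpace ℂ E] {r R : ℝ}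
    (hr : 0 < r) (h : r < R) {f : ℂ → E} (hf : DifferentiableOn ℂ f (ball 0 R)) :
    DiffContOnCl ℂ f (ball 0 |r|) := by
  rw [abs_of_pos hr]
  apply DifferentiableOn.diffContOnCl
  rw [closure_ball _ hr.ne']
  exact hf.mono (closedBall_subset_ball h)

lemma avg_holo {E : Type*} [NormedAddCommGroup E] [NormedSpace ℂ E] [CompleteSpace E] {r R : ℝ}
    (hr : 0 < r) (h : r < R) {f : ℂ → E} (hf : DifferentiableOn ℂ f (ball 0 R)) :
    circleAverage f 0 r = f 0 :=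
  (diffContOnCl_of hr h hf).circleAverage

lemma avg_cauchy {r R : ℝ} (hr : 0 < r) (h : r < R) {f : ℂ → ℂ}
    (hf : DifferentiableOn ℂ f (ball 0 R)) {τ : ℂ} (hτ : ‖τ‖ < r) :
    circleAverage (fun z => f z * (z / (z - τ))) 0 r = f τ := by
  have := (diffContOnCl_of hr h hf).circleAverage_smul_div (w := τ)
    (by rw [abs_of_pos hr]; simpa using hτ)
  rw [← this]
  congr 1
  ext z
  simp [mul_comm]

lemma avg_deriv {r : ℝ} (hr : 0 < r) {f f' : ℂ → ℂ}
    (h : ∀ z ∈ sphere (0 : ℂ) r, HasDerivAt f (f' z) z) :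
    circleAverage (fun z => z * f' z) 0 r = 0 := by
  rw [circleAverage_eq_circleIntegral hr.ne']
  have h1 : (∮ z in C(0, r), (z - 0)⁻¹ • (z * f' z)) = ∮ z in C(0, r), f' z := by
    refine circleIntegral.integral_congr hr.le fun z hz => ?_
    have : z ≠ 0 := by
      rintro rfl
      simp at hz
      exact hr.ne hz
    simp only [sub_zero, smul_eq_mul]
    field_simp
  rw [h1, circleIntegral.integral_eq_zero_of_hasDerivWithinAt hr.le
    fun z hz => (h z hz).hasDerivWithinAt, smul_zero]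

lemma avg_radius {r₁ r₂ R : ℝ} (h1 : 0 < r₁) (h12 : r₁ ≤ r₂) (h2 : r₂ < R) {f : ℂ → ℂ}
    (hf : DifferentiableOn ℂ f (ball 0 R \ {0})) :
    circleAverage f 0 r₂ = circleAverage f 0 r₁ := by
  rw [circleAverage_eq_circleIntegral h1.ne', circleAverage_eq_circleIntegral (h1.trans_le h12).ne']
  congr 1
  have hsub : closedBall (0 : ℂ) r₂ \ ball 0 r₁ ⊆ ball 0 R \ {0} := by
    rintro z ⟨hz1, hz2⟩
    refine ⟨closedBall_subset_ball h2 hz1, ?_⟩
    rintro rfl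
    exact hz2 (mem_ball_self h1)
  refine Complex.circleIntegral_sub_center_inv_smul_eq_of_differentiable_on_annulus_off_countable
    h1 h12 countable_empty (hf.continuousOn.mono hsub) ?_
  rintro z ⟨⟨hz1, hz2⟩, -⟩
  refine hf.differentiableAt ((isOpen_ball.sdiff isClosed_singleton).mem_nhds (hsub ⟨?_, ?_⟩))
  · exact ball_subset_closedBall hz1
  · exact fun h => hz2 (ball_subset_closedBall h)

/-- Orthogonality of holomorphic and antiholomorphic functions. -/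
lemma avg_orth {R : ℝ} (hR : 1 < R) {a b : ℂ → ℂ} (ha : DifferentiableOn ℂ a (ball 0 R))
    (hb : DifferentiableOn ℂ b (ball 0 R)) :
    circleAverage (fun z => ‖a z + conj (b z)‖ ^ 2) 0 1 =
      circleAverage (fun z => ‖a z‖ ^ 2) 0 1 + circleAverage (fun z => ‖b z‖ ^ 2) 0 1 +
        2 * (a 0 * b 0).re := by
  have hac : ContinuousOn a (sphere 0 1) := ha.continuousOn.mono (sphere_sub_ball hR)
  have hbc : ContinuousOn b (sphere 0 1) := hb.continuousOn.mono (sphere_sub_ball hR)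
  have h1 : (a 0 * b 0) = circleAverage (fun z => a z * b z) 0 1 :=
    (avg_holo one_pos hR (ha.mul hb)).symm
  rw [h1, ← avg_re one_pos (by fun_prop), ← avg_const_mul_real,
    ← avg_add one_pos (by fun_prop) (by fun_prop), ← avg_add one_pos (by fun_prop) (by fun_prop)]
  congr 1
  ext z
  simp only [Complex.sq_norm, Complex.normSq_apply, add_re, add_im, conj_re, conj_im, mul_re]
  ring

lemma sq_le_avg {R : ℝ} (hR : 1 < R) {a : ℂ → ℂ} (ha : DifferentiableOn ℂ a (ball 0 R)) :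
    ‖a 0‖ ^ 2 ≤ circleAverage (fun z => ‖a z‖ ^ 2) 0 1 := by
  have h := avg_orth hR (ha.sub_const (a 0)) (b := fun _ => conj (a 0)) (differentiableOn_const _)
  simp only [conj_conj, sub_add_cancel, sub_self, zero_mul, zero_re, mul_zero, add_zero,
    Complex.norm_conj, circleAverage_const] at h
  rw [h]
  have := avg_nonneg (r := 1) (f := fun z => ‖a z - a 0‖ ^ 2) fun z => by positivity
  linarith

/-- A normalised conformal map on a disc. -/
structure Conf (ψ : ℂ → ℂ) (R : ℝ) : Prop where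
  pos : 0 < R
  diff : DifferentiableOn ℂ ψ (ball 0 R)
  inj : InjOn ψ (ball 0 R)
  zero : ψ 0 = 0

/-- `q τ = τ ψ'(τ) / ψ(τ)`. -/
noncomputable def qf (ψ : ℂ → ℂ) (τ : ℂ) : ℂ := deriv ψ τ / dslope ψ 0 τ

namespace Conf
variable {ψ : ℂ → ℂ} {R : ℝ} (h : Conf ψ R)
include h

lemma zero_mem : (0 : ℂ) ∈ ball (0 : ℂ) R := mem_ball_self h.pos

lemma ne {σ τ : ℂ} (hσ : σ ∈ ball 0 R) (hτ : τ ∈ ball 0 R) (hne : σ ≠ τ) : ψ σ - ψ τ ≠ 0 :=
  sub_ne_zero.mpr fun e => hne (h.inj hσ hτ e)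

lemma ne_zero {σ : ℂ} (hσ : σ ∈ ball 0 R) (hne : σ ≠ 0) : ψ σ ≠ 0 := by
  have := h.ne hσ h.zero_mem hne
  rwa [h.zero, sub_zero] at this

lemma deriv_ne {σ : ℂ} (hσ : σ ∈ ball 0 R) : deriv ψ σ ≠ 0 :=
  deriv_ne_zero_of_injOn isOpen_ball h.diff h.inj hσ

lemma hasDerivAt {σ : ℂ} (hσ : σ ∈ ball 0 R) : HasDerivAt ψ (deriv ψ σ) σ :=
  (h.diff.differentiableAt (isOpen_ball.mem_nhds hσ)).hasDerivAt

lemma diff_deriv : DifferentiableOn ℂ (deriv ψ) (ball 0 R) := h.diff.deriv isOpen_ball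

lemma diff_dslope {τ : ℂ} (hτ : τ ∈ ball 0 R) : DifferentiableOn ℂ (dslope ψ τ) (ball 0 R) :=
  (Complex.differentiableOn_dslope (isOpen_ball.mem_nhds hτ)).mpr h.diff

omit h in
lemma dslope_eq {σ τ : ℂ} (hne : σ ≠ τ) : dslope ψ τ σ = (ψ σ - ψ τ) / (σ - τ) := by
  rw [dslope_of_ne _ hne, slope_def_field]

lemma dslope_ne {σ τ : ℂ} (hσ : σ ∈ ball 0 R) (hτ : τ ∈ ball 0 R) : dslope ψ τ σ ≠ 0 := by
  rcases eq_or_ne σ τ with rfl | hne
  · rw [dslope_same]; exact h.deriv_ne hσ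
  · rw [dslope_eq hne]
    exact div_ne_zero (h.ne hσ hτ hne) (sub_ne_zero.mpr hne)

lemma diff_q : DifferentiableOn ℂ (qf ψ) (ball 0 R) :=
  h.diff_deriv.div (h.diff_dslope h.zero_mem) fun _ hz => h.dslope_ne hz h.zero_mem

lemma q_ne {σ : ℂ} (hσ : σ ∈ ball 0 R) : qf ψ σ ≠ 0 :=
  div_ne_zero (h.deriv_ne hσ) (h.dslope_ne hσ h.zero_mem)

lemma q_zero : qf ψ 0 = 1 := by
  rw [qf, dslope_same, div_self (h.deriv_ne h.zero_mem)]

lemma eq_mul_dslope (σ : ℂ) : ψ σ = σ * dslope ψ 0 σ := by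
  have := sub_smul_dslope ψ 0 σ
  rw [h.zero] at this
  simpa using this.symm

lemma q_mul {σ : ℂ} (hσ : σ ∈ ball 0 R) : qf ψ σ * ψ σ = σ * deriv ψ σ := by
  have := h.dslope_ne hσ h.zero_mem
  rw [qf, h.eq_mul_dslope σ]
  field_simp

lemma q_eq {σ : ℂ} (hσ : σ ∈ ball 0 R) (hne : σ ≠ 0) : qf ψ σ = σ * deriv ψ σ / ψ σ := by
  rw [← h.q_mul hσ, mul_div_cancel_right₀ _ (h.ne_zero hσ hne)]

omit h in
lemma ne_zero_of_sphere {r : ℝ} (hr : 0 < r) {z : ℂ} (hz : z ∈ sphere (0 : ℂ) r) : z ≠ 0 := by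
  rintro rfl
  simp at hz
  exact hr.ne hz

omit h in
lemma ne_of_sphere {r : ℝ} {z τ : ℂ} (hz : z ∈ sphere (0 : ℂ) r) (hτ : ‖τ‖ < r) : z ≠ τ := by
  rintro rfl
  simp at hz
  exact hτ.ne hz

lemma avg_J {r : ℝ} (hr : 0 < r) (hrR : r < R) (l : ℕ) :
    circleAverage (fun σ => qf ψ σ * (ψ σ)⁻¹ ^ (l + 1)) 0 r = 0 := by
  have hl : ((l : ℂ) + 1) ≠ 0 := by exact_mod_cast Nat.succ_ne_zero l
  have key := avg_deriv hr (f := fun σ => -((l : ℂ) + 1)⁻¹ * (ψ σ)⁻¹ ^ (l + 1))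
    (f' := fun σ => deriv ψ σ * (ψ σ)⁻¹ ^ (l + 2)) (by
      intro z hz
      have hz' := sphere_sub_ball hrR hz
      have h0 := h.ne_zero hz' (ne_zero_of_sphere hr hz)
      have := (((h.hasDerivAt hz').inv h0).pow (l + 1)).const_mul (-((l : ℂ) + 1)⁻¹)
      refine this.congr_deriv ?_
      simp only [Nat.add_sub_cancel, Pi.inv_apply, pow_succ]
      generalize (ψ z)⁻¹ ^ l = w
      push_cast
      field_simp)
  refine Eq.trans (avg_congr hr fun z hz => ?_) key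
  have hz' := sphere_sub_ball hrR hz
  have hz0 := ne_zero_of_sphere hr hz
  have h0 := h.ne_zero hz' hz0
  rw [h.q_eq hz' hz0]
  simp only [pow_succ]
  generalize (ψ z)⁻¹ ^ l = w
  field_simp

lemma contOn_inv {r : ℝ} (hr : 0 < r) (hrR : r < R) :
    ContinuousOn (fun σ => (ψ σ)⁻¹) (sphere 0 r) :=
  (h.diff.continuousOn.mono (sphere_sub_ball hrR)).inv₀
    fun _ hz => h.ne_zero (sphere_sub_ball hrR hz) (ne_zero_of_sphere hr hz)

lemma contOn_q {r : ℝ} (hrR : r < R) : ContinuousOn (qf ψ) (sphere 0 r) :=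
  h.diff_q.continuousOn.mono (sphere_sub_ball hrR)

lemma contOn_ker {r : ℝ} (hrR : r < R) {τ : ℂ} (hτ : ‖τ‖ < r) :
    ContinuousOn (fun σ => ψ σ / (ψ σ - ψ τ)) (sphere 0 r) := by
  have hc := h.diff.continuousOn.mono (sphere_sub_ball hrR)
  exact hc.div (hc.sub continuousOn_const) fun z hz => h.ne (sphere_sub_ball hrR hz)
    (by simpa using hτ.trans hrR) (ne_of_sphere hz hτ)

lemma avg_I0 {r : ℝ} (hr : 0 < r) (hrR : r < R) {τ : ℂ} (hτ : ‖τ‖ < r) :
    circleAverage (fun σ => qf ψ σ * (ψ σ / (ψ σ - ψ τ))) 0 r = 1 := by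
  have hτ' : τ ∈ ball (0 : ℂ) R := by simpa using hτ.trans hrR
  have h1 := avg_cauchy hr hrR (f := fun σ => deriv ψ σ / dslope ψ τ σ)
    (h.diff_deriv.div (h.diff_dslope hτ') fun _ hz => h.dslope_ne hz hτ') hτ
  rw [dslope_same, div_self (h.deriv_ne hτ')] at h1
  rw [← h1]
  refine avg_congr hr fun z hz => ?_
  have hz' := sphere_sub_ball hrR hz
  have hz0 := ne_zero_of_sphere hr hz
  have h0 := h.ne_zero hz' hz0
  have hne := ne_of_sphere hz hτ
  have h2 := h.ne hz' hτ' hne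
  have h3 := sub_ne_zero.mpr hne
  rw [h.q_eq hz' hz0, dslope_eq hne]
  field_simp

lemma avg_I {r : ℝ} (hr : 0 < r) (hrR : r < R) {τ : ℂ} (hτ : ‖τ‖ < r) (l : ℕ) :
    circleAverage (fun σ => qf ψ σ * (ψ σ)⁻¹ ^ (l + 1) * (ψ σ / (ψ σ - ψ τ))) 0 r = 0 := by
  have hτ' : τ ∈ ball (0 : ℂ) R := by simpa using hτ.trans hrR
  rcases eq_or_ne τ 0 with rfl | hτ0
  · refine Eq.trans (avg_congr hr fun z hz => ?_) (h.avg_J hr hrR l)
    have h0 := h.ne_zero (sphere_sub_ball hrR hz) (ne_zero_of_sphere hr hz)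
    rw [h.zero, sub_zero, div_self h0, mul_one]
  have hs := h.ne_zero hτ' hτ0
  have hq := h.contOn_q hrR
  have hi := h.contOn_inv hr hrR
  have hk := h.contOn_ker hrR hτ
  have hrec : ∀ j : ℕ, ψ τ *
      circleAverage (fun σ => qf ψ σ * (ψ σ)⁻¹ ^ (j + 1) * (ψ σ / (ψ σ - ψ τ))) 0 r =
      circleAverage (fun σ => qf ψ σ * (ψ σ)⁻¹ ^ j * (ψ σ / (ψ σ - ψ τ))) 0 r -
      circleAverage (fun σ => qf ψ σ * (ψ σ)⁻¹ ^ j) 0 r := by
    intro j
    rw [← avg_const_mul, ← avg_sub hr (by fun_prop) (by fun_prop)]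
    refine avg_congr hr fun z hz => ?_
    have hz' := sphere_sub_ball hrR hz
    have h0 := h.ne_zero hz' (ne_zero_of_sphere hr hz)
    have h2 := h.ne hz' hτ' (ne_of_sphere hz hτ)
    simp only [pow_succ]
    generalize (ψ z)⁻¹ ^ j = w
    field_simp
    ring
  induction l with
  | zero =>
    have := hrec 0
    simp only [pow_zero, mul_one] at this
    rw [h.avg_I0 hr hrR hτ, avg_holo hr hrR h.diff_q, h.q_zero, sub_self] at this
    exact (mul_eq_zero.mp this).resolve_left hs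
  | succ l ih =>
    have := hrec (l + 1)
    rw [ih, h.avg_J hr hrR l, sub_self] at this
    exact (mul_eq_zero.mp this).resolve_left hs

end Conf

/-- The "negative" functions attached to `ψ`. -/
noncomputable def negf (ψ : ℂ → ℂ) (Q : Polynomial ℂ) (σ : ℂ) : ℂ :=
  qf ψ σ * (ψ σ)⁻¹ * Q.eval (ψ σ)⁻¹

lemma negf_add (ψ : ℂ → ℂ) (P Q : Polynomial ℂ) (σ : ℂ) :
    negf ψ (P + Q) σ = negf ψ P σ + negf ψ Q σ := by
  simp [negf, mul_add]

lemma negf_monomial (ψ : ℂ → ℂ) (l : ℕ) (a : ℂ) (σ : ℂ) :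
    negf ψ (Polynomial.monomial l a) σ = a * (qf ψ σ * (ψ σ)⁻¹ ^ (l + 1)) := by
  simp only [negf, Polynomial.eval_monomial]
  ring

lemma conf_id {R : ℝ} (hR : 0 < R) : Conf id R :=
  ⟨hR, differentiableOn_id, injOn_id _, rfl⟩

lemma qf_id (σ : ℂ) : qf id σ = 1 := by
  rcases eq_or_ne σ 0 with rfl | h
  · simp [qf]
  · rw [qf, Conf.dslope_eq h]
    simp [h]

namespace Conf
variable {ψ : ℂ → ℂ} {R : ℝ} (h : Conf ψ R)
include h

lemma diff_negf (Q : Polynomial ℂ) : DifferentiableOn ℂ (negf ψ Q) (ball 0 R \ {0}) := by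
  have hi : DifferentiableOn ℂ (fun σ => (ψ σ)⁻¹) (ball 0 R \ {0}) :=
    (h.diff.mono sdiff_subset).inv fun z hz => h.ne_zero hz.1 hz.2
  exact ((h.diff_q.mono sdiff_subset).mul hi).mul
    (Q.differentiable.comp_differentiableOn hi)

omit h in
lemma sphere_sub {r : ℝ} (hr : 0 < r) (hrR : r < R) : sphere (0 : ℂ) r ⊆ ball 0 R \ {0} :=
  fun _ hz => ⟨sphere_sub_ball hrR hz, ne_zero_of_sphere hr hz⟩

lemma contOn_negf {r : ℝ} (hr : 0 < r) (hrR : r < R) (Q : Polynomial ℂ) :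
    ContinuousOn (negf ψ Q) (sphere 0 r) :=
  (h.diff_negf Q).continuousOn.mono (sphere_sub hr hrR)

lemma avg_negf_ker {r : ℝ} (hr : 0 < r) (hrR : r < R) {τ : ℂ} (hτ : ‖τ‖ < r)
    (Q : Polynomial ℂ) :
    circleAverage (fun σ => negf ψ Q σ * (ψ σ / (ψ σ - ψ τ))) 0 r = 0 := by
  have hk := h.contOn_ker hrR hτ
  induction Q using Polynomial.induction_on' with
  | add P Q hP hQ =>
    simp only [negf_add, add_mul]
    have h1 := h.contOn_negf hr hrR P
    have h2 := h.contOn_negf hr hrR Q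
    rw [avg_add hr (by fun_prop) (by fun_prop), hP, hQ, add_zero]
  | monomial l a =>
    simp only [negf_monomial, mul_assoc a]
    rw [avg_const_mul, h.avg_I hr hrR hτ, mul_zero]

lemma exists_left {τ : ℂ} (hτ : τ ∈ ball (0 : ℂ) R) :
    ∃ E : ℂ → ℂ, DifferentiableOn ℂ E (ball 0 R) ∧ E 0 = 0 ∧ ∀ σ ∈ ball (0 : ℂ) R, σ ≠ τ →
      E σ = qf ψ τ * (ψ σ / (ψ σ - ψ τ)) - σ / (σ - τ) := by
  have key : ∀ σ ∈ ball (0 : ℂ) R, σ ≠ τ →
      qf ψ τ - 1 - τ * dslope (dslope ψ τ) τ σ / dslope ψ τ σ =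
        qf ψ τ * (ψ σ / (ψ σ - ψ τ)) - σ / (σ - τ) := by
    intro σ hσ hne
    have h2 := h.ne hσ hτ hne
    have h3 := sub_ne_zero.mpr hne
    rw [dslope_eq hne, dslope_same, dslope_eq hne]
    have h4 := h.q_mul hτ
    field_simp
    linear_combination (-(σ - τ)) * h4
  refine ⟨fun σ => qf ψ τ - 1 - τ * dslope (dslope ψ τ) τ σ / dslope ψ τ σ, ?_, ?_, key⟩
  · refine (differentiableOn_const _).sub (DifferentiableOn.div ?_ (h.diff_dslope hτ)
      fun _ hz => h.dslope_ne hz hτ)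
    exact ((Complex.differentiableOn_dslope (isOpen_ball.mem_nhds hτ)).mpr
      (h.diff_dslope hτ)).const_mul _
  · rcases eq_or_ne τ 0 with rfl | hτ0
    · simp [h.q_zero]
    · beta_reduce
      rw [key 0 h.zero_mem hτ0.symm, h.zero]
      simp

lemma exists_right {σ : ℂ} (hσ : σ ∈ ball (0 : ℂ) R) :
    ∃ E : ℂ → ℂ, DifferentiableOn ℂ E (ball 0 R) ∧ E 0 = 0 ∧ ∀ τ ∈ ball (0 : ℂ) R, τ ≠ σ →
      E τ = qf ψ τ * (ψ σ / (ψ σ - ψ τ)) - σ / (σ - τ) := by
  refine ⟨fun τ => qf ψ τ - 1 - τ * deriv (dslope ψ σ) τ / dslope ψ σ τ, ?_, ?_, ?_⟩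
  · refine (h.diff_q.sub_const _).sub (DifferentiableOn.div ?_ (h.diff_dslope hσ)
      fun _ hz => h.dslope_ne hz hσ)
    exact differentiableOn_id.mul ((h.diff_dslope hσ).deriv isOpen_ball)
  · simp [h.q_zero]
  · intro τ hτ hne
    have h2 := h.ne hτ hσ hne
    have h2' := h.ne hσ hτ hne.symm
    have h3 := sub_ne_zero.mpr hne
    have h3' := sub_ne_zero.mpr hne.symm
    have hd : HasDerivAt (dslope ψ σ)
        ((deriv ψ τ * (τ - σ) - (ψ τ - ψ σ) * 1) / (τ - σ) ^ 2) τ := by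
      have h5 := ((h.hasDerivAt hτ).sub_const (ψ σ)).div ((hasDerivAt_id τ).sub_const σ) h3
      refine h5.congr_of_eventuallyEq ?_
      filter_upwards [isOpen_ne.mem_nhds hne] with z hz
      exact dslope_eq hz
    beta_reduce
    rw [hd.deriv, dslope_eq hne]
    have h4 := h.q_mul hτ
    field_simp
    linear_combination (-(τ - σ) * (σ - τ) * (ψ τ - ψ σ)) * h4

end Conf

end Crest.Agent.Crouzeix
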