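import Crest.Agent.Crouzeix.Setting

/-! Colligation argument. -/

set_option autoImplicit false

open Set Metric Filter Topology Complex Real MeasureTheory
open scoped ComplexConjugate InnerProductSpace ComplexOrder Matrix Matrix.Norms.L2Operator

namespace Crest.Agent.Crouzeix

lemma douglas_abs {F G : Type*} [AddCommGroup F] [Module ℂ F] [NormedAddCommGroup G]
    [InnerProductSpace ℂ G] [FiniteDimensional ℂ G] (p q : F →ₗ[ℂ] G)
    (h : ∀ x, ‖p x‖ = ‖q x‖) : ∃ V : G →ₗᵢ[ℂ] G, ∀ x, V (q x) = p x := by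
  obtain ⟨g, hg⟩ := q.rangeRestrict.exists_rightInverse_of_surjective q.range_rangeRestrict
  have hg' : ∀ s : LinearMap.range q, q (g s) = s := fun s =>
    congrArg (fun T => (T s : G)) hg
  let L : LinearMap.range q →ₗᵢ[ℂ] G := ⟨p.comp g, fun s => by
    rw [LinearMap.comp_apply, h, hg']; rfl⟩
  refine ⟨L.extend, fun x => ?_⟩
  have h1 := L.extend_apply (q.rangeRestrict x)
  refine Eq.trans h1 ?_
  change p (g (q.rangeRestrict x)) = p x
  rw [← sub_eq_zero, ← map_sub, ← norm_eq_zero, h, map_sub, hg']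
  simp

variable {ι : Type} [Fintype ι] [DecidableEq ι]

lemma norm_sq_transpose (M : Matrix ι ι ℂ) (x : EuclideanSpace ℂ ι) :
    ‖op Mᵀ x‖ ^ 2 = (x.ofLp ⬝ᵥ ((M * Mᴴ) *ᵥ star x.ofLp)).re := by
  rw [← Matrix.mulVec_mulVec, Matrix.dotProduct_mulVec, ← Matrix.mulVec_transpose,
    ← inner_self_eq_norm_sq (𝕜 := ℂ), EuclideanSpace.inner_eq_star_dotProduct]
  simp only [Matrix.ofLp_toEuclideanCLM, RCLike.re_to_complex]
  rw [Matrix.star_mulVec, ← Matrix.mulVec_transpose]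
  congr 2

lemma douglas (R₁ ξ R₂ η : Matrix ι ι ℂ) (h : R₁ * R₁ᴴ + ξ * ξᴴ = R₂ * R₂ᴴ + η * ηᴴ) :
    ∃ a b c d : Matrix ι ι ℂ, R₁ᵀ = a * R₂ᵀ + b * ηᵀ ∧ ξᵀ = c * R₂ᵀ + d * ηᵀ ∧
      ∀ y u : EuclideanSpace ℂ ι,
        ‖op a y + op b u‖ ^ 2 + ‖op c y + op d u‖ ^ 2 ≤ ‖y‖ ^ 2 + ‖u‖ ^ 2 := by
  set F := EuclideanSpace ℂ ι
  let e := (WithLp.prodContinuousLinearEquiv 2 ℂ F F).symm
  let p : F →L[ℂ] WithLp 2 (F × F) := e.toContinuousLinearMap ∘L ((op R₁ᵀ).prod (op ξᵀ))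
  let q : F →L[ℂ] WithLp 2 (F × F) := e.toContinuousLinearMap ∘L ((op R₂ᵀ).prod (op ηᵀ))
  have hn : ∀ y u : F, ‖e (y, u)‖ ^ 2 = ‖y‖ ^ 2 + ‖u‖ ^ 2 := fun y u =>
    WithLp.prod_norm_sq_eq_of_L2 _
  obtain ⟨V, hV⟩ := douglas_abs p.toLinearMap q.toLinearMap (by
    intro x
    rw [← sq_eq_sq₀ (norm_nonneg _) (norm_nonneg _)]
    change ‖e (op R₁ᵀ x, op ξᵀ x)‖ ^ 2 = ‖e (op R₂ᵀ x, op ηᵀ x)‖ ^ 2
    rw [hn, hn]
    erw [norm_sq_transpose R₁ x, norm_sq_transpose ξ x, norm_sq_transpose R₂ x,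
      norm_sq_transpose η x]
    rw [← add_re, ← add_re, ← dotProduct_add, ← dotProduct_add, ← Matrix.add_mulVec,
      ← Matrix.add_mulVec, h])
  let W : F × F →L[ℂ] F × F :=
    e.symm.toContinuousLinearMap ∘L V.toContinuousLinearMap ∘L e.toContinuousLinearMap
  have hW : ∀ y u : F, ‖(W (y, u)).1‖ ^ 2 + ‖(W (y, u)).2‖ ^ 2 = ‖y‖ ^ 2 + ‖u‖ ^ 2 := by
    intro y u
    rw [← hn, ← hn, ← V.norm_map (e (y, u))]
    rfl
  have hWx : ∀ x, W (op R₂ᵀ x, op ηᵀ x) = (op R₁ᵀ x, op ξᵀ x) := fun x =>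
    congrArg e.symm (hV x)
  have hsplit : ∀ y u : F, W (y, u) = W (y, 0) + W (0, u) := by
    intro y u
    rw [← map_add]; simp
  let S := (Matrix.toEuclideanCLM (n := ι) (𝕜 := ℂ)).symm
  have hS : ∀ X, op (S X) = X := fun X => StarAlgEquiv.apply_symm_apply _ X
  have hinj : ∀ X a b Y Z : Matrix ι ι ℂ, op X = op a * op Y + op b * op Z →
      X = a * Y + b * Z := by
    intro X a b Y Z hh
    simp only [op, ← map_mul, ← map_add] at hh
    exact EquivLike.injective _ hh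
  refine ⟨S (.fst ℂ F F ∘L W ∘L .inl ℂ F F), S (.fst ℂ F F ∘L W ∘L .inr ℂ F F),
    S (.snd ℂ F F ∘L W ∘L .inl ℂ F F), S (.snd ℂ F F ∘L W ∘L .inr ℂ F F), ?_, ?_, ?_⟩
  · apply hinj
    rw [hS, hS]
    ext1 x
    have := congrArg Prod.fst (hWx x)
    rw [hsplit] at this
    exact this.symm
  · apply hinj
    rw [hS, hS]
    ext1 x
    have := congrArg Prod.snd (hWx x)
    rw [hsplit] at this
    exact this.symm
  · intro y u
    simp only [hS]
    have := hW y u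
    rw [hsplit] at this
    exact this.le

lemma theta_bound {a b c d : Matrix ι ι ℂ}
    (h : ∀ y u : EuclideanSpace ℂ ι,
      ‖op a y + op b u‖ ^ 2 + ‖op c y + op d u‖ ^ 2 ≤ ‖y‖ ^ 2 + ‖u‖ ^ 2)
    {s : ℝ} (hs : 0 ≤ s) (hs1 : s < 1) (N : ℕ) {w : ℂ} (hw : ‖w‖ ≤ s) :
    ‖op (d + ∑ j ∈ Finset.range N, w ^ (j + 1) • (c * a ^ j * b))‖ ≤ 1 + s ^ N / (1 - s ^ 2) := by
  have hs2 : 0 < 1 - s ^ 2 := by nlinarith
  refine ContinuousLinearMap.opNorm_le_bound _ (by positivity) fun u => ?_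
  have ha : ∀ y, ‖op a y‖ ≤ ‖y‖ := by
    intro y
    have := h y 0
    simp only [map_zero, add_zero, norm_zero] at this
    exact abs_le_of_sq_le_sq' (by nlinarith [sq_nonneg ‖op c y‖]) (norm_nonneg _) |>.2
  have hb : ‖op b u‖ ≤ ‖u‖ := by
    have := h 0 u
    simp only [map_zero, zero_add, norm_zero] at this
    exact abs_le_of_sq_le_sq' (by nlinarith [sq_nonneg ‖op d u‖]) (norm_nonneg _) |>.2
  have hak : ∀ j, ‖(op a ^ j) (op b u)‖ ≤ ‖u‖ := by
    intro j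
    induction j with
    | zero => simpa using hb
    | succ j ih => rw [pow_succ', mul_apply_eq_comp]; exact (ha _).trans ih
  set x : ℕ → EuclideanSpace ℂ ι := fun N => ∑ j ∈ Finset.range N, w ^ j • (op a ^ j) (op b u)
    with hx
  have e1 : op a (w • x N) + op b u = x (N + 1) := by
    simp only [hx, Finset.sum_range_succ', pow_zero, one_smul, one_apply_eq_self, map_smul,
      map_sum, Finset.smul_sum, smul_smul, pow_succ', mul_apply_eq_comp]
  have e2 : op c (w • x N) + op d u =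
      op (d + ∑ j ∈ Finset.range N, w ^ (j + 1) • (c * a ^ j * b)) u := by
    simp only [hx, op, map_add, map_sum, map_smul, map_mul, map_pow, add_apply, FunLike.coe_sum,
      Finset.sum_apply, smul_apply, mul_apply_eq_comp, Finset.smul_sum, smul_smul, pow_succ']
    rw [add_comm]
  have e3 : ‖x N‖ ≤ ‖x (N + 1)‖ + s ^ N * ‖u‖ := by
    have : x N = x (N + 1) - w ^ N • (op a ^ N) (op b u) := by
      simp [hx, Finset.sum_range_succ]
    rw [this]
    refine (norm_sub_le _ _).trans (add_le_add (le_of_eq ?_) ?_)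
    · rfl
    · rw [norm_smul, norm_pow]
      exact mul_le_mul (pow_le_pow_left₀ (norm_nonneg _) hw N) (hak N) (norm_nonneg _)
        (by positivity)
  have e4 := h (w • x N) u
  rw [e1, e2, norm_smul] at e4
  set Y := ‖op (d + ∑ j ∈ Finset.range N, w ^ (j + 1) • (c * a ^ j * b)) u‖
  set X := ‖x N‖
  set X' := ‖x (N + 1)‖
  set ε := s ^ N * ‖u‖ with hε
  have hε0 : 0 ≤ ε := by positivity
  have hX : 0 ≤ X := norm_nonneg _
  have hX' : 0 ≤ X' := norm_nonneg _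
  have e5 : (‖w‖ * X) ^ 2 ≤ (s * (X' + ε)) ^ 2 :=
    pow_le_pow_left₀ (by positivity) (mul_le_mul hw e3 hX hs) 2
  set D := ε / (1 - s ^ 2) with hD
  have hD0 : 0 ≤ D := by positivity
  have hDε : ε = D * (1 - s ^ 2) := by rw [hD]; field_simp
  have e6 : (s * (X' + ε)) ^ 2 - X' ^ 2 ≤ D ^ 2 := by
    rw [hDε]
    have : D ^ 2 - ((s * (X' + D * (1 - s ^ 2))) ^ 2 - X' ^ 2) =
        (1 - s ^ 2) * (X' - s ^ 2 * D) ^ 2 + D ^ 2 * (1 - s ^ 2 * (1 - s ^ 2)) := by ring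
    have h1 : 0 ≤ 1 - s ^ 2 * (1 - s ^ 2) := by nlinarith
    nlinarith [mul_nonneg hs2.le (sq_nonneg (X' - s ^ 2 * D)), mul_nonneg (sq_nonneg D) h1]
  have e7 : (1 + s ^ N / (1 - s ^ 2)) * ‖u‖ = ‖u‖ + D := by
    rw [hD, hε]; ring
  rw [e7]
  refine (abs_le_of_sq_le_sq' ?_ (by positivity)).2
  nlinarith [mul_nonneg (norm_nonneg u) hD0]

/-- The rows of a matrix as an element of the `ℓ²` sum. -/
noncomputable def rows {n : ℕ} (M : Matrix (Fin n) (Fin n) ℂ) :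
    PiLp 2 (fun _ : Fin n => EuclideanSpace ℂ (Fin n)) :=
  WithLp.toLp 2 fun i => WithLp.toLp 2 (M i)

lemma norm_rows_sq {n : ℕ} (M : Matrix (Fin n) (Fin n) ℂ) :
    ‖rows Mᵀ‖ ^ 2 = (M * Mᴴ).trace.re := by
  rw [PiLp.norm_sq_eq_of_L2]
  simp only [rows, EuclideanSpace.norm_sq_eq, Matrix.trace, Matrix.diag, Matrix.mul_apply,
    Matrix.conjTranspose_apply, re_sum, Matrix.transpose_apply]
  rw [Finset.sum_comm]
  refine Finset.sum_congr rfl fun i _ => Finset.sum_congr rfl fun k _ => ?_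
  rw [RCLike.star_def, Complex.mul_conj, Complex.ofReal_re, Complex.sq_norm]

lemma CB.trace_le {n : ℕ} {T : Matrix (Fin n) (Fin n) ℂ} {s : ℝ} (hT : CB T s) (hs : 0 ≤ s)
    (hs1 : s < 1) (R ξ η : Matrix (Fin n) (Fin n) ℂ)
    (h : R * Rᴴ + ξ * ξᴴ = (T * R) * (T * R)ᴴ + η * ηᴴ) :
    (ξ * ξᴴ).trace.re ≤ 4 * (η * ηᴴ).trace.re := by
  obtain ⟨a, b, c, d, h1, h2, h3⟩ := douglas R ξ (T * R) η h
  have hrec : ∀ N : ℕ, ξᵀ - c * a ^ N * (T ^ (N + 1) * R)ᵀ =
      d * ηᵀ + ∑ j ∈ Finset.range N, c * a ^ j * b * (T ^ (j + 1) * η)ᵀ := by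
    intro N
    induction N with
    | zero => rw [h2]; simp
    | succ N ih =>
      rw [Finset.sum_range_succ, ← add_assoc, ← ih]
      have e : (T ^ (N + 1) * R)ᵀ = a * (T ^ (N + 1 + 1) * R)ᵀ + b * (T ^ (N + 1) * η)ᵀ := by
        rw [Matrix.transpose_mul, h1, pow_succ T (N + 1), Matrix.mul_assoc,
          Matrix.transpose_mul (T ^ (N + 1)), Matrix.transpose_mul (T ^ (N + 1))]
        noncomm_ring
      rw [e, pow_succ a]
      noncomm_ring
  have hbound : ∀ N : ℕ, ‖rows (ξᵀ - c * a ^ N * (T ^ (N + 1) * R)ᵀ)‖ ≤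
      2 * (1 + s ^ N / (1 - s ^ 2)) * ‖rows ηᵀ‖ := by
    intro N
    have := hT (Fin n) (fun i k => Polynomial.C (d i k) +
      ∑ j ∈ Finset.range N, Polynomial.monomial (j + 1) ((c * a ^ j * b) i k))
      (1 + s ^ N / (1 - s ^ 2)) (by
        intro w hw
        convert theta_bound h3 hs hs1 N hw using 3
        ext i k
        simp [Polynomial.eval_finsetSum, Matrix.sum_apply, mul_comm]) (rows ηᵀ)
    convert this using 2
    rw [hrec]
    ext i r
    simp only [rows, polyOp, LinearMap.coe_mk, AddHom.coe_mk, map_add, map_sum,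
      Polynomial.aeval_C, Polynomial.aeval_monomial, Algebra.algebraMap_eq_smul_one,
      smul_mul_assoc, one_mul, add_apply, smul_apply, one_apply_eq_self, FunLike.coe_sum,
      Finset.sum_apply, Finset.sum_add_distrib, ← map_pow]
    simp only [Matrix.add_apply, Matrix.sum_apply, WithLp.ofLp_add, WithLp.ofLp_sum,
      WithLp.ofLp_smul, Pi.add_apply, Finset.sum_apply, Pi.smul_apply, smul_eq_mul,
      Matrix.ofLp_toEuclideanCLM]
    rw [Finset.sum_comm]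
    congr 1
  have ha : ‖a‖ ≤ 1 := by
    rw [Matrix.cstar_norm_def]
    refine ContinuousLinearMap.opNorm_le_bound _ zero_le_one fun y => ?_
    have := h3 y 0
    simp only [map_zero, add_zero, norm_zero] at this
    rw [one_mul]
    exact abs_le_of_sq_le_sq' (by nlinarith [sq_nonneg ‖op c y‖]) (norm_nonneg _) |>.2
  have hlim0 : Tendsto (fun N : ℕ => (T ^ (N + 1) * R)ᵀ) atTop (𝓝 0) := by
    have hc : Continuous fun X : Matrix (Fin n) (Fin n) ℂ => (X * R)ᵀ :=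
      (continuous_id.mul continuous_const).matrix_transpose
    have := (hc.tendsto 0).comp ((hT.tendsto_pow hs hs1).comp (tendsto_add_atTop_nat 1))
    rw [zero_mul, Matrix.transpose_zero] at this
    exact this
  have hlim1 : Tendsto (fun N : ℕ => c * a ^ N * (T ^ (N + 1) * R)ᵀ) atTop (𝓝 0) := by
    refine squeeze_zero_norm (a := fun N => ‖c‖ * ‖(T ^ (N + 1) * R)ᵀ‖) (fun N => ?_) ?_
    · refine (norm_mul_le _ _).trans (mul_le_mul_of_nonneg_right ?_ (norm_nonneg _))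
      induction N with
      | zero => simp
      | succ N ih =>
        rw [pow_succ, ← mul_assoc]
        exact (norm_mul_le _ _).trans ((mul_le_of_le_one_right (norm_nonneg _) ha).trans ih)
    · simpa using hlim0.norm.const_mul ‖c‖
  have hrc : Continuous fun M : Matrix (Fin n) (Fin n) ℂ => ‖rows M‖ := by
    refine Continuous.norm ((PiLp.continuous_toLp 2 _).comp (continuous_pi fun i => ?_))
    exact (PiLp.continuous_toLp 2 _).comp (continuous_apply i)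
  have hlim2 := (hrc.tendsto _).comp (tendsto_const_nhds (x := ξᵀ).sub hlim1)
  have hlim3 : Tendsto (fun N : ℕ => 2 * (1 + s ^ N / (1 - s ^ 2)) * ‖rows ηᵀ‖) atTop
      (𝓝 (2 * (1 + 0 / (1 - s ^ 2)) * ‖rows ηᵀ‖)) :=
    ((((tendsto_pow_atTop_nhds_zero_of_lt_one hs hs1).div_const _).const_add 1).const_mul 2
      ).mul_const _
  have hle := le_of_tendsto_of_tendsto' hlim2 hlim3 hbound
  rw [sub_zero, zero_div, add_zero, mul_one] at hle
  rw [← norm_rows_sq, ← norm_rows_sq]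
  nlinarith [norm_nonneg (rows ξᵀ), norm_nonneg (rows ηᵀ)]

end Crest.Agent.Crouzeix
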