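import Crest.Agent.Crouzeix.Grunsky

/-! The core estimate. -/

set_option autoImplicit false

open Set Metric Filter Topology Complex Real MeasureTheory
open scoped ComplexConjugate InnerProductSpace ComplexOrder Matrix

namespace Crest.Agent.Crouzeix

section matrix
variable {ι : Type*} [Fintype ι] [DecidableEq ι]

lemma row_bound {w : Matrix ι ι ℂ} {M : ℝ}
    (hM : ‖Matrix.toEuclideanCLM (n := ι) (𝕜 := ℂ) w‖ ≤ M) (u : ι → ℂ) :
    ∑ i, ‖∑ j, w i j * u j‖ ^ 2 ≤ M ^ 2 * ∑ j, ‖u j‖ ^ 2 := by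
  have h1 := (Matrix.toEuclideanCLM (n := ι) (𝕜 := ℂ) w).le_of_opNorm_le hM (WithLp.toLp 2 u)
  have h2 := pow_le_pow_left₀ (norm_nonneg _) h1 2
  rw [mul_pow, EuclideanSpace.norm_sq_eq, EuclideanSpace.norm_sq_eq] at h2
  simpa [Matrix.mulVec, dotProduct] using h2

lemma col_bound {w : Matrix ι ι ℂ} {M : ℝ}
    (hM : ‖Matrix.toEuclideanCLM (n := ι) (𝕜 := ℂ) w‖ ≤ M) (u : ι → ℂ) :
    ∑ j, ‖∑ i, w i j * u i‖ ^ 2 ≤ M ^ 2 * ∑ i, ‖u i‖ ^ 2 := by
  have h1 : ‖Matrix.toEuclideanCLM (n := ι) (𝕜 := ℂ) (star w)‖ ≤ M := by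
    rw [map_star, ContinuousLinearMap.star_eq_adjoint, LinearIsometryEquiv.norm_map]; exact hM
  have h2 := row_bound h1 fun i => conj (u i)
  simp only [Matrix.star_apply, Complex.norm_conj] at h2
  refine le_of_eq_of_le ?_ h2
  refine Finset.sum_congr rfl fun j _ => ?_
  rw [← Complex.norm_conj, map_sum]
  simp

end matrix

variable {E : Type*} [NormedAddCommGroup E] [InnerProductSpace ℂ E]

/-- The Hermitian part of a sesquilinear form. -/
noncomputable def herm (T : E →L[ℂ] E) (x y : E) : ℂ := ⟪x, T y⟫_ℂ + conj ⟪y, T x⟫_ℂ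

lemma block_ineq {ι : Type*} [Fintype ι] (T : E →L[ℂ] E) (hT : ∀ x, 0 ≤ (⟪x, T x⟫_ℂ).re)
    (x y : ι → E) :
    2 * ∑ a, ∑ b, ‖herm T (x a) (y b)‖ ^ 2 ≤
      ∑ a, ∑ b, ‖herm T (x a) (x b)‖ ^ 2 + ∑ a, ∑ b, ‖herm T (y a) (y b)‖ ^ 2 := by
  classical
  set z : ι ⊕ ι → E := Sum.elim x y with hz
  set G : Matrix (ι ⊕ ι) (ι ⊕ ι) ℂ := Matrix.of fun s t => herm T (z s) (z t) with hG
  have hsymm : ∀ a b : E, conj (herm T a b) = herm T b a := by
    intro a b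
    simp [herm, add_comm]
  have hGp : G.PosSemidef := by
    refine Matrix.PosSemidef.of_dotProduct_mulVec_nonneg ?_ fun c => ?_
    · ext s t
      simp [hG, hsymm]
    · have : star c ⬝ᵥ (G *ᵥ c) = herm T (∑ s, c s • z s) (∑ s, c s • z s) := by
        simp only [dotProduct, Matrix.mulVec, hG, Matrix.of_apply, herm, Pi.star_apply,
          map_sum, map_smul, sum_inner, inner_sum, inner_smul_left, inner_smul_right,
          Finset.mul_sum, map_mul, conj_conj, RCLike.star_def, mul_add, add_mul,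
          Finset.sum_add_distrib]
        congr 1
        · rw [Finset.sum_comm]
          refine Finset.sum_congr rfl fun s _ => Finset.sum_congr rfl fun t _ => by ring
        · refine Finset.sum_congr rfl fun s _ => Finset.sum_congr rfl fun t _ => by ring
      rw [this, herm, Complex.add_conj]
      exact_mod_cast mul_nonneg zero_le_two (hT _)
  have hH := (hGp.hadamard hGp.transpose).dotProduct_mulVec_nonneg
    (Sum.elim (fun _ => (1 : ℂ)) (fun _ => -1))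
  have hn : ∀ a b : E, herm T a b * herm T b a = ((‖herm T a b‖ ^ 2 : ℝ) : ℂ) := by
    intro a b
    rw [← hsymm a b, Complex.mul_conj, Complex.sq_norm]
  have hn' : ∀ a b : E, ‖herm T a b‖ = ‖herm T b a‖ := by
    intro a b
    rw [← hsymm a b, Complex.norm_conj]
  simp only [dotProduct, Matrix.mulVec, Fintype.sum_sum_type, Matrix.hadamard_apply,
    Matrix.transpose_apply, hG, Matrix.of_apply, hz, Sum.elim_inl, Sum.elim_inr, Pi.star_apply,
    star_one, star_neg, mul_one, one_mul, mul_neg, neg_mul, hn, Finset.sum_neg_distrib,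
    Finset.sum_add_distrib, neg_add, neg_neg] at hH
  have hs : ∑ a, ∑ b, ‖herm T (y a) (x b)‖ ^ 2 = ∑ a, ∑ b, ‖herm T (x a) (y b)‖ ^ 2 := by
    rw [Finset.sum_comm]
    simp only [hn' (y _) (x _)]
  have hH' : (0 : ℝ) ≤ (∑ a, ∑ b, ‖herm T (x a) (x b)‖ ^ 2 +
      -∑ a, ∑ b, ‖herm T (x a) (y b)‖ ^ 2) + (-∑ a, ∑ b, ‖herm T (y a) (x b)‖ ^ 2 +
      ∑ a, ∑ b, ‖herm T (y a) (y b)‖ ^ 2) := by
    exact_mod_cast hH
  linarith

/-- The resolvent type kernel. -/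
structure Resolv (A : E →L[ℂ] E) (z₀ : ℂ) (ψ : ℂ → ℂ) (R : ℝ) (Φ : ℂ → E →L[ℂ] E) : Prop where
  diff : DifferentiableOn ℂ Φ (ball 0 R)
  zero : Φ 0 = 1
  pos : ∀ τ ∈ sphere (0 : ℂ) 1, ∀ x, 0 ≤ (⟪x, Φ τ x⟫_ℂ).re
  comm : ∀ τ ∈ sphere (0 : ℂ) 1, Commute (Φ τ) A
  eq : ∀ τ ∈ sphere (0 : ℂ) 1, ∀ y,
    (z₀ + (ψ τ)⁻¹) • Φ τ y = Φ τ (A y) + (qf ψ τ * (ψ τ)⁻¹) • y

lemma exists_resolv [FiniteDimensional ℂ E] (A : E →L[ℂ] E) (z₀ : ℂ) {ψ : ℂ → ℂ} {R : ℝ}
    (h : Conf ψ R) (hR : 1 < R)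
    (hinv : ∀ τ ∈ ball (0 : ℂ) R, ∀ x, ‖x‖ = 1 → 1 - (⟪x, A x⟫_ℂ - z₀) * ψ τ ≠ 0)
    (hpos : ∀ τ ∈ sphere (0 : ℂ) 1, ∀ x, ‖x‖ = 1 →
      0 ≤ ((1 - (⟪x, A x⟫_ℂ - z₀) * ψ τ) / qf ψ τ).re) :
    ∃ Φ, Resolv A z₀ ψ R Φ := by
  have := FiniteDimensional.complete ℂ E
  set N : ℂ → E →L[ℂ] E := fun τ => 1 - ψ τ • (A - z₀ • 1) with hN
  have hNx : ∀ τ x, N τ x = x - ψ τ • (A x - z₀ • x) := fun τ x => by simp [hN]
  have hunitvec : ∀ x : E, x ≠ 0 → ∃ (c : ℝ) (x' : E), 0 < c ∧ ‖x'‖ = 1 ∧ x = (c : ℂ) • x' := by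
    intro x hx
    have h0 : 0 < ‖x‖ := norm_pos_iff.mpr hx
    have h1 : ((‖x‖ : ℝ) : ℂ) ≠ 0 := by exact_mod_cast h0.ne'
    refine ⟨‖x‖, ((‖x‖ : ℝ) : ℂ)⁻¹ • x, h0, ?_, ?_⟩
    · rw [norm_smul, norm_inv, Complex.norm_real, norm_norm, inv_mul_cancel₀ h0.ne']
    · rw [smul_inv_smul₀ h1]
  have hinner : ∀ τ (x : E), ‖x‖ = 1 → ⟪x, N τ x⟫_ℂ = 1 - (⟪x, A x⟫_ℂ - z₀) * ψ τ := by
    intro τ x hx
    rw [hNx, inner_sub_right, inner_smul_right, inner_sub_right, inner_smul_right,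
      inner_self_eq_norm_sq_to_K, hx]
    simp
    ring
  have hunit : ∀ τ ∈ ball (0 : ℂ) R, IsUnit (N τ) := by
    intro τ hτ
    rw [ContinuousLinearMap.isUnit_iff_bijective]
    have hinj : Function.Injective (N τ) := by
      rw [injective_iff_map_eq_zero]
      intro x hx
      by_contra hx0
      obtain ⟨c, x', hc, hx', rfl⟩ := hunitvec x hx0
      apply hinv τ hτ x' hx'
      rw [map_smul, smul_eq_zero] at hx
      rw [← hinner τ x' hx', hx.resolve_left (by exact_mod_cast hc.ne'), inner_zero_right]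
    exact ⟨hinj, LinearMap.injective_iff_surjective (f := (N τ : E →ₗ[ℂ] E)).mp hinj⟩
  have hNd : DifferentiableOn ℂ N (ball 0 R) :=
    (differentiableOn_const _).sub (h.diff.smul_const _)
  have hcomm : ∀ τ ∈ ball (0 : ℂ) R, Commute (Ring.inverse (N τ)) A := by
    intro τ hτ
    obtain ⟨u, hu⟩ := hunit τ hτ
    rw [← hu, Ring.inverse_unit]
    apply Commute.units_inv_left
    rw [hu, hN]
    exact (Commute.one_left A).sub_left
      (((Commute.refl A).sub_left ((Commute.one_left A).smul_left z₀)).smul_left _)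
  refine ⟨fun τ => qf ψ τ • Ring.inverse (N τ), h.diff_q.smul (hNd.inverse hunit), ?_, ?_, ?_, ?_⟩
  · simp [h.q_zero, hN, h.zero]
  · intro τ hτ x
    have hτR := sphere_sub_ball hR hτ
    have hq := h.q_ne hτR
    set y := (qf ψ τ • Ring.inverse (N τ)) x with hy
    have hxy : x = (qf ψ τ)⁻¹ • N τ y := by
      rw [hy, smul_apply, map_smul, inv_smul_smul₀ hq, ← mul_apply_eq_comp,
        Ring.mul_inverse_cancel _ (hunit τ hτR), one_apply_eq_self]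
    by_cases hy0 : y = 0
    · simp [hy0]
    obtain ⟨c, y', hc, hy', hyy⟩ := hunitvec y hy0
    have h1 := hpos τ hτ y' hy'
    rw [← hinner τ y' hy'] at h1
    have h2 : (⟪x, y⟫_ℂ).re = (⟪y, x⟫_ℂ).re := by
      rw [← inner_conj_symm, Complex.conj_re]
    rw [h2]
    nth_rewrite 1 [hxy]
    rw [hyy, map_smul, inner_smul_right, inner_smul_right, inner_smul_left, Complex.conj_ofReal]
    have h3 : (qf ψ τ)⁻¹ * ((c : ℂ) * ((c : ℂ) * ⟪y', N τ y'⟫_ℂ)) =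
        ((c * c : ℝ) : ℂ) * (⟪y', N τ y'⟫_ℂ / qf ψ τ) := by
      push_cast; ring
    rw [h3, Complex.re_ofReal_mul]
    positivity
  · intro τ hτ
    exact (hcomm τ (sphere_sub_ball hR hτ)).smul_left _
  · intro τ hτ y
    have hτR := sphere_sub_ball hR hτ
    have h0 := h.ne_zero hτR (Conf.ne_zero_of_sphere one_pos hτ)
    have h1 : Ring.inverse (N τ) (N τ y) = y := by
      rw [← mul_apply_eq_comp, Ring.inverse_mul_cancel _ (hunit τ hτR),
        one_apply_eq_self]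
    rw [hNx, map_sub, map_smul, map_sub, map_smul] at h1
    simp only [smul_apply]
    nth_rewrite 3 [← h1]
    generalize Ring.inverse (N τ) y = a
    generalize Ring.inverse (N τ) (A y) = b
    match_scalars <;> field_simp <;> ring

namespace Resolv
variable {A : E →L[ℂ] E} {z₀ : ℂ} {ψ : ℂ → ℂ} {R : ℝ} {Φ : ℂ → E →L[ℂ] E}
  (hΦ : Resolv A z₀ ψ R Φ)
include hΦ

lemma poly (p : Polynomial ℂ) (x y : E) : ∃ Q : Polynomial ℂ, ∀ σ ∈ sphere (0 : ℂ) 1,
    p.eval (z₀ + (ψ σ)⁻¹) * ⟪x, Φ σ y⟫_ℂ =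
      ⟪x, Φ σ (Polynomial.aeval A p y)⟫_ℂ + negf ψ Q σ := by
  induction p using Polynomial.induction_on generalizing y with
  | C a => exact ⟨0, fun σ _ => by simp [negf, Algebra.algebraMap_eq_smul_one]⟩
  | add p q hp hq =>
    obtain ⟨Q₁, h₁⟩ := hp y
    obtain ⟨Q₂, h₂⟩ := hq y
    refine ⟨Q₁ + Q₂, fun σ hσ => ?_⟩
    rw [Polynomial.eval_add, add_mul, h₁ σ hσ, h₂ σ hσ, negf_add, map_add, add_apply, map_add,
      inner_add_right]
    ring
  | monomial n a ih =>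
    obtain ⟨Q, hQ⟩ := ih (A y)
    refine ⟨Q + Polynomial.C ⟪x, y⟫_ℂ *
      (Polynomial.C a * Polynomial.X ^ n).comp (Polynomial.C z₀ + Polynomial.X), fun σ hσ => ?_⟩
    have h1 := congrArg (fun v => ⟪x, v⟫_ℂ) (hΦ.eq σ hσ y)
    simp only [inner_smul_right, inner_add_right] at h1
    have h2 := hQ σ hσ
    rw [pow_succ, ← mul_assoc, Polynomial.eval_mul, Polynomial.eval_X, mul_assoc, h1, mul_add, h2,
      negf_add, map_mul _ _ Polynomial.X, Polynomial.aeval_X, mul_apply_eq_comp]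
    simp only [negf, Polynomial.eval_mul, Polynomial.eval_C, Polynomial.eval_comp,
      Polynomial.eval_add, Polynomial.eval_X]
    ring

lemma comm_poly (p : Polynomial ℂ) {σ : ℂ} (hσ : σ ∈ sphere (0 : ℂ) 1) (y : E) :
    Φ σ (Polynomial.aeval A p y) = Polynomial.aeval A p (Φ σ y) := by
  have : Commute (Φ σ) (Polynomial.aeval A p) := by
    induction p using Polynomial.induction_on' with
    | add p q hp hq => rw [map_add]; exact hp.add_right hq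
    | monomial n a =>
      rw [Polynomial.aeval_monomial]
      exact (Algebra.commute_algebraMap_right a _).mul_right ((hΦ.comm σ hσ).pow_right n)
  exact congrArg (fun T : E →L[ℂ] E => T y) this.eq

lemma diff_inner (x y : E) : DifferentiableOn ℂ (fun σ => ⟪x, Φ σ y⟫_ℂ) (ball 0 R) :=
  (innerSL ℂ x).differentiable.comp_differentiableOn
    (hΦ.diff.clm_apply (differentiableOn_const y))

lemma avg_herm (hR : 1 < R) (x y : E) :
    circleAverage (fun σ => ‖herm (Φ σ) x y‖ ^ 2) 0 1 =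
      circleAverage (fun σ => ‖⟪x, Φ σ y⟫_ℂ‖ ^ 2) 0 1 +
      circleAverage (fun σ => ‖⟪y, Φ σ x⟫_ℂ‖ ^ 2) 0 1 + 2 * ‖⟪x, y⟫_ℂ‖ ^ 2 := by
  have := avg_orth hR (hΦ.diff_inner x y) (hΦ.diff_inner y x)
  simp only [hΦ.zero, one_apply_eq_self] at this
  rw [← inner_conj_symm y x, Complex.mul_conj, Complex.ofReal_re, ← Complex.sq_norm] at this
  exact this

lemma side (h : Conf ψ R) (hR : 1 < R)
    (hk : ∀ τ ∈ sphere (0 : ℂ) 1, ∀ σ ∈ sphere (0 : ℂ) 1, 0 ≤ ker ψ τ σ)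
    {ι : Type*} [Fintype ι] (z : ι → E) (k : ℝ) (Q : ι → ι → Polynomial ℂ) :
    k ^ 2 * ∑ a, ∑ b, circleAverage (fun σ => ‖herm (Φ σ) (z a) (z b)‖ ^ 2) 0 1 ≤
      4 * ∑ a, ∑ b, circleAverage
        (fun σ => ‖(k : ℂ) * ⟪z a, Φ σ (z b)⟫_ℂ + negf ψ (Q a b) σ‖ ^ 2) 0 1 := by
  have h1 : ∀ a b, k ^ 2 * (circleAverage (fun σ => ‖⟪z a, Φ σ (z b)⟫_ℂ‖ ^ 2) 0 1 +
      ‖⟪z a, z b⟫_ℂ‖ ^ 2) ≤ 2 * circleAverage
        (fun σ => ‖(k : ℂ) * ⟪z a, Φ σ (z b)⟫_ℂ + negf ψ (Q a b) σ‖ ^ 2) 0 1 := by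
    intro a b
    have := h.scalar_ineq hR hk (Q a b) ((hΦ.diff_inner (z a) (z b)).const_mul (k : ℂ))
    simp only [hΦ.zero, one_apply_eq_self, norm_mul, mul_pow, Complex.norm_real,
      Real.norm_eq_abs, sq_abs, avg_const_mul_real] at this
    linarith
  simp only [hΦ.avg_herm hR, Finset.sum_add_distrib]
  rw [Finset.sum_comm (f := fun a b => circleAverage (fun σ => ‖⟪z b, Φ σ (z a)⟫_ℂ‖ ^ 2) 0 1)]
  have h2 := Finset.sum_le_sum fun a (_ : a ∈ Finset.univ) =>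
    Finset.sum_le_sum fun b (_ : b ∈ Finset.univ) => h1 a b
  simp only [← Finset.mul_sum, Finset.sum_add_distrib] at h2 ⊢
  linarith

end Resolv

/-- The operator `P[A]`. -/
noncomputable def polyOp {ι : Type*} [Fintype ι] (A : E →L[ℂ] E) (B : ι → ι → Polynomial ℂ) :
    PiLp 2 (fun _ : ι => E) →ₗ[ℂ] PiLp 2 (fun _ : ι => E) where
  toFun v := WithLp.toLp 2 fun i => ∑ j, Polynomial.aeval A (B i j) (v j)
  map_add' v w := by
    ext i
    simp [Finset.sum_add_distrib]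
  map_smul' c v := by
    ext i
    simp [Finset.smul_sum]

lemma exists_singular {F : Type*} [NormedAddCommGroup F] [InnerProductSpace ℂ F]
    [FiniteDimensional ℂ F] (W : F →L[ℂ] F) (hW : 0 < ‖W‖) :
    ∃ x y : F, ‖y‖ = 1 ∧ W y = (‖W‖ : ℂ) • x ∧ ∀ v, ⟪x, W v⟫_ℂ = (‖W‖ : ℂ) * ⟪y, v⟫_ℂ := by
  have := FiniteDimensional.complete ℂ F
  have := FiniteDimensional.proper ℂ F
  have hnt : Nontrivial F := by
    by_contra hn
    rw [not_nontrivial_iff_subsingleton] at hn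
    have : W = 0 := Subsingleton.elim _ _
    simp [this] at hW
  obtain ⟨y, hy, hmax⟩ := (isCompact_sphere (0 : F) 1).exists_isMaxOn
    (NormedSpace.sphere_nonempty (E := F).mpr zero_le_one) (f := fun v => ‖W v‖) (by fun_prop)
  have hy1 : ‖y‖ = 1 := by simpa using hy
  have hWy : ‖W y‖ = ‖W‖ := by
    apply le_antisymm
    · simpa [hy1] using W.le_opNorm y
    · refine ContinuousLinearMap.opNorm_le_of_unit_norm (norm_nonneg _) fun v hv => ?_
      exact hmax (by simpa using hv)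
  have hk : ((‖W‖ : ℝ) : ℂ) ≠ 0 := by exact_mod_cast hW.ne'
  have hadj : (ContinuousLinearMap.adjoint W) (W y) = ((‖W‖ ^ 2 : ℝ) : ℂ) • y := by
    rw [← sub_eq_zero, ← norm_eq_zero, ← pow_eq_zero_iff two_ne_zero]
    apply le_antisymm _ (sq_nonneg _)
    rw [@norm_sub_sq ℂ, inner_smul_right, ContinuousLinearMap.adjoint_inner_left,
      inner_self_eq_norm_sq_to_K, hWy, norm_smul, hy1]
    have h1 : ‖(ContinuousLinearMap.adjoint W) (W y)‖ ≤ ‖W‖ * ‖W‖ := by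
      have := (ContinuousLinearMap.adjoint W).le_opNorm (W y)
      rwa [hWy, LinearIsometryEquiv.norm_map] at this
    have h2 := pow_le_pow_left₀ (norm_nonneg _) h1 2
    have h3 : RCLike.re (((‖W‖ ^ 2 : ℝ) : ℂ) * ((‖W‖ : ℝ) : ℂ) ^ 2) = ‖W‖ ^ 2 * ‖W‖ ^ 2 := by
      rw [← Complex.ofReal_pow, ← Complex.ofReal_mul]
      exact Complex.ofReal_re _
    erw [h3]
    rw [Complex.norm_real, Real.norm_eq_abs, abs_of_nonneg (by positivity)]
    nlinarith
  refine ⟨((‖W‖ : ℝ) : ℂ)⁻¹ • W y, y, hy1, by rw [smul_inv_smul₀ hk], fun v => ?_⟩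
  rw [inner_smul_left, ← ContinuousLinearMap.adjoint_inner_left, hadj, inner_smul_left]
  simp only [map_inv₀, Complex.conj_ofReal]
  push_cast
  field_simp

/-- The core estimate, given a conformal map with the two positivity properties. -/
theorem core_conf [FiniteDimensional ℂ E] (A : E →L[ℂ] E) (z₀ : ℂ) {ψ : ℂ → ℂ} {R : ℝ}
    (h : Conf ψ R) (hR : 1 < R)
    (hk : ∀ τ ∈ sphere (0 : ℂ) 1, ∀ σ ∈ sphere (0 : ℂ) 1, 0 ≤ ker ψ τ σ)
    (hinv : ∀ τ ∈ ball (0 : ℂ) R, ∀ x, ‖x‖ = 1 → 1 - (⟪x, A x⟫_ℂ - z₀) * ψ τ ≠ 0)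
    (hpos : ∀ τ ∈ sphere (0 : ℂ) 1, ∀ x, ‖x‖ = 1 →
      0 ≤ ((1 - (⟪x, A x⟫_ℂ - z₀) * ψ τ) / qf ψ τ).re)
    {ι : Type*} [Fintype ι] [DecidableEq ι] (B : ι → ι → Polynomial ℂ) {M : ℝ}
    (hM : ∀ σ ∈ sphere (0 : ℂ) 1, ‖Matrix.toEuclideanCLM (n := ι) (𝕜 := ℂ)
      (Matrix.of fun i j => (B i j).eval (z₀ + (ψ σ)⁻¹))‖ ≤ M)
    (v : PiLp 2 (fun _ : ι => E)) : ‖polyOp A B v‖ ≤ 2 * M * ‖v‖ := by
  obtain ⟨Φ, hΦ⟩ := exists_resolv A z₀ h hR hinv hpos
  have hM0 : 0 ≤ M := (norm_nonneg _).trans (hM 1 (by simp))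
  set W := LinearMap.toContinuousLinearMap (polyOp A B) with hW
  suffices hn : ‖W‖ ≤ 2 * M from W.le_of_opNorm_le hn v
  rcases (norm_nonneg W).eq_or_lt with h0 | hWpos
  · rw [← h0]; positivity
  obtain ⟨x, y, hy, hWy, hWx⟩ := exists_singular W hWpos
  set k := ‖W‖ with hkdef
  have hWapp : ∀ v i, W v i = ∑ j, Polynomial.aeval A (B i j) (v j) := fun v i => rfl
  set u : ι → ι → ℂ → ℂ := fun a b σ => ⟪x a, Φ σ (y b)⟫_ℂ with hu
  have huc : ∀ a b, ContinuousOn (u a b) (sphere 0 1) := fun a b =>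
    (hΦ.diff_inner _ _).continuousOn.mono (sphere_sub_ball hR)
  have hic : ∀ a b : E, ContinuousOn (fun σ => ⟪a, Φ σ b⟫_ℂ) (sphere 0 1) := fun a b =>
    (hΦ.diff_inner _ _).continuousOn.mono (sphere_sub_ball hR)
  have hhc : ∀ a b : E, ContinuousOn (fun σ => herm (Φ σ) a b) (sphere 0 1) := fun a b => by
    have h1 := hic a b
    have h2 := hic b a
    unfold herm
    fun_prop
  set Nu := ∑ a, ∑ b, circleAverage (fun σ => ‖u a b σ‖ ^ 2) 0 1 with hNu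
  have hNu' : circleAverage (fun σ => ∑ a, ∑ b, ‖u a b σ‖ ^ 2) 0 1 = Nu := by
    rw [avg_sum one_pos _ (fun a _ => by fun_prop)]
    exact Finset.sum_congr rfl fun a _ => avg_sum one_pos _ (fun b _ => by fun_prop)
  choose Q hQ using hΦ.poly
  have negf_sum : ∀ (P : ι → Polynomial ℂ) σ, negf ψ (∑ i, P i) σ = ∑ i, negf ψ (P i) σ := by
    intro P σ
    simp [negf, Polynomial.eval_finsetSum, Finset.mul_sum]
  have general : ∀ (z : ι → E) (Q' : ι → ι → Polynomial ℂ),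
      (∀ σ ∈ sphere (0 : ℂ) 1, ∑ a, ∑ b, ‖(k : ℂ) * ⟪z a, Φ σ (z b)⟫_ℂ + negf ψ (Q' a b) σ‖ ^ 2 ≤
        M ^ 2 * ∑ a, ∑ b, ‖u a b σ‖ ^ 2) →
      k ^ 2 * ∑ a, ∑ b, circleAverage (fun σ => ‖herm (Φ σ) (z a) (z b)‖ ^ 2) 0 1 ≤
        4 * (M ^ 2 * Nu) := by
    intro z Q' hz
    refine (hΦ.side h hR hk z k Q').trans (mul_le_mul_of_nonneg_left ?_ (by norm_num))
    have hn := h.contOn_negf one_pos hR
    rw [← hNu', ← avg_const_mul_real]
    refine le_of_eq_of_le ?_ (avg_mono one_pos (by fun_prop) (by fun_prop) hz)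
    rw [avg_sum one_pos _ (fun a _ => by fun_prop)]
    exact Finset.sum_congr rfl fun a _ => (avg_sum one_pos _ (fun b _ => by fun_prop)).symm
  have hX := general (fun a => x a) (fun a i => ∑ b, Q (B i b) (x a) (y b)) (by
    intro σ hσ
    rw [Finset.mul_sum]
    refine Finset.sum_le_sum fun a _ => ?_
    refine le_of_eq_of_le ?_ (row_bound (hM σ hσ) fun b => u a b σ)
    refine Finset.sum_congr rfl fun i _ => ?_
    congr 2
    simp only [Matrix.of_apply, hu, hQ _ _ _ σ hσ, Finset.sum_add_distrib, negf_sum]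
    congr 1
    rw [← inner_sum, ← map_sum, ← hWapp, hWy, PiLp.smul_apply, map_smul, inner_smul_right])
  have hY := general (fun a => y a) (fun j b => ∑ a, Q (B a j) (x a) (y b)) (by
    intro σ hσ
    rw [Finset.sum_comm, Finset.sum_comm (f := fun a b => ‖u a b σ‖ ^ 2), Finset.mul_sum]
    refine Finset.sum_le_sum fun b _ => ?_
    refine le_of_eq_of_le ?_ (col_bound (hM σ hσ) fun a => u a b σ)
    refine Finset.sum_congr rfl fun j _ => ?_
    congr 2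
    simp only [Matrix.of_apply, hu, hQ _ _ _ σ hσ, Finset.sum_add_distrib, negf_sum]
    congr 1
    have h1 := hWx (WithLp.toLp 2 (Pi.single j (Φ σ (y b))))
    simp only [PiLp.inner_apply, hWapp, Pi.single_apply, apply_ite, map_zero,
      Finset.sum_ite_eq', Finset.mem_univ, if_true, inner_zero_right] at h1
    rw [← h1]
    simp only [hΦ.comm_poly _ hσ])
  have hXY : 2 * Nu ≤
      ∑ a, ∑ b, circleAverage (fun σ => ‖herm (Φ σ) (x a) (x b)‖ ^ 2) 0 1 +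
      ∑ a, ∑ b, circleAverage (fun σ => ‖herm (Φ σ) (y a) (y b)‖ ^ 2) 0 1 := by
    have h1 : Nu ≤ ∑ a, ∑ b, circleAverage (fun σ => ‖herm (Φ σ) (x a) (y b)‖ ^ 2) 0 1 := by
      refine Finset.sum_le_sum fun a _ => Finset.sum_le_sum fun b _ => ?_
      rw [hΦ.avg_herm hR]
      have := avg_nonneg (r := 1) (f := fun σ => ‖⟪y b, Φ σ (x a)⟫_ℂ‖ ^ 2) fun _ => by positivity
      have h2 : 0 ≤ 2 * ‖⟪x a, y b⟫_ℂ‖ ^ 2 := by positivity
      simp only [hu]
      linarith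
    have hs : ∀ z w : ι → E, ∑ a, ∑ b, circleAverage (fun σ => ‖herm (Φ σ) (z a) (w b)‖ ^ 2) 0 1
        = circleAverage (fun σ => ∑ a, ∑ b, ‖herm (Φ σ) (z a) (w b)‖ ^ 2) 0 1 := by
      intro z w
      rw [avg_sum one_pos _ (fun a _ => by fun_prop)]
      exact Finset.sum_congr rfl fun a _ => (avg_sum one_pos _ (fun b _ => by fun_prop)).symm
    rw [hs] at h1
    rw [hs, hs, ← avg_add one_pos (by fun_prop) (by fun_prop)]
    refine (mul_le_mul_of_nonneg_left h1 zero_le_two).trans ?_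
    rw [← avg_const_mul_real]
    exact avg_mono one_pos (by fun_prop) (by fun_prop) fun σ hσ =>
      block_ineq (Φ σ) (hΦ.pos σ hσ) _ _
  have hYpos : 0 < ∑ a, ∑ b, circleAverage (fun σ => ‖herm (Φ σ) (y a) (y b)‖ ^ 2) 0 1 := by
    obtain ⟨a, ha⟩ : ∃ a, y a ≠ 0 := by
      by_contra hcon
      push Not at hcon
      have : y = 0 := by ext a; exact hcon a
      simp [this] at hy
    refine Finset.sum_pos' (fun a _ => Finset.sum_nonneg fun b _ =>
      avg_nonneg fun _ => by positivity) ⟨a, Finset.mem_univ _, Finset.sum_pos'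
        (fun b _ => avg_nonneg fun _ => by positivity) ⟨a, Finset.mem_univ _, ?_⟩⟩
    rw [hΦ.avg_herm hR]
    have := avg_nonneg (r := 1) (f := fun σ => ‖⟪y a, Φ σ (y a)⟫_ℂ‖ ^ 2) fun _ => by positivity
    have h2 : 0 < ‖⟪y a, y a⟫_ℂ‖ := norm_pos_iff.mpr (inner_self_ne_zero.mpr ha)
    positivity
  have hNupos : 0 < Nu := by
    by_contra hcon
    push Not at hcon
    have h1 := mul_pos (pow_pos hWpos 2) hYpos
    nlinarith [sq_nonneg M]
  have h1 : k ^ 2 * Nu ≤ (2 * M) ^ 2 * Nu := by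
    have := mul_le_mul_of_nonneg_left hXY (sq_nonneg k)
    nlinarith
  exact (pow_le_pow_iff_left₀ hWpos.le (by positivity) two_ne_zero).mp
    (le_of_mul_le_mul_right h1 hNupos)

end Crest.Agent.Crouzeix
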