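import Crest.Agent.Crouzeix.Core

/-! The exterior conformal map of a convex compact set. -/

set_option autoImplicit false

open Set Metric Filter Topology Complex Real
open scoped ComplexConjugate InnerProductSpace

namespace Crest.Agent.Crouzeix

/-- Holomorphic inverse of an injective holomorphic map. -/
lemma exists_holo_inv {U : Set ℂ} (hU : IsOpen U) {f : ℂ → ℂ} (hf : DifferentiableOn ℂ f U)
    (hinj : InjOn f U) :
    IsOpen (f '' U) ∧ ∃ g : ℂ → ℂ, DifferentiableOn ℂ g (f '' U) ∧ (∀ z ∈ U, g (f z) = z) ∧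
      ∀ w ∈ f '' U, g w ∈ U ∧ f (g w) = w := by
  have hs : ∀ z ∈ U, HasStrictDerivAt f (deriv f z) z := fun z hz =>
    (hf.analyticAt (hU.mem_nhds hz)).hasStrictDerivAt
  have hne := fun z (hz : z ∈ U) => deriv_ne_zero_of_injOn hU hf hinj hz
  constructor
  · rw [isOpen_iff_mem_nhds]
    rintro _ ⟨z, hz, rfl⟩
    rw [← (hs z hz).map_nhds_eq (hne z hz)]
    exact image_mem_map (hU.mem_nhds hz)
  · have hl : ∀ z ∈ U, Function.invFunOn f U (f z) = z := fun z hz => hinj.leftInvOn_invFunOn hz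
    refine ⟨Function.invFunOn f U, ?_, hl, ?_⟩
    · rintro _ ⟨z, hz, rfl⟩
      exact ((hs z hz).to_local_left_inverse (hne z hz)
        (by filter_upwards [hU.mem_nhds hz] with w hw using hl w hw)
        ).hasDerivAt.differentiableAt.differentiableWithinAt
    · rintro _ ⟨z, hz, rfl⟩
      rw [hl z hz]
      exact ⟨hz, rfl⟩

/-- The inverted complement. -/
def invc (K : Set ℂ) : Set ℂ := {ζ | ∀ z ∈ K, z * ζ ≠ 1}

lemma isOpen_invc {K : Set ℂ} (hK : IsCompact K) : IsOpen (invc K) := by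
  rw [isOpen_iff_mem_nhds]
  intro ζ hζ
  refine hK.eventually_forall_of_forall_eventually (P := fun ζ z => z * ζ ≠ 1) fun z hz => ?_
  exact (continuous_snd.mul continuous_fst).continuousAt.eventually_ne (hζ z hz)

lemma zero_mem_invc (K : Set ℂ) : (0 : ℂ) ∈ invc K := fun z _ => by simp

/-- Riemann map of the inverted complement. -/
structure Ext (K : Set ℂ) (f ψ : ℂ → ℂ) : Prop where
  compact : IsCompact K
  convex : Convex ℝ K
  bdd : Bornology.IsBounded (invc K)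
  fdiff : DifferentiableOn ℂ f (invc K)
  finj : InjOn f (invc K)
  fmaps : ∀ ζ ∈ invc K, f ζ ∈ ball (0 : ℂ) 1
  fzero : f 0 = 0
  conf : Conf ψ 1
  maps : ∀ τ ∈ ball (0 : ℂ) 1, ψ τ ∈ invc K
  left : ∀ ζ ∈ invc K, ψ (f ζ) = ζ
  right : ∀ τ ∈ ball (0 : ℂ) 1, f (ψ τ) = τ

lemma exists_ext0 {K : Set ℂ} (hK : IsCompact K) (hc : Convex ℝ K) {δ : ℝ} (hδ : 0 < δ)
    (h0 : ball (0 : ℂ) δ ⊆ K) : ∃ f ψ, Ext K f ψ := by
  have h0K : (0 : ℂ) ∈ K := h0 (mem_ball_self hδ)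
  have hstar : StarConvex ℝ 0 (invc K) := by
    intro ζ hζ a b ha hb hab z hz
    have := hζ _ (hc h0K hz ha hb hab)
    simpa [mul_comm, mul_left_comm, mul_assoc] using this
  have hsc : IsSimplyConnected (invc K) := by
    have := hstar.contractibleSpace ⟨0, zero_mem_invc K⟩
    exact SimplyConnectedSpace.ofContractible _
  have hb : Bornology.IsBounded (invc K) := by
    refine (isBounded_closedBall (x := (0 : ℂ)) (r := δ⁻¹)).subset fun ζ hζ => ?_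
    rw [mem_closedBall_zero_iff]
    by_contra hlt
    push Not at hlt
    have hζ0 : 0 < ‖ζ‖ := (inv_pos.mpr hδ).trans hlt
    refine hζ ζ⁻¹ (h0 ?_) (inv_mul_cancel₀ (norm_pos_iff.mp hζ0))
    rw [mem_ball_zero_iff, norm_inv]
    exact inv_lt_of_inv_lt₀ hδ hlt
  obtain ⟨f, hf, hfi, hfU, hf0⟩ := exists_riemann_map (isOpen_invc hK) hsc hb (zero_mem_invc K)
  obtain ⟨-, ψ, hψ, hl, hr⟩ := exists_holo_inv (isOpen_invc hK) hf hfi
  rw [hfU] at hψ hr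
  refine ⟨f, ψ, hK, hc, hb, hf, hfi, fun ζ hζ => hfU ▸ mem_image_of_mem f hζ, hf0,
    ⟨one_pos, hψ, ?_, ?_⟩, fun τ hτ => (hr τ hτ).1, hl, fun τ hτ => (hr τ hτ).2⟩
  · intro a ha b hb hab
    rw [← (hr a ha).2, hab, (hr b hb).2]
  · have := hl 0 (zero_mem_invc K)
    rwa [hf0] at this

/-- `D τ` approaches `K` as `‖τ‖ → 1`. -/
def Appr (K : Set ℂ) (D : ℂ → ℂ) : Prop :=
  ∀ ε > 0, ∃ ρ < 1, ∀ τ : ℂ, ρ < ‖τ‖ → ‖τ‖ < 1 → D τ ∈ thickening ε K

namespace Ext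
variable {K : Set ℂ} {f ψ : ℂ → ℂ} (h : Ext K f ψ)
include h

lemma appr_inv : Appr K fun τ => (ψ τ)⁻¹ := by
  intro ε hε
  have hC : IsCompact (invc (thickening ε K)) := by
    refine Metric.isCompact_of_isClosed_isBounded ?_ ?_
    · rw [← isOpen_compl_iff, isOpen_iff_mem_nhds]
      intro ζ hζ
      simp only [invc, mem_compl_iff, mem_ofPred_eq, not_forall, not_not] at hζ
      obtain ⟨z, hz, hzζ⟩ := hζ
      have hζ0 : ζ ≠ 0 := by rintro rfl; simp at hzζ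
      have hz' : z = ζ⁻¹ := eq_inv_of_mul_eq_one_left hzζ
      have h1 : ∀ᶠ w in 𝓝 ζ, w⁻¹ ∈ thickening ε K :=
        (continuousAt_inv₀ hζ0).eventually (isOpen_thickening.mem_nhds (hz' ▸ hz))
      filter_upwards [h1, isOpen_ne.mem_nhds hζ0] with w hw hw0 hcon
      exact hcon _ hw (inv_mul_cancel₀ hw0)
    · exact h.bdd.subset fun ζ hζ z hz => hζ z (self_subset_thickening hε K hz)
  have hsub : invc (thickening ε K) ⊆ invc K :=
    fun ζ hζ z hz => hζ z (self_subset_thickening hε K hz)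
  obtain ⟨ρ, hρ, hρ2⟩ := exists_lt_subset_ball
    (hC.image_of_continuousOn (h.fdiff.continuousOn.mono hsub)).isClosed
    (x := (0 : ℂ)) (r := 1) (by rintro _ ⟨ζ, hζ, rfl⟩; exact h.fmaps ζ (hsub hζ))
  refine ⟨max ρ 0, max_lt hρ one_pos, fun τ h1 h2 => ?_⟩
  have hτ : τ ∈ ball (0 : ℂ) 1 := by simpa using h2
  have hτ0 : τ ≠ 0 := norm_pos_iff.mp ((le_max_right _ _).trans_lt h1)
  have h3 : ψ τ ∉ invc (thickening ε K) := by
    intro hcon
    have := hρ2 (mem_image_of_mem f hcon)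
    rw [h.right τ hτ, mem_ball_zero_iff] at this
    linarith [le_max_left ρ 0]
  simp only [invc, mem_ofPred_eq, not_forall, not_not] at h3
  obtain ⟨z, hz, hzζ⟩ := h3
  rw [eq_inv_of_mul_eq_one_left hzζ] at hz
  exact hz

lemma dslope_ne {ζ : ℂ} (hζ : ζ ∈ invc K) : dslope f 0 ζ ≠ 0 := by
  rcases eq_or_ne ζ 0 with rfl | hne
  · rw [dslope_same]
    exact deriv_ne_zero_of_injOn (isOpen_invc h.compact) h.fdiff h.finj hζ
  · rw [Conf.dslope_eq hne]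
    exact div_ne_zero (sub_ne_zero.mpr fun e => hne (h.finj hζ (zero_mem_invc K) e))
      (by simpa using hne)

lemma f_eq (ζ : ℂ) : f ζ = ζ * dslope f 0 ζ := by
  have := sub_smul_dslope f 0 ζ
  rw [h.fzero] at this
  simpa using this.symm

/-- The maximum principle argument. -/
lemma green {Δ : ℂ → ℂ} (hΔ : DifferentiableOn ℂ Δ (ball 0 1)) (hΔ0 : Δ 0 ≠ 0)
    (happ : Appr K fun τ => Δ τ / τ) {τ₀ : ℂ} (hτ₀ : τ₀ ∈ ball (0 : ℂ) 1) (h1 : Δ τ₀ ≠ 0)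
    (h2 : τ₀ / Δ τ₀ ∈ invc K) : ‖τ₀‖ ≤ ‖f (τ₀ / Δ τ₀)‖ := by
  by_contra hcon
  push Not at hcon
  have ht0 : 0 < ‖τ₀‖ := (norm_nonneg _).trans_lt hcon
  have ht1 : ‖τ₀‖ < 1 := by simpa using hτ₀
  obtain ⟨r, hr1, hr2⟩ := exists_between ((div_lt_one ht0).mpr hcon)
  have hr3 : ‖f (τ₀ / Δ τ₀)‖ < r := (le_div_self (norm_nonneg _) ht0 ht1.le).trans_lt hr1
  have hr0 : 0 < r := (norm_nonneg _).trans_lt hr3
  set C := ψ '' closedBall 0 r with hC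
  have hrb : closedBall (0 : ℂ) r ⊆ ball 0 1 := closedBall_subset_ball hr2
  have hCc : IsCompact C :=
    (isCompact_closedBall 0 r).image_of_continuousOn (h.conf.diff.continuousOn.mono hrb)
  have hCU : C ⊆ invc K := by rintro _ ⟨τ, hτ, rfl⟩; exact h.maps τ (hrb hτ)
  obtain ⟨ε, hε, hεK⟩ := h.compact.exists_thickening_subset_open (isOpen_invc hCc)
    (fun z hz ζ hζ => by rw [mul_comm]; exact hCU hζ z hz)
  obtain ⟨ρ', hρ', happ'⟩ := happ ε hε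
  set ρ := max ρ' 0 with hρdef
  have hρ : ρ < 1 := max_lt hρ' one_pos
  have hρb : closedBall (0 : ℂ) ρ ⊆ ball 0 1 := closedBall_subset_ball hρ
  set O' : Set ℂ := {τ | τ ∈ ball (0 : ℂ) 1 ∧ Δ τ ≠ 0 ∧ τ / Δ τ ∈ invc K} with hO'
  have hζd : DifferentiableOn ℂ (fun τ => τ / Δ τ) O' :=
    differentiableOn_id.div (hΔ.mono fun τ hτ => hτ.1) fun τ hτ => hτ.2.1
  have hO'o : IsOpen O' := by
    rw [isOpen_iff_mem_nhds]
    rintro τ ⟨a1, a2, a3⟩
    have c1 : ContinuousAt Δ τ := hΔ.continuousOn.continuousAt (isOpen_ball.mem_nhds a1)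
    have c2 : ContinuousAt (fun τ => τ / Δ τ) τ := continuousAt_id.div c1 a2
    filter_upwards [isOpen_ball.mem_nhds a1, c1.eventually_ne a2,
      c2.eventually ((isOpen_invc h.compact).mem_nhds a3)] with w b1 b2 b3 using ⟨b1, b2, b3⟩
  have hfζ : DifferentiableOn ℂ (fun τ => f (τ / Δ τ)) O' :=
    h.fdiff.comp hζd fun τ hτ => hτ.2.2
  set O : Set ℂ := O' ∩ (fun τ => f (τ / Δ τ)) ⁻¹' ball 0 r with hO
  have hOo : IsOpen O := hfζ.continuousOn.isOpen_inter_preimage hO'o isOpen_ball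
  set S : Set ℂ := Prod.fst '' ((closedBall (0 : ℂ) ρ ×ˢ C) ∩ {p | p.1 - p.2 * Δ p.1 = 0})
    with hS
  have hSc : IsCompact S := by
    refine IsCompact.image ?_ continuous_fst
    have hK2 : IsCompact (closedBall (0 : ℂ) ρ ×ˢ C) := (isCompact_closedBall _ _).prod hCc
    have hcont : ContinuousOn (fun p : ℂ × ℂ => p.1 - p.2 * Δ p.1) (closedBall (0 : ℂ) ρ ×ˢ C) :=
      continuousOn_fst.sub (continuousOn_snd.mul
        (hΔ.continuousOn.comp continuousOn_fst fun p hp => hρb hp.1))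
    exact hK2.of_isClosed_subset
      (hcont.preimage_isClosed_of_isClosed hK2.isClosed (t := {0}) isClosed_singleton)
      inter_subset_left
  have hOS : O ⊆ S := by
    rintro τ ⟨⟨a1, a2, a3⟩, a4⟩
    have hζC : τ / Δ τ ∈ C := ⟨f (τ / Δ τ), ball_subset_closedBall a4, h.left _ a3⟩
    refine ⟨(τ, τ / Δ τ), ⟨⟨?_, hζC⟩, ?_⟩, rfl⟩
    · rw [mem_closedBall_zero_iff]
      by_contra hlt
      push Not at hlt
      have hτ0 : τ ≠ 0 := norm_pos_iff.mp ((le_max_right _ _).trans_lt hlt)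
      refine hεK (happ' τ ((le_max_left _ _).trans_lt hlt) (by simpa using a1)) _ hζC ?_
      field_simp
    · simp only [mem_ofPred_eq]
      field_simp
      ring
  have hSO : ∀ τ ∈ S, τ ∈ O' ∧ τ / Δ τ ∈ C := by
    rintro _ ⟨⟨τ, ζ⟩, ⟨⟨a1, a2⟩, a3⟩, rfl⟩
    simp only [mem_ofPred_eq] at a1 a2 a3 ⊢
    have hΔτ : Δ τ ≠ 0 := by
      intro e
      rw [e, mul_zero, sub_zero] at a3
      rw [a3] at e
      exact hΔ0 e
    have : τ / Δ τ = ζ := by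
      field_simp
      linear_combination a3
    exact ⟨⟨hρb a1, hΔτ, this ▸ hCU a2⟩, this ▸ a2⟩
  have hcl : closure O ⊆ S := closure_minimal hOS hSc.isClosed
  set Ψ : ℂ → ℂ := fun τ => Δ τ / dslope f 0 (τ / Δ τ) with hΨ
  have hΨd : DifferentiableOn ℂ Ψ O' := by
    refine (hΔ.mono fun τ hτ => hτ.1).div ?_ fun τ hτ => h.dslope_ne hτ.2.2
    exact ((Complex.differentiableOn_dslope ((isOpen_invc h.compact).mem_nhds
      (zero_mem_invc K))).mpr h.fdiff).comp hζd fun τ hτ => hτ.2.2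
  have hΨf : ∀ τ ∈ O', ‖Ψ τ‖ * ‖f (τ / Δ τ)‖ = ‖τ‖ := by
    rintro τ ⟨a1, a2, a3⟩
    have := h.dslope_ne a3
    rw [← norm_mul, h.f_eq, hΨ]
    congr 1
    simp only
    field_simp
  have hle : ‖Ψ τ₀‖ ≤ r⁻¹ := by
    refine Complex.norm_le_of_forall_mem_frontier_norm_le (U := O)
      (hSc.isBounded.subset hOS) ?_ ?_ (subset_closure ⟨⟨hτ₀, h1, h2⟩, by simpa using hr3⟩)
    · exact (hΨd.mono fun τ hτ => (hSO τ (hcl hτ)).1).diffContOnCl
    · intro τ hτ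
      rw [hOo.frontier_eq] at hτ
      obtain ⟨a1, -⟩ := hSO τ (hcl hτ.1)
      have a2 : r ≤ ‖f (τ / Δ τ)‖ := by
        by_contra hlt
        exact hτ.2 ⟨a1, by simpa using hlt⟩
      have a3 := hΨf τ a1
      have a4 : ‖τ‖ < 1 := by simpa using a1.1
      rw [← one_div, le_div_iff₀ hr0]
      nlinarith [norm_nonneg (Ψ τ)]
  have a3 := hΨf τ₀ ⟨hτ₀, h1, h2⟩
  rw [div_lt_iff₀ ht0] at hr1
  have a4 : ‖Ψ τ₀‖ * r ≤ 1 := by rwa [← one_div, le_div_iff₀ hr0] at hle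
  nlinarith [norm_nonneg (Ψ τ₀), norm_nonneg (f (τ₀ / Δ τ₀))]

/-- The differentiated form. -/
lemma re_nonneg {Δ : ℂ → ℂ} (hΔ : DifferentiableOn ℂ Δ (ball 0 1))
    (happ : Appr K fun τ => Δ τ / τ) {τ₀ : ℂ} (hτ₀ : τ₀ ∈ ball (0 : ℂ) 1) (hne : τ₀ ≠ 0) :
    0 ≤ ((1 - Δ τ₀ / τ₀ * ψ τ₀) / qf ψ τ₀).re := by
  set Δg : ℂ → ℂ := fun τ => (dslope ψ 0 τ)⁻¹ with hΔg
  have hΔgd : DifferentiableOn ℂ Δg (ball 0 1) :=
    (h.conf.diff_dslope h.conf.zero_mem).inv fun _ hz => h.conf.dslope_ne hz h.conf.zero_mem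
  have hΔge : ∀ τ, Δg τ / τ = (ψ τ)⁻¹ := by
    intro τ
    rw [h.conf.eq_mul_dslope τ, hΔg, mul_inv]
    ring
  have hψ0 := h.conf.ne_zero hτ₀ hne
  have hψ' := h.conf.deriv_ne hτ₀
  set g := (ψ τ₀)⁻¹ with hg
  set b := Δ τ₀ / τ₀ with hb
  have hg0 : g ≠ 0 := inv_ne_zero hψ0
  have hfd : HasDerivAt f (deriv ψ τ₀)⁻¹ (ψ τ₀) :=
    ((h.conf.diff.analyticAt (isOpen_ball.mem_nhds hτ₀)).hasStrictDerivAt.to_local_left_inverse
      hψ' (by filter_upwards [isOpen_ball.mem_nhds hτ₀] with w hw using h.right w hw)).hasDerivAt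
  have hD : HasDerivAt (fun s : ℂ => g + s * (b - g)) (b - g) 0 := by
    simpa using ((hasDerivAt_id (0 : ℂ)).mul_const (b - g)).const_add g
  have hζ : HasDerivAt (fun s : ℂ => (g + s * (b - g))⁻¹) (-(b - g) / g ^ 2) 0 := by
    simpa using hD.fun_inv (by simpa using hg0)
  have hφ : HasDerivAt (fun s : ℂ => f (g + s * (b - g))⁻¹ / τ₀)
      ((1 - b * ψ τ₀) / qf ψ τ₀) 0 := by
    have := ((hfd.comp_of_eq (0 : ℂ) hζ (by simp [hg])).div_const τ₀)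
    refine this.congr_deriv ?_
    rw [h.conf.q_eq hτ₀ hne, hg]
    field_simp
    ring
  have hφ0 : f (g + ((0 : ℝ) : ℂ) * (b - g))⁻¹ / τ₀ = 1 := by
    simp [hg, h.right τ₀ hτ₀, hne]
  have hN := (HasDerivAt.comp_ofReal (z := (0 : ℝ)) (by simpa using hφ)).norm_sq
  simp only [hφ0] at hN
  have hev : ∀ᶠ s : ℝ in 𝓝[>] 0, 1 ≤ ‖f (g + (s : ℂ) * (b - g))⁻¹ / τ₀‖ := by
    have c0 : Tendsto (fun s : ℝ => (s : ℂ)) (𝓝[>] 0) (𝓝 0) :=
      (Complex.continuous_ofReal.tendsto' 0 0 (by simp)).mono_left nhdsWithin_le_nhds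
    have c1 : ∀ᶠ s : ℂ in 𝓝 0, Δg 0 + s * (Δ 0 - Δg 0) ≠ 0 := by
      refine ContinuousAt.eventually_ne (by fun_prop) ?_
      simpa [hΔg] using h.conf.deriv_ne h.conf.zero_mem
    have c2 : ∀ᶠ s : ℂ in 𝓝 0, g + s * (b - g) ≠ 0 :=
      ContinuousAt.eventually_ne (by fun_prop) (by simpa using hg0)
    have c3 : ∀ᶠ s : ℂ in 𝓝 0, (g + s * (b - g))⁻¹ ∈ invc K :=
      hζ.continuousAt.eventually ((isOpen_invc h.compact).mem_nhds
        (by simpa [hg] using h.maps τ₀ hτ₀))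
    filter_upwards [c0.eventually c1, c0.eventually c2, c0.eventually c3,
      Ioo_mem_nhdsGT (zero_lt_one' ℝ)] with s d1 d2 d3 d4
    have e1 : ∀ τ, (Δg τ + s * (Δ τ - Δg τ)) / τ = (ψ τ)⁻¹ + s * (Δ τ / τ - (ψ τ)⁻¹) := by
      intro τ
      rw [← hΔge]
      ring
    have e2 : τ₀ / (Δg τ₀ + s * (Δ τ₀ - Δg τ₀)) = (g + s * (b - g))⁻¹ := by
      rw [hg, hb, ← e1, inv_div]
    have := h.green (Δ := fun τ => Δg τ + s * (Δ τ - Δg τ))
      (hΔgd.add ((hΔ.sub hΔgd).const_mul _)) d1 (by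
        intro ε hε
        obtain ⟨ρ₁, a1, a2⟩ := h.appr_inv ε hε
        obtain ⟨ρ₂, b1, b2⟩ := happ ε hε
        refine ⟨max ρ₁ ρ₂, max_lt a1 b1, fun τ t1 t2 => ?_⟩
        have := (h.convex.thickening ε).add_smul_sub_mem
          (a2 τ ((le_max_left _ _).trans_lt t1) t2) (b2 τ ((le_max_right _ _).trans_lt t1) t2)
          (t := s) ⟨d4.1.le, d4.2.le⟩
        beta_reduce
        rw [e1]
        simpa using this) hτ₀ (by
        intro e
        apply d2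
        rw [hg, hb, ← e1, e, zero_div]) (by rw [e2]; exact d3)
    beta_reduce at this
    rw [e2] at this
    rw [norm_div, one_le_div (norm_pos_iff.mpr hne)]
    exact this
  have hs := (hasDerivAt_iff_tendsto_slope_zero.mp hN).mono_left
    (nhdsWithin_mono _ (fun s (hs : 0 < s) => hs.ne') : 𝓝[>] (0 : ℝ) ≤ 𝓝[≠] 0)
  have := ge_of_tendsto (b := 0) hs (by
    filter_upwards [hev, self_mem_nhdsWithin] with s h1 (h2 : 0 < s)
    simp only [zero_add, hφ0, norm_one, one_pow, smul_eq_mul]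
    refine mul_nonneg (inv_nonneg.mpr h2.le) ?_
    nlinarith)
  simpa [Complex.inner] using this

lemma H2 {z : ℂ} (hz : z ∈ K) {τ₀ : ℂ} (hτ₀ : τ₀ ∈ ball (0 : ℂ) 1) (hne : τ₀ ≠ 0) :
    0 ≤ ((1 - z * ψ τ₀) / qf ψ τ₀).re := by
  have := h.re_nonneg (Δ := fun τ => z * τ) (differentiableOn_id.const_mul z) (by
    intro ε hε
    refine ⟨0, one_pos, fun τ h1 _ => ?_⟩
    have : τ ≠ 0 := norm_pos_iff.mp h1
    simpa [this] using self_subset_thickening hε K hz) hτ₀ hne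
  simpa [hne] using this

lemma H1 {α : ℂ} (hα : ‖α‖ = 1) {τ₀ : ℂ} (hτ₀ : τ₀ ∈ ball (0 : ℂ) 1) (hne : τ₀ ≠ 0) :
    0 ≤ ((1 - (ψ (α * τ₀))⁻¹ * ψ τ₀) / qf ψ τ₀).re := by
  have hm : ∀ τ ∈ ball (0 : ℂ) 1, α * τ ∈ ball (0 : ℂ) 1 := by
    intro τ hτ
    simpa [hα] using hτ
  have he : ∀ τ, (α * dslope ψ 0 (α * τ))⁻¹ / τ = (ψ (α * τ))⁻¹ := by
    intro τ
    rw [h.conf.eq_mul_dslope (α * τ)]
    simp only [mul_inv]
    ring
  have hα0 : α ≠ 0 := by rintro rfl; simp at hα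
  have := h.re_nonneg (Δ := fun τ => (α * dslope ψ 0 (α * τ))⁻¹) (by
    refine DifferentiableOn.inv (DifferentiableOn.const_mul ?_ _) fun τ hτ =>
      mul_ne_zero hα0 (h.conf.dslope_ne (hm τ hτ) h.conf.zero_mem)
    exact (h.conf.diff_dslope h.conf.zero_mem).comp (differentiableOn_id.const_mul α) hm) (by
    intro ε hε
    obtain ⟨ρ, a1, a2⟩ := h.appr_inv ε hε
    refine ⟨ρ, a1, fun τ h1 h2 => ?_⟩
    beta_reduce
    rw [he]
    exact a2 (α * τ) (by simpa [hα] using h1) (by simpa [hα] using h2)) hτ₀ hne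
  rwa [he] at this

end Ext

lemma exists_ext {K : Set ℂ} (hK : IsCompact K) (hc : Convex ℝ K) {δ : ℝ} (hδ : 0 < δ)
    (h0 : ball (0 : ℂ) δ ⊆ K) {ε : ℝ} (hε : 0 < ε) :
    ∃ (ψ : ℂ → ℂ) (R : ℝ), Conf ψ R ∧ 1 < R ∧
      (∀ τ ∈ sphere (0 : ℂ) 1, ∀ σ ∈ sphere (0 : ℂ) 1, 0 ≤ ker ψ τ σ) ∧
      (∀ τ ∈ ball (0 : ℂ) R, ∀ z ∈ K, 1 - z * ψ τ ≠ 0) ∧
      (∀ τ ∈ sphere (0 : ℂ) 1, ∀ z ∈ K, 0 ≤ ((1 - z * ψ τ) / qf ψ τ).re) ∧
      ∀ σ ∈ sphere (0 : ℂ) 1, (ψ σ)⁻¹ ∈ thickening ε K := by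
  obtain ⟨f, ψ, h⟩ := exists_ext0 hK hc hδ h0
  obtain ⟨ρ', hρ', happ⟩ := h.appr_inv ε hε
  obtain ⟨ρ, hρ1, hρ2⟩ := exists_between (max_lt hρ' one_pos)
  have hρ0 : 0 < ρ := (le_max_right _ _).trans_lt hρ1
  have hρc : (ρ : ℂ) ≠ 0 := by exact_mod_cast hρ0.ne'
  have hn : ∀ τ : ℂ, ‖(ρ : ℂ) * τ‖ = ρ * ‖τ‖ := fun τ => by
    rw [norm_mul, Complex.norm_real, Real.norm_eq_abs, abs_of_pos hρ0]
  have hm : ∀ τ ∈ ball (0 : ℂ) ρ⁻¹, (ρ : ℂ) * τ ∈ ball (0 : ℂ) 1 := by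
    intro τ hτ
    rw [mem_ball_zero_iff] at hτ ⊢
    rw [hn, ← lt_inv_mul_iff₀ hρ0, mul_one]
    exact hτ
  have hR : 1 < ρ⁻¹ := (one_lt_inv₀ hρ0).mpr hρ2
  have hconf : Conf (fun τ => ψ (ρ * τ)) ρ⁻¹ := by
    refine ⟨inv_pos.mpr hρ0, h.conf.diff.comp (differentiableOn_id.const_mul _) hm, ?_, ?_⟩
    · intro a ha b hb hab
      exact mul_left_cancel₀ hρc (h.conf.inj (hm a ha) (hm b hb) hab)
    · simp [h.conf.zero]
  have hq : ∀ τ ∈ sphere (0 : ℂ) 1, qf (fun τ => ψ (ρ * τ)) τ = qf ψ (ρ * τ) := by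
    intro τ hτ
    have h1 := sphere_sub_ball hR hτ
    have h2 := Conf.ne_zero_of_sphere one_pos hτ
    rw [hconf.q_eq h1 h2, h.conf.q_eq (hm τ h1) (mul_ne_zero hρc h2)]
    have h3 : HasDerivAt (fun τ => ψ (ρ * τ)) (deriv ψ (ρ * τ) * ρ) τ := by
      have := (h.conf.hasDerivAt (hm τ h1)).comp τ ((hasDerivAt_id τ).const_mul (ρ : ℂ))
      rw [mul_one] at this
      exact this
    rw [h3.deriv]
    ring
  refine ⟨fun τ => ψ (ρ * τ), ρ⁻¹, hconf, hR, ?_, ?_, ?_, ?_⟩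
  · intro τ hτ σ hσ
    have h1 := sphere_sub_ball hR hτ
    have h2 := Conf.ne_zero_of_sphere one_pos hτ
    have h1' := sphere_sub_ball hR hσ
    have h2' := Conf.ne_zero_of_sphere one_pos hσ
    have h3 := h.H1 (α := σ / τ) (by
      rw [norm_div, mem_sphere_zero_iff_norm.mp hσ, mem_sphere_zero_iff_norm.mp hτ, div_one])
      (hm τ h1) (mul_ne_zero hρc h2)
    have h4 : σ / τ * (ρ * τ) = ρ * σ := by field_simp
    rw [h4] at h3
    have h5 := h.conf.ne_zero (hm σ h1') (mul_ne_zero hρc h2')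
    have h6 : qf ψ (ρ * τ) * (ψ (ρ * σ) / (ψ (ρ * σ) - ψ (ρ * τ))) =
        ((1 - (ψ (ρ * σ))⁻¹ * ψ (ρ * τ)) / qf ψ (ρ * τ))⁻¹ := by
      have : 1 - (ψ (ρ * σ))⁻¹ * ψ (ρ * τ) = (ψ (ρ * σ) - ψ (ρ * τ)) / ψ (ρ * σ) := by
        field_simp
      rw [this, inv_div, div_div_eq_mul_div, mul_div_assoc]
    rw [ker, hq τ hτ, h6, Complex.inv_re]
    exact mul_nonneg zero_le_two (div_nonneg h3 (Complex.normSq_nonneg _))
  · intro τ hτ z hz
    exact sub_ne_zero.mpr (h.maps _ (hm τ hτ) z hz).symm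
  · intro τ hτ z hz
    rw [hq τ hτ]
    exact h.H2 hz (hm τ (sphere_sub_ball hR hτ))
      (mul_ne_zero hρc (Conf.ne_zero_of_sphere one_pos hτ))
  · intro σ hσ
    refine happ (ρ * σ) ?_ ?_
    · rw [hn, mem_sphere_zero_iff_norm.mp hσ, mul_one]
      exact (le_max_left _ _).trans_lt hρ1
    · rw [hn, mem_sphere_zero_iff_norm.mp hσ, mul_one]
      exact hρ2

variable {E : Type*} [NormedAddCommGroup E] [InnerProductSpace ℂ E]

lemma core_thick [FiniteDimensional ℂ E] (A : E →L[ℂ] E) {K : Set ℂ} (hK : IsCompact K)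
    (hc : Convex ℝ K) (hne : K.Nonempty) (hA : ∀ x, ‖x‖ = 1 → ⟪x, A x⟫_ℂ ∈ K)
    {ι : Type*} [Fintype ι] [DecidableEq ι] (B : ι → ι → Polynomial ℂ) {M ε : ℝ} (hε : 0 < ε)
    (hM : ∀ z ∈ thickening ε K, ‖Matrix.toEuclideanCLM (n := ι) (𝕜 := ℂ)
      (Matrix.of fun i j => (B i j).eval z)‖ ≤ M)
    (v : PiLp 2 (fun _ : ι => E)) : ‖polyOp A B v‖ ≤ 2 * M * ‖v‖ := by
  obtain ⟨z₀, hz₀⟩ := hne
  set K' : Set ℂ := (fun z => z - z₀) '' cthickening (ε / 3) K with hK'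
  have hK'c : IsCompact K' := hK.cthickening.image (by fun_prop)
  have hK'v : Convex ℝ K' := by
    have := (hc.cthickening (ε / 3)).translate (-z₀)
    simpa [hK', sub_eq_add_neg, add_comm] using this
  have hball : ball (0 : ℂ) (ε / 3) ⊆ K' := by
    intro w hw
    refine ⟨w + z₀, mem_cthickening_of_dist_le _ z₀ _ _ hz₀ ?_, by simp⟩
    simpa using (mem_ball_zero_iff.mp hw).le
  obtain ⟨ψ, R, h, hR, hk, hinv, hpos, hcurve⟩ :=
    exists_ext hK'c hK'v (by positivity) hball (ε := ε / 3) (by positivity)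
  have hmem : ∀ x, ‖x‖ = 1 → ⟪x, A x⟫_ℂ - z₀ ∈ K' := fun x hx =>
    ⟨_, self_subset_cthickening K (hA x hx), rfl⟩
  refine core_conf A z₀ h hR hk (fun τ hτ x hx => hinv τ hτ _ (hmem x hx))
    (fun τ hτ x hx => hpos τ hτ _ (hmem x hx)) B (fun σ hσ => hM _ ?_) v
  obtain ⟨_, ⟨w, hw, rfl⟩, hd⟩ := mem_thickening_iff.mp (hcurve σ hσ)
  obtain ⟨w', hw', hd'⟩ := mem_thickening_iff.mp
    (cthickening_subset_thickening' (δ₁ := ε / 3) (δ₂ := 2 * ε / 3) (by positivity)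
      (by linarith) K hw)
  refine mem_thickening_iff.mpr ⟨w', hw', ?_⟩
  have h1 : dist (z₀ + (ψ σ)⁻¹) w = dist (ψ σ)⁻¹ (w - z₀) := by
    rw [dist_eq_norm, dist_eq_norm]; congr 1; ring
  linarith [dist_triangle (z₀ + (ψ σ)⁻¹) w w']

/-- The completely bounded Crouzeix inequality for a compact convex set containing the numerical
range, in finite dimension. -/
theorem core [FiniteDimensional ℂ E] (A : E →L[ℂ] E) {K : Set ℂ} (hK : IsCompact K)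
    (hc : Convex ℝ K) (hne : K.Nonempty) (hA : ∀ x, ‖x‖ = 1 → ⟪x, A x⟫_ℂ ∈ K)
    {ι : Type*} [Fintype ι] [DecidableEq ι] (B : ι → ι → Polynomial ℂ) {M : ℝ}
    (hM : ∀ z ∈ K, ‖Matrix.toEuclideanCLM (n := ι) (𝕜 := ℂ)
      (Matrix.of fun i j => (B i j).eval z)‖ ≤ M)
    (v : PiLp 2 (fun _ : ι => E)) : ‖polyOp A B v‖ ≤ 2 * M * ‖v‖ := by
  have hcont : Continuous fun z : ℂ => ‖Matrix.toEuclideanCLM (n := ι) (𝕜 := ℂ)
      (Matrix.of fun i j => (B i j).eval z)‖ := by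
    refine Continuous.norm ?_
    refine (LinearMap.continuous_of_finiteDimensional
      (Matrix.toEuclideanCLM (n := ι) (𝕜 := ℂ)).toAlgEquiv.toLinearMap).comp ?_
    exact continuous_matrix fun i j => (B i j).continuous
  have key : ∀ η > 0, ‖polyOp A B v‖ ≤ 2 * (M + η) * ‖v‖ := by
    intro η hη
    obtain ⟨ε, hε, hsub⟩ := hK.exists_thickening_subset_open
      (isOpen_lt hcont (continuous_const (y := M + η)))
      (fun z hz => (hM z hz).trans_lt (by linarith))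
    exact core_thick A hK hc hne hA B hε (fun z hz => (hsub hz).le) v
  have hlim : Tendsto (fun η : ℝ => 2 * (M + η) * ‖v‖) (𝓝[>] 0) (𝓝 (2 * (M + 0) * ‖v‖)) :=
    (Continuous.tendsto (by fun_prop) 0).mono_left nhdsWithin_le_nhds
  rw [add_zero] at hlim
  exact ge_of_tendsto hlim (by filter_upwards [self_mem_nhdsWithin] with η hη using key η hη)

end Crest.Agent.Crouzeix
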