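import Crest.Agent.Crouzeix.Circle

/-! A Grunsky type inequality for convex curves. -/

set_option autoImplicit false

open Set Metric Filter Topology Complex Real MeasureTheory
open scoped ComplexConjugate

namespace Crest.Agent.Crouzeix

lemma laurent_mono {R : ℝ} (hR : 0 < R) {g : ℂ → ℂ} (hg : DifferentiableOn ℂ g (ball 0 R))
    (l : ℕ) : ∃ (P : Polynomial ℂ) (b : ℂ → ℂ), DifferentiableOn ℂ b (ball 0 R) ∧
      ∀ σ, σ ≠ 0 → g σ * σ⁻¹ ^ l = σ⁻¹ * P.eval σ⁻¹ + b σ := by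
  induction l with
  | zero => exact ⟨0, g, hg, fun σ _ => by simp⟩
  | succ l ih =>
    obtain ⟨P, b, hb, h⟩ := ih
    refine ⟨Polynomial.X * P + Polynomial.C (b 0), dslope b 0,
      (Complex.differentiableOn_dslope (ball_mem_nhds 0 hR)).mpr hb, fun σ hσ => ?_⟩
    rw [pow_succ, ← mul_assoc, h σ hσ, Conf.dslope_eq hσ]
    simp only [Polynomial.eval_add, Polynomial.eval_mul, Polynomial.eval_X, Polynomial.eval_C,
      sub_zero]
    generalize P.eval σ⁻¹ = w
    field_simp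
    ring

lemma negf_id (P : Polynomial ℂ) (σ : ℂ) : negf id P σ = σ⁻¹ * P.eval σ⁻¹ := by
  simp [negf, qf_id]

lemma Conf.laurent {ψ : ℂ → ℂ} {R : ℝ} (h : Conf ψ R) (Q : Polynomial ℂ) :
    ∃ (P : Polynomial ℂ) (b : ℂ → ℂ), DifferentiableOn ℂ b (ball 0 R) ∧
      ∀ σ, σ ≠ 0 → negf ψ Q σ = negf id P σ + b σ := by
  induction Q using Polynomial.induction_on' with
  | add P Q hP hQ =>
    obtain ⟨P₁, b₁, hb₁, h₁⟩ := hP
    obtain ⟨P₂, b₂, hb₂, h₂⟩ := hQ
    refine ⟨P₁ + P₂, fun σ => b₁ σ + b₂ σ, hb₁.add hb₂, fun σ hσ => ?_⟩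
    rw [negf_add, negf_add, h₁ σ hσ, h₂ σ hσ]
    ring
  | monomial l a =>
    obtain ⟨P, b, hb, h1⟩ := laurent_mono h.pos
      (g := fun σ => a * (qf ψ σ * (dslope ψ 0 σ)⁻¹ ^ (l + 1)))
      ((h.diff_q.mul (((h.diff_dslope h.zero_mem).inv
        fun _ hz => h.dslope_ne hz h.zero_mem).pow _)).const_mul a) (l + 1)
    refine ⟨P, b, hb, fun σ hσ => ?_⟩
    rw [negf_id, ← h1 σ hσ, negf_monomial, h.eq_mul_dslope σ, mul_inv, mul_pow]
    ring

lemma avg_eq_integral (f : ℂ → ℝ) : circleAverage f 0 1 =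
    (2 * π)⁻¹ * ∫ θ, f (circleMap 0 1 θ) ∂(volume.restrict (Ioc 0 (2 * π))) := by
  rw [circleAverage_def, intervalIntegral.integral_of_le Real.two_pi_pos.le, smul_eq_mul]

lemma cint_iff (f : ℂ → ℝ) : CircleIntegrable f 0 1 ↔
    Integrable (fun θ => f (circleMap 0 1 θ)) (volume.restrict (Ioc 0 (2 * π))) := by
  rw [circleIntegrable_def, intervalIntegrable_iff_integrableOn_Ioc_of_le Real.two_pi_pos.le]
  rfl

lemma cont_circle {E : Type*} [TopologicalSpace E] {f : ℂ → E} (hf : ContinuousOn f (sphere 0 1)) :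
    Continuous fun θ : ℝ => f (circleMap 0 1 θ) :=
  hf.comp_continuous (continuous_circleMap 0 1) fun θ => circleMap_mem_sphere 0 zero_le_one θ

/-- Fubini for a nonnegative kernel with marginal one. -/
lemma schur {k : ℂ → ℂ → ℝ} {g : ℂ → ℝ} (hg : ContinuousOn g (sphere 0 1)) (hg0 : ∀ z, 0 ≤ g z)
    (hk0 : ∀ τ ∈ sphere (0 : ℂ) 1, ∀ σ ∈ sphere (0 : ℂ) 1, 0 ≤ k τ σ)
    (hm : Measurable fun p : ℝ × ℝ => k (circleMap 0 1 p.1) (circleMap 0 1 p.2))
    (hr : ∀ σ ∈ sphere (0 : ℂ) 1, CircleIntegrable (fun τ => k τ σ) 0 1 ∧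
      circleAverage (fun τ => k τ σ) 0 1 = 1) :
    CircleIntegrable (fun τ => circleAverage (fun σ => k τ σ * g σ) 0 1) 0 1 ∧
      circleAverage (fun τ => circleAverage (fun σ => k τ σ * g σ) 0 1) 0 1 =
        circleAverage g 0 1 := by
  set μ : Measure ℝ := volume.restrict (Ioc 0 (2 * π)) with hμ
  have hs : ∀ θ : ℝ, circleMap 0 1 θ ∈ sphere (0 : ℂ) 1 :=
    fun θ => circleMap_mem_sphere 0 zero_le_one θ
  have hgc := cont_circle hg
  have hpi : (2 * π) ≠ 0 := Real.two_pi_pos.ne'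
  have hr2 : ∀ y : ℝ, ∫ x, k (circleMap 0 1 x) (circleMap 0 1 y) ∂μ = 2 * π := by
    intro y
    have := (hr _ (hs y)).2
    rw [avg_eq_integral] at this
    field_simp at this
    linarith
  have hgi : Integrable (fun θ => g (circleMap 0 1 θ)) μ := (cint_iff g).mp (cint one_pos hg)
  have hint : Integrable (Function.uncurry fun x y : ℝ =>
      k (circleMap 0 1 x) (circleMap 0 1 y) * g (circleMap 0 1 y)) (μ.prod μ) := by
    have hm2 : Measurable (Function.uncurry fun x y : ℝ =>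
        k (circleMap 0 1 x) (circleMap 0 1 y) * g (circleMap 0 1 y)) :=
      hm.mul (hgc.measurable.comp measurable_snd)
    rw [integrable_prod_iff' hm2.aestronglyMeasurable]
    refine ⟨Eventually.of_forall fun y => ?_, ?_⟩
    · exact ((cint_iff _).mp (hr _ (hs y)).1).mul_const (g (circleMap 0 1 y))
    · refine (hgi.const_mul (2 * π)).congr (Eventually.of_forall fun y => ?_)
      simp only [Function.uncurry_apply_pair]
      rw [← hr2 y, ← integral_mul_const]
      congr 1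
      ext x
      rw [Real.norm_eq_abs, abs_of_nonneg (mul_nonneg (hk0 _ (hs x) _ (hs y)) (hg0 _))]
  constructor
  · rw [cint_iff]
    simp only [avg_eq_integral]
    exact hint.integral_prod_left.const_mul _
  · simp only [avg_eq_integral]
    rw [integral_const_mul, integral_integral_swap hint]
    simp only [integral_mul_const, hr2]
    rw [integral_const_mul, ← hμ]
    field_simp

lemma two_re_ker {σ τ : ℂ} (hσ : σ ∈ sphere (0 : ℂ) 1) (hτ : τ ∈ sphere (0 : ℂ) 1) (hne : σ ≠ τ) :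
    2 * (σ / (σ - τ)).re = 1 := by
  have h1 : Complex.normSq σ = 1 := by
    rw [← Complex.sq_norm, mem_sphere_zero_iff_norm.mp hσ]; norm_num
  have h2 : Complex.normSq τ = 1 := by
    rw [← Complex.sq_norm, mem_sphere_zero_iff_norm.mp hτ]; norm_num
  have h3 : Complex.normSq (σ - τ) ≠ 0 := by
    rw [Ne, Complex.normSq_eq_zero]; exact sub_ne_zero.mpr hne
  rw [Complex.div_re]
  field_simp
  simp only [Complex.normSq_apply, sub_re, sub_im] at *
  linear_combination h1 - h2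

lemma avg_congr_off {f g : ℂ → ℝ} (τ : ℂ) (h : ∀ σ ∈ sphere (0 : ℂ) 1, σ ≠ τ → f σ = g σ)
    (hg : ContinuousOn g (sphere 0 1)) :
    CircleIntegrable f 0 1 ∧ circleAverage f 0 1 = circleAverage g 0 1 := by
  have h1 : g =ᶠ[codiscreteWithin (sphere (0 : ℂ) |1|)] f := by
    rw [abs_one]
    filter_upwards [compl_singleton_mem_codiscreteWithin (s := sphere (0 : ℂ) 1) τ,
      Filter.self_mem_codiscreteWithin (sphere (0 : ℂ) 1)] with σ h1 h2
    exact (h σ h2 h1).symm
  exact ⟨(cint one_pos hg).congr_codiscreteWithin h1,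
    (circleAverage_congr_codiscreteWithin h1 one_ne_zero).symm⟩

lemma avg_one_add_re {R : ℝ} (hR : 1 < R) {E : ℂ → ℂ} (hE : DifferentiableOn ℂ E (ball 0 R))
    (hE0 : E 0 = 0) : circleAverage (fun σ => 1 + 2 * (E σ).re) 0 1 = 1 := by
  have hEc : ContinuousOn E (sphere 0 1) := hE.continuousOn.mono (sphere_sub_ball hR)
  rw [avg_add one_pos (by fun_prop) (by fun_prop), avg_const_mul_real, avg_re one_pos hEc,
    avg_holo one_pos hR hE, hE0, circleAverage_const]
  simp

/-- The double layer kernel. -/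
noncomputable def ker (ψ : ℂ → ℂ) (τ σ : ℂ) : ℝ := 2 * (qf ψ τ * (ψ σ / (ψ σ - ψ τ))).re

/-- Grunsky type inequality. -/
lemma Conf.grunsky {ψ : ℂ → ℂ} {R : ℝ} (h : Conf ψ R) (hR : 1 < R)
    (hk : ∀ τ ∈ sphere (0 : ℂ) 1, ∀ σ ∈ sphere (0 : ℂ) 1, 0 ≤ ker ψ τ σ) (Q : Polynomial ℂ) :
    ∃ p b : ℂ → ℂ, DifferentiableOn ℂ p (ball 0 R) ∧ DifferentiableOn ℂ b (ball 0 R) ∧
      p 0 = 0 ∧ b 0 = 0 ∧ (∀ σ ∈ sphere (0 : ℂ) 1, negf ψ Q σ = conj (p σ) + b σ) ∧
      circleAverage (fun σ => ‖b σ‖ ^ 2) 0 1 ≤ circleAverage (fun σ => ‖p σ‖ ^ 2) 0 1 := by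
  obtain ⟨P, b, hb, hPb⟩ := h.laurent Q
  set p : ℂ → ℂ := fun σ => σ * (P.map (starRingEnd ℂ)).eval σ with hp
  have hpd : DifferentiableOn ℂ p (ball 0 R) :=
    (differentiable_id.mul (P.map (starRingEnd ℂ)).differentiable).differentiableOn
  have hp0 : p 0 = 0 := by simp [hp]
  have hpP : ∀ σ ∈ sphere (0 : ℂ) 1, negf id P σ = conj (p σ) := by
    intro σ hσ
    have h1 : σ⁻¹ = conj σ := Complex.inv_eq_conj (mem_sphere_zero_iff_norm.mp hσ)
    rw [negf_id, h1, hp]
    simp only [map_mul]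
    congr 1
    rw [Polynomial.eval_map, Polynomial.hom_eval₂]
    have : (starRingEnd ℂ).comp (starRingEnd ℂ) = RingHom.id ℂ := by
      ext z; simp
    rw [this]
    rfl
  set r : ℝ := (1 + R) / 2 with hr
  have hr1 : 1 < r := by rw [hr]; linarith
  have hrR : r < R := by rw [hr]; linarith
  have hr0 : 0 < r := by linarith
  have hid : Conf id R := conf_id h.pos
  have hbτ : ∀ τ : ℂ, ‖τ‖ < r →
      b τ = circleAverage (fun σ => negf ψ Q σ * (σ / (σ - τ))) 0 r := by
    intro τ hτ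
    have h1 := hid.avg_negf_ker hr0 hrR hτ P
    have h2 := avg_cauchy hr0 hrR hb hτ
    have h3 := hid.contOn_ker hrR hτ
    have h4 := hid.contOn_negf hr0 hrR P
    have h5 : ContinuousOn b (sphere 0 r) := hb.continuousOn.mono (sphere_sub_ball hrR)
    simp only [id] at h1 h3
    have h6 : circleAverage (fun σ => negf ψ Q σ * (σ / (σ - τ))) 0 r = circleAverage
        (fun σ => negf id P σ * (σ / (σ - τ)) + b σ * (σ / (σ - τ))) 0 r := by
      refine avg_congr hr0 fun σ hσ => ?_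
      rw [hPb σ (Conf.ne_zero_of_sphere hr0 hσ)]
      ring
    rw [h6, avg_add hr0 (by fun_prop) (by fun_prop), h1, h2, zero_add]
  have hb0 : b 0 = 0 := by
    rw [hbτ 0 (by simpa using hr0)]
    refine Eq.trans (avg_congr hr0 fun σ hσ => ?_) (h.avg_negf_ker hr0 hrR (τ := 0)
      (by simpa using hr0) Q)
    have h1 := Conf.ne_zero_of_sphere hr0 hσ
    have h2 := h.ne_zero (sphere_sub_ball hrR hσ) h1
    rw [h.zero, sub_zero, sub_zero, div_self h1, div_self h2]
  have hpc : ContinuousOn p (sphere 0 1) := hpd.continuousOn.mono (sphere_sub_ball hR)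
  have hbc : ContinuousOn b (sphere 0 1) := hb.continuousOn.mono (sphere_sub_ball hR)
  have hpt : ∀ τ ∈ sphere (0 : ℂ) 1,
      ‖b τ‖ ^ 2 ≤ circleAverage (fun σ => ker ψ τ σ * ‖p σ‖ ^ 2) 0 1 := by
    intro τ hτ
    have hτR := sphere_sub_ball hR hτ
    have hτr : ‖τ‖ < r := by rw [mem_sphere_zero_iff_norm.mp hτ]; exact hr1
    obtain ⟨E, hE, hE0, hEe⟩ := h.exists_left hτR
    have hEc : ContinuousOn E (sphere 0 1) := hE.continuousOn.mono (sphere_sub_ball hR)
    have hEr : ContinuousOn E (sphere 0 r) := hE.continuousOn.mono (sphere_sub_ball hrR)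
    have hn := h.contOn_negf hr0 hrR Q
    have hkr := h.contOn_ker hrR hτr
    have e1 : b τ = -circleAverage (fun σ => negf ψ Q σ * E σ) 0 r := by
      have h6 : circleAverage (fun σ => negf ψ Q σ * (σ / (σ - τ))) 0 r = circleAverage
          (fun σ => qf ψ τ * (negf ψ Q σ * (ψ σ / (ψ σ - ψ τ))) - negf ψ Q σ * E σ) 0 r := by
        refine avg_congr hr0 fun σ hσ => ?_
        rw [hEe σ (sphere_sub_ball hrR hσ) (Conf.ne_of_sphere hσ hτr)]
        ring
      rw [hbτ τ hτr, h6, avg_sub hr0 (by fun_prop) (by fun_prop), avg_const_mul,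
        h.avg_negf_ker hr0 hrR hτr Q, mul_zero, zero_sub]
    have e2 : circleAverage (fun σ => negf ψ Q σ * E σ) 0 r =
        circleAverage (fun σ => negf ψ Q σ * E σ) 0 1 :=
      avg_radius one_pos hr1.le hrR ((h.diff_negf Q).mul (hE.mono sdiff_subset))
    have e3 : circleAverage (fun σ => b σ * E σ) 0 1 = 0 := by
      rw [avg_holo one_pos hR (f := fun σ => b σ * E σ) (hb.mul hE), hE0, mul_zero]
    have e4 : circleAverage (fun σ => conj (p σ * (1 + E σ))) 0 1 = 0 := by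
      rw [avg_conj one_pos (by fun_prop), avg_holo one_pos hR (f := fun σ => p σ * (1 + E σ))
        (hpd.mul (hE.const_add 1)), hp0, zero_mul, map_zero]
    have hn1 := h.contOn_negf one_pos hR Q
    have e5 : b τ = -circleAverage (fun σ => conj (p σ) * ((1 + 2 * (E σ).re : ℝ) : ℂ)) 0 1 := by
      have h6 : circleAverage (fun σ => conj (p σ) * ((1 + 2 * (E σ).re : ℝ) : ℂ)) 0 1 =
          circleAverage (fun σ => negf ψ Q σ * E σ + conj (p σ * (1 + E σ)) - b σ * E σ) 0 1 := by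
        refine avg_congr one_pos fun σ hσ => ?_
        rw [hPb σ (Conf.ne_zero_of_sphere one_pos hσ), hpP σ hσ]
        have : ((1 + 2 * (E σ).re : ℝ) : ℂ) = 1 + (E σ + conj (E σ)) := by
          rw [Complex.add_conj]; push_cast; ring
        rw [this, map_mul _ (p σ), map_add, map_one]
        ring
      rw [e1, e2, h6, avg_sub one_pos (by fun_prop) (by fun_prop),
        avg_add one_pos (by fun_prop) (by fun_prop), e3, e4, add_zero, sub_zero]
    have hke : ∀ σ ∈ sphere (0 : ℂ) 1, σ ≠ τ → ker ψ τ σ = 1 + 2 * (E σ).re := by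
      intro σ hσ hne
      rw [hEe σ (sphere_sub_ball hR hσ) hne, sub_re, mul_sub, two_re_ker hσ hτ hne, ker]
      ring
    have e6 : ‖b τ‖ ^ 2 = circleAverage
        (fun σ => (1 + 2 * (E σ).re) * (-(conj (b τ) * conj (p σ)).re)) 0 1 := by
      have : ‖b τ‖ ^ 2 = (conj (b τ) * b τ).re := by
        rw [Complex.conj_mul', ← Complex.ofReal_pow, Complex.ofReal_re]
      rw [this]
      nth_rewrite 2 [e5]
      rw [mul_neg, ← neg_mul, ← avg_const_mul, ← avg_re one_pos (by fun_prop)]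
      congr 1
      ext σ
      rw [← mul_assoc, mul_comm, Complex.re_ofReal_mul, neg_mul, neg_re]
    obtain ⟨i1, a1⟩ := avg_congr_off τ
      (f := fun σ => ker ψ τ σ * (-(conj (b τ) * conj (p σ)).re))
      (g := fun σ => (1 + 2 * (E σ).re) * (-(conj (b τ) * conj (p σ)).re))
      (fun σ hσ hne => by rw [hke σ hσ hne]) (by fun_prop)
    obtain ⟨i2, a2⟩ := avg_congr_off τ (f := fun σ => ker ψ τ σ)
      (g := fun σ => 1 + 2 * (E σ).re) hke (by fun_prop)
    obtain ⟨i3, -⟩ := avg_congr_off τ (f := fun σ => ker ψ τ σ * ‖p σ‖ ^ 2)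
      (g := fun σ => (1 + 2 * (E σ).re) * ‖p σ‖ ^ 2)
      (fun σ hσ hne => by rw [hke σ hσ hne]) (by fun_prop)
    rw [avg_one_add_re hR hE hE0] at a2
    have i4 : CircleIntegrable (fun σ => ‖b τ‖ ^ 2 * ker ψ τ σ) 0 1 := i2.const_fun_smul (a := _)
    have e7 : 2 * ‖b τ‖ ^ 2 ≤ circleAverage
        (fun σ => ‖b τ‖ ^ 2 * ker ψ τ σ + ker ψ τ σ * ‖p σ‖ ^ 2) 0 1 := by
      nth_rewrite 1 [e6]
      rw [← a1, ← avg_const_mul_real]
      refine circleAverage_mono (i1.const_fun_smul (a := (2 : ℝ))) (i4.add i3) fun σ hσ => ?_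
      rw [abs_one] at hσ
      have h1 := hk τ hτ σ hσ
      have h2 : 2 * (-(conj (b τ) * conj (p σ)).re) ≤ ‖b τ‖ ^ 2 + ‖p σ‖ ^ 2 := by
        simp only [Complex.sq_norm, Complex.normSq_apply, mul_re, conj_re, conj_im]
        nlinarith [sq_nonneg ((b τ).re + (p σ).re), sq_nonneg ((b τ).im - (p σ).im)]
      nlinarith [mul_le_mul_of_nonneg_left h2 h1]
    rw [circleAverage_fun_add i4 i3, avg_const_mul_real, a2] at e7
    linarith
  refine ⟨p, b, hpd, hb, hp0, hb0, fun σ hσ => ?_, ?_⟩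
  · rw [hPb σ (Conf.ne_zero_of_sphere one_pos hσ), hpP σ hσ]
  · obtain ⟨s1, s2⟩ := schur (k := ker ψ) (g := fun σ => ‖p σ‖ ^ 2) (by fun_prop)
      (fun z => by positivity) hk (by
        have c1 := (cont_circle (h.contOn_q hR)).measurable
        have c2 := (cont_circle (h.diff.continuousOn.mono (sphere_sub_ball hR))).measurable
        unfold ker
        refine Measurable.const_mul (Complex.measurable_re.comp ?_) _
        exact (c1.comp measurable_fst).mul ((c2.comp measurable_snd).div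
          ((c2.comp measurable_snd).sub (c2.comp measurable_fst)))) (by
        intro σ hσ
        obtain ⟨E, hE, hE0, hEe⟩ := h.exists_right (sphere_sub_ball hR hσ)
        have hEc : ContinuousOn E (sphere 0 1) := hE.continuousOn.mono (sphere_sub_ball hR)
        obtain ⟨i2, a2⟩ := avg_congr_off σ (f := fun τ => ker ψ τ σ)
          (g := fun τ => 1 + 2 * (E τ).re) (by
            intro τ hτ hne
            rw [hEe τ (sphere_sub_ball hR hτ) hne, sub_re, mul_sub, two_re_ker hσ hτ hne.symm, ker]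
            ring) (by fun_prop)
        exact ⟨i2, a2.trans (avg_one_add_re hR hE hE0)⟩)
    rw [← s2]
    exact circleAverage_mono (cint one_pos (by fun_prop)) s1 (by rw [abs_one]; exact hpt)

/-- The scalar inequality. -/
lemma Conf.scalar_ineq {ψ : ℂ → ℂ} {R : ℝ} (h : Conf ψ R) (hR : 1 < R)
    (hk : ∀ τ ∈ sphere (0 : ℂ) 1, ∀ σ ∈ sphere (0 : ℂ) 1, 0 ≤ ker ψ τ σ) (Q : Polynomial ℂ)
    {F : ℂ → ℂ} (hF : DifferentiableOn ℂ F (ball 0 R)) :
    circleAverage (fun σ => ‖F σ‖ ^ 2) 0 1 + ‖F 0‖ ^ 2 ≤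
      2 * circleAverage (fun σ => ‖F σ + negf ψ Q σ‖ ^ 2) 0 1 := by
  obtain ⟨p, b, hp, hb, hp0, hb0, hn, hle⟩ := h.grunsky hR hk Q
  have hbc : ContinuousOn b (sphere 0 1) := hb.continuousOn.mono (sphere_sub_ball hR)
  have hFc : ContinuousOn F (sphere 0 1) := hF.continuousOn.mono (sphere_sub_ball hR)
  have e1 : circleAverage (fun σ => ‖F σ + negf ψ Q σ‖ ^ 2) 0 1 =
      circleAverage (fun σ => ‖(F σ + b σ) + conj (p σ)‖ ^ 2) 0 1 := by
    refine avg_congr one_pos fun σ hσ => ?_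
    rw [hn σ hσ]
    congr 2
    ring
  have e2 := avg_orth hR (a := fun σ => F σ + b σ) (hF.add hb) hp
  have e3 := sq_le_avg hR (a := fun σ => F σ + 2 * b σ) (hF.add (hb.const_mul 2))
  have e4 : 2 * circleAverage (fun σ => ‖F σ + b σ‖ ^ 2) 0 1 +
      2 * circleAverage (fun σ => ‖b σ‖ ^ 2) 0 1 =
      circleAverage (fun σ => ‖F σ‖ ^ 2) 0 1 +
      circleAverage (fun σ => ‖F σ + 2 * b σ‖ ^ 2) 0 1 := by
    rw [← avg_const_mul_real, ← avg_const_mul_real, ← avg_add one_pos (by fun_prop) (by fun_prop),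
      ← avg_add one_pos (by fun_prop) (by fun_prop)]
    congr 1
    ext σ
    simp only [Complex.sq_norm, Complex.normSq_apply, add_re, add_im, mul_re, mul_im,
      re_ofNat, im_ofNat]
    ring
  simp only [hp0, hb0, mul_zero, add_zero, zero_re] at e2 e3
  rw [e1, e2]
  linarith

end Crest.Agent.Crouzeix
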