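import Crest.Agent.Crouzeix.Collig

/-! Similarity to a contraction, by separation. -/

set_option autoImplicit false

open Set Metric Filter Topology Complex Real MeasureTheory
open scoped ComplexConjugate InnerProductSpace ComplexOrder Matrix Matrix.Norms.L2Operator
  MatrixOrder
open Crest.AnalysisR.NumRange

namespace Crest.Agent.Crouzeix

variable {n : ℕ}

lemma isClosed_psd : IsClosed {M : Matrix (Fin n) (Fin n) ℂ | M.PosSemidef} := by
  have := CStarAlgebra.isClosed_nonneg (A := Matrix (Fin n) (Fin n) ℂ)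
  simpa only [Matrix.nonneg_iff_posSemidef] using this

/-- The Stein operator. -/
noncomputable def stein (T : Matrix (Fin n) (Fin n) ℂ) :
    Matrix (Fin n) (Fin n) ℂ →ₗ[ℂ] Matrix (Fin n) (Fin n) ℂ where
  toFun H := H - Tᴴ * H * T
  map_add' a b := by noncomm_ring
  map_smul' c a := by simp [smul_sub]

lemma stein_apply (T H : Matrix (Fin n) (Fin n) ℂ) : stein T H = H - Tᴴ * H * T := rfl

lemma tendsto_conj {T : Matrix (Fin n) (Fin n) ℂ} (hT : Tendsto (fun j => T ^ j) atTop (𝓝 0))
    (H : Matrix (Fin n) (Fin n) ℂ) : Tendsto (fun j => (T ^ j)ᴴ * H * T ^ j) atTop (𝓝 0) := by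
  have hc : Continuous fun X : Matrix (Fin n) (Fin n) ℂ => Xᴴ * H * X :=
    (continuous_id.matrix_conjTranspose.mul continuous_const).mul continuous_id
  have := (hc.tendsto 0).comp hT
  rw [mul_zero] at this
  exact this

lemma stein_psd {T : Matrix (Fin n) (Fin n) ℂ} (hT : Tendsto (fun j => T ^ j) atTop (𝓝 0))
    {H : Matrix (Fin n) (Fin n) ℂ} (h : (stein T H).PosSemidef) : H.PosSemidef := by
  have h1 : ∀ j : ℕ, (H - (T ^ j)ᴴ * H * T ^ j).PosSemidef := by
    intro j
    induction j with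
    | zero => simpa using Matrix.PosSemidef.zero
    | succ j ih =>
      have := ih.add (h.conjTranspose_mul_mul_same (T ^ j))
      convert this using 1
      rw [stein_apply, pow_succ', Matrix.conjTranspose_mul]
      noncomm_ring
  have h2 := (tendsto_const_nhds (x := H)).sub (tendsto_conj hT H)
  rw [sub_zero] at h2
  exact isClosed_psd.mem_of_tendsto h2 (Eventually.of_forall h1)

lemma stein_bij {T : Matrix (Fin n) (Fin n) ℂ} (hT : Tendsto (fun j => T ^ j) atTop (𝓝 0)) :
    Function.Bijective (stein T) := by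
  have hinj : Function.Injective (stein T) := by
    rw [injective_iff_map_eq_zero]
    intro H hH
    have h1 : H.PosSemidef := stein_psd hT (hH ▸ Matrix.PosSemidef.zero)
    have h2 : (-H).PosSemidef := stein_psd hT (by
      rw [map_neg, hH, neg_zero]; exact Matrix.PosSemidef.zero)
    exact le_antisymm (neg_nonneg.mp h2.nonneg) h1.nonneg
  exact ⟨hinj, LinearMap.injective_iff_surjective.mp hinj⟩

lemma norm_le_of_feasible {H : Matrix (Fin n) (Fin n) ℂ} {τ : ℝ} (hτ : 0 ≤ τ)
    (h1 : (H - 1).PosSemidef) (h2 : ((τ : ℂ) • (1 : Matrix (Fin n) (Fin n) ℂ) - H).PosSemidef) :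
    ‖H‖ ≤ τ := by
  have h0 : 0 ≤ H := by
    have := (h1.add Matrix.PosSemidef.one).nonneg
    simpa using this
  rw [CStarAlgebra.norm_le_iff_le_algebraMap H hτ h0, Matrix.le_iff, Algebra.algebraMap_eq_smul_one]
  exact h2

lemma exists_trace_rep (φ : Matrix (Fin n) (Fin n) ℂ →ₗ[ℂ] ℂ) :
    ∃ Z : Matrix (Fin n) (Fin n) ℂ, Z.IsHermitian ∧
      ∀ G : Matrix (Fin n) (Fin n) ℂ, G.IsHermitian → (φ G).re = (Z * G).trace.re := by
  set C : Matrix (Fin n) (Fin n) ℂ := Matrix.of fun j i => φ (Matrix.single i j 1) with hC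
  have h1 : ∀ G, φ G = (C * G).trace := by
    intro G
    conv_lhs => rw [Matrix.matrix_eq_sum_single G]
    simp only [map_sum, Matrix.trace, Matrix.diag, Matrix.mul_apply, hC, Matrix.of_apply]
    rw [Finset.sum_comm]
    refine Finset.sum_congr rfl fun j _ => Finset.sum_congr rfl fun i _ => ?_
    rw [mul_comm, ← smul_eq_mul, ← map_smul, Matrix.smul_single, smul_eq_mul, mul_one]
  refine ⟨(2⁻¹ : ℂ) • (C + Cᴴ), ?_, fun G hG => ?_⟩
  · rw [Matrix.IsHermitian, Matrix.conjTranspose_smul, Matrix.conjTranspose_add,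
      Matrix.conjTranspose_conjTranspose, add_comm]
    simp
  · have h2 : (Cᴴ * G).trace = conj (C * G).trace := by
      rw [← hG.eq, ← Matrix.conjTranspose_mul, Matrix.trace_conjTranspose, hG.eq,
        Matrix.trace_mul_comm]
      rfl
    rw [h1, smul_mul_assoc, Matrix.trace_smul, add_mul, Matrix.trace_add, h2, Complex.add_conj]
    simp

theorem CB.exists_feasible {T : Matrix (Fin n) (Fin n) ℂ} {s : ℝ} (hT : CB T s) (hs : 0 ≤ s)
    (hs1 : s < 1) : ∃ H, MetricFeasible T H 4 := by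
  by_contra hcon
  push Not at hcon
  have hT0 := hT.tendsto_pow hs hs1
  set C₁ : Set (Matrix (Fin n) (Fin n) ℂ) := {H | (H - 1).PosSemidef ∧
    (((4 : ℝ) : ℂ) • (1 : Matrix (Fin n) (Fin n) ℂ) - H).PosSemidef} with hC₁
  set C₂ : Set (Matrix (Fin n) (Fin n) ℂ) := {H | (stein T H).PosSemidef} with hC₂
  have hpsd : Convex ℝ {M : Matrix (Fin n) (Fin n) ℂ | M.PosSemidef} := by
    intro a ha b hb s t hs ht _
    exact (Matrix.PosSemidef.smul ha hs).add (Matrix.PosSemidef.smul hb ht)
  have hv₁ : Convex ℝ C₁ := by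
    intro a ha b hb s t hs ht hst
    have e : t = 1 - s := by linarith
    subst e
    refine ⟨?_, ?_⟩
    · convert (Matrix.PosSemidef.smul ha.1 hs).add (Matrix.PosSemidef.smul hb.1 ht) using 1
      module
    · convert (Matrix.PosSemidef.smul ha.2 hs).add (Matrix.PosSemidef.smul hb.2 ht) using 1
      module
  have hv₂ : Convex ℝ C₂ := hpsd.linear_preimage ((stein T).restrictScalars ℝ)
  have hc₁ : IsCompact C₁ := by
    have := FiniteDimensional.proper ℂ (Matrix (Fin n) (Fin n) ℂ)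
    refine (isCompact_closedBall (0 : Matrix (Fin n) (Fin n) ℂ) 4).of_isClosed_subset ?_ ?_
    · exact (isClosed_psd.preimage (continuous_id.sub continuous_const)).inter
        (isClosed_psd.preimage (continuous_const.sub continuous_id))
    · intro H hH
      rw [mem_closedBall_zero_iff]
      exact norm_le_of_feasible (by norm_num) hH.1 hH.2
  have hc₂ : IsClosed C₂ := isClosed_psd.preimage (stein T).continuous_of_finiteDimensional
  obtain ⟨f, u, v, hu, huv, hv⟩ := RCLike.geometric_hahn_banach_compact_closed (𝕜 := ℂ)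
    hv₁ hc₁ hv₂ hc₂ (by
      rw [Set.disjoint_left]
      intro H h1 h2
      exact hcon H ⟨h1.1, h1.2, h2⟩)
  have hv0 : v < 0 := by
    simpa using hv 0 (by simpa [hC₂] using Matrix.PosSemidef.zero)
  have hcone : ∀ H ∈ C₂, 0 ≤ (f H).re := by
    intro H hH
    by_contra hneg
    push Not at hneg
    have ht : 0 ≤ v / (f H).re := div_nonneg_of_nonpos hv0.le hneg.le
    have := hv ((v / (f H).re) • H) (by
      simp only [hC₂, mem_ofPred_eq, LinearMap.map_smul_of_tower]
      exact Matrix.PosSemidef.smul hH ht)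
    rw [ContinuousLinearMap.map_smul_of_tower, RCLike.re_to_complex, Complex.real_smul,
      Complex.re_ofReal_mul, div_mul_cancel₀ _ hneg.ne] at this
    exact lt_irrefl _ this
  set e := LinearEquiv.ofBijective (stein T) (stein_bij hT0) with he
  obtain ⟨Z, hZ, hZφ⟩ := exists_trace_rep ((f : _ →ₗ[ℂ] ℂ).comp e.symm.toLinearMap)
  have hZp : Z.PosSemidef := by
    refine Matrix.PosSemidef.of_dotProduct_mulVec_nonneg hZ fun x => ?_
    have h1 := Matrix.posSemidef_vecMulVec_self_star x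
    have h2 := hZφ _ h1.isHermitian
    have h3 := hcone (e.symm (Matrix.vecMulVec x (star x))) (by
      have : stein T (e.symm (Matrix.vecMulVec x (star x))) = Matrix.vecMulVec x (star x) :=
        e.apply_symm_apply _
      simp only [hC₂, mem_ofPred_eq, this]
      exact h1)
    rw [Matrix.mul_vecMulVec, Matrix.trace_vecMulVec, dotProduct_comm] at h2
    rw [Complex.nonneg_iff]
    refine ⟨h2 ▸ h3, ?_⟩
    exact (hZ.im_star_dotProduct_mulVec_self x).symm
  set W := Z - T * Z * Tᴴ with hW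
  have hWh : W.IsHermitian := hZ.sub (Matrix.isHermitian_mul_mul_conjTranspose T hZ)
  have hfW : ∀ H : Matrix (Fin n) (Fin n) ℂ, H.IsHermitian → (f H).re = (W * H).trace.re := by
    intro H hH
    have h1 := hZφ (stein T H) (hH.sub (Matrix.isHermitian_conjTranspose_mul_mul T hH))
    have h2 : e.symm (stein T H) = H := e.symm_apply_apply H
    simp only [LinearMap.comp_apply, LinearEquiv.coe_coe, h2, ContinuousLinearMap.coe_coe] at h1
    rw [h1, stein_apply, hW, mul_sub, sub_mul, Matrix.trace_sub, Matrix.trace_sub]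
    congr 2
    rw [← Matrix.mul_assoc, Matrix.trace_mul_comm]
    simp only [Matrix.mul_assoc]
  set U : Matrix (Fin n) (Fin n) ℂ := hWh.eigenvectorUnitary.1 with hU
  set l := hWh.eigenvalues with hl
  have hU1 : U * Uᴴ = 1 := (Matrix.mem_unitaryGroup_iff).mp hWh.eigenvectorUnitary.2
  have hU2 : Uᴴ * U = 1 := (Matrix.mem_unitaryGroup_iff').mp hWh.eigenvectorUnitary.2
  let D : (Fin n → ℝ) → Matrix (Fin n) (Fin n) ℂ :=
    fun g => U * Matrix.diagonal (fun i => (g i : ℂ)) * Uᴴ
  have hWD : W = D l := hWh.spectral_theorem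
  have hDpsd : ∀ g, (∀ i, 0 ≤ g i) → (D g).PosSemidef := fun g hg =>
    (Matrix.PosSemidef.diagonal (fun i => Complex.zero_le_real.mpr (hg i))).mul_mul_conjTranspose_same U
  have hDsub : ∀ g g', D g - D g' = D (fun i => g i - g' i) := by
    intro g g'
    simp only [D]
    rw [← sub_mul, ← mul_sub, Matrix.diagonal_sub]
    simp
  have hDc : ∀ c : ℝ, D (fun _ => c) = (c : ℂ) • (1 : Matrix (Fin n) (Fin n) ℂ) := by
    intro c
    simp only [D]
    rw [← Matrix.smul_one_eq_diagonal, mul_smul_comm, smul_mul_assoc, mul_one, hU1]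
  have hDmul : ∀ g g', D g * D g' = D (fun i => g i * g' i) := by
    intro g g'
    simp only [D, Matrix.mul_assoc]
    rw [← Matrix.mul_assoc Uᴴ, hU2, one_mul, ← Matrix.mul_assoc (Matrix.diagonal _),
      Matrix.diagonal_mul_diagonal]
    simp
  have hDtr : ∀ g, (D g).trace.re = ∑ i, g i := by
    intro g
    simp only [D]
    rw [Matrix.trace_mul_comm, ← Matrix.mul_assoc, hU2, one_mul, Matrix.trace_diagonal]
    simp
  have hsq : ∀ g : Fin n → ℝ, (∀ i, 0 ≤ g i) → ∃ ξ : Matrix (Fin n) (Fin n) ℂ, ξ * ξᴴ = D g := by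
    intro g hg
    obtain ⟨ξ, hξ⟩ := CStarAlgebra.nonneg_iff_eq_mul_star_self.mp (hDpsd g hg).nonneg
    exact ⟨ξ, hξ.symm⟩
  obtain ⟨ξ, hξ⟩ := hsq (fun i => max (-l i) 0) fun i => le_max_right _ _
  obtain ⟨η, hη⟩ := hsq (fun i => max (l i) 0) fun i => le_max_right _ _
  obtain ⟨R, hR⟩ := CStarAlgebra.nonneg_iff_eq_mul_star_self.mp hZp.nonneg
  have hR' : R * Rᴴ = Z := hR.symm
  have key := hT.trace_le hs hs1 R ξ η (by
    have e1 : η * ηᴴ - ξ * ξᴴ = W := by
      rw [hξ, hη, hDsub, hWD]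
      congr 1
      ext i
      exact max_zero_sub_max_neg_zero_eq_self (l i)
    rw [Matrix.conjTranspose_mul, Matrix.mul_assoc, ← Matrix.mul_assoc R, hR',
      ← Matrix.mul_assoc]
    rw [hW] at e1
    rw [← sub_eq_zero, ← neg_eq_zero, ← sub_eq_zero.mpr e1]
    abel)
  rw [hξ, hη, hDtr, hDtr] at key
  set h : Fin n → ℝ := fun i => if 0 < l i then 4 else 1 with hh
  have hH : D h ∈ C₁ := by
    refine ⟨?_, ?_⟩
    · rw [← one_smul ℂ (1 : Matrix (Fin n) (Fin n) ℂ), ← Complex.ofReal_one, ← hDc, hDsub]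
      refine hDpsd _ fun i => ?_
      simp only [hh]; split_ifs <;> norm_num
    · rw [← hDc, hDsub]
      refine hDpsd _ fun i => ?_
      simp only [hh]; split_ifs <;> norm_num
  have h1 := hu _ hH
  rw [RCLike.re_to_complex, hfW _ (hDpsd h (fun i => by
    simp only [hh]; split_ifs <;> norm_num)).isHermitian, hWD, hDmul, hDtr] at h1
  have h2 : ∑ i, l i * h i = 4 * ∑ i, max (l i) 0 - ∑ i, max (-l i) 0 := by
    rw [Finset.mul_sum, ← Finset.sum_sub_distrib]
    refine Finset.sum_congr rfl fun i _ => ?_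
    simp only [hh]
    split_ifs with hi
    · rw [max_eq_left hi.le, max_eq_right (by linarith)]; ring
    · rw [max_eq_right (by linarith), max_eq_left (by linarith)]; ring
  linarith

lemma one_le_of_feasible (hn : 1 ≤ n) {T H : Matrix (Fin n) (Fin n) ℂ} {τ : ℝ}
    (h : MetricFeasible T H τ) : 1 ≤ τ := by
  have h1 := (h.1.add h.2.1).diag_nonneg (i := ⟨0, hn⟩)
  simp only [Matrix.add_apply, Matrix.sub_apply, Matrix.smul_apply, Matrix.one_apply_eq,
    smul_eq_mul, mul_one] at h1
  have h2 : (0 : ℂ) ≤ ((τ - 1 : ℝ) : ℂ) := by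
    convert h1 using 1
    push_cast; ring
  have h3 : (0 : ℝ) ≤ τ - 1 := by exact_mod_cast h2
  linarith

lemma exists_optimal (hn : 1 ≤ n) {T H₀ : Matrix (Fin n) (Fin n) ℂ} {τ₀ : ℝ}
    (h : MetricFeasible T H₀ τ₀) : ∃ H κ, IsOptimalMetric T H κ ∧ 1 ≤ κ ∧ κ ≤ τ₀ := by
  have := FiniteDimensional.proper ℂ (Matrix (Fin n) (Fin n) ℂ)
  set F : Set (Matrix (Fin n) (Fin n) ℂ × ℝ) := {x | MetricFeasible T x.1 x.2 ∧ x.2 ≤ τ₀} with hF
  have hFc : IsCompact F := by
    refine ((isCompact_closedBall (0 : Matrix (Fin n) (Fin n) ℂ) τ₀).prod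
      (isCompact_Icc (a := (1 : ℝ)) (b := τ₀))).of_isClosed_subset ?_ ?_
    · refine IsClosed.inter (IsClosed.inter ?_ (IsClosed.inter ?_ ?_))
        (isClosed_le continuous_snd continuous_const)
      · exact isClosed_psd.preimage (continuous_fst.sub continuous_const)
      · exact isClosed_psd.preimage (((Complex.continuous_ofReal.comp continuous_snd).smul
          continuous_const).sub continuous_fst)
      · exact isClosed_psd.preimage
          ((stein T).continuous_of_finiteDimensional.comp continuous_fst)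
    · rintro ⟨H, τ⟩ ⟨h1, h2⟩
      have h3 := one_le_of_feasible hn h1
      refine ⟨?_, h3, h2⟩
      rw [mem_closedBall_zero_iff]
      exact (norm_le_of_feasible (by linarith) h1.1 h1.2.1).trans h2
  obtain ⟨⟨H, κ⟩, ⟨h1, h2⟩, hmin⟩ := hFc.exists_isMinOn ⟨(H₀, τ₀), h, le_rfl⟩
    continuous_snd.continuousOn
  refine ⟨H, κ, ⟨h1, fun H' τ' h' => ?_⟩, one_le_of_feasible hn h1, h2⟩
  rcases le_total τ' τ₀ with h3 | h3
  · exact hmin (a := (H', τ')) ⟨h', h3⟩
  · exact h2.trans h3

lemma exists_strict {T : Matrix (Fin n) (Fin n) ℂ}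
    (hT : Tendsto (fun j => T ^ j) atTop (𝓝 0)) : ∃ H τ, MetricStrictlyFeasible T H τ := by
  obtain ⟨H, hH⟩ := (stein_bij hT).2 1
  have h0 : H.PosSemidef := stein_psd hT (hH ▸ Matrix.PosSemidef.one)
  rw [stein_apply] at hH
  have h1 : H - 1 = Tᴴ * H * T := by rw [← hH]; abel
  have h2 : (H - 1).PosSemidef := h1 ▸ h0.conjTranspose_mul_mul_same T
  refine ⟨H + H, 2 * ‖H‖ + 1, ?_, ?_, ?_⟩
  · convert Matrix.PosDef.one.add_posSemidef (h2.add h2) using 1
    abel
  · have h3 : ((‖H‖ : ℂ) • (1 : Matrix (Fin n) (Fin n) ℂ) - H).PosSemidef := by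
      have := (CStarAlgebra.norm_le_iff_le_algebraMap H (norm_nonneg H) h0.nonneg).mp le_rfl
      rw [Matrix.le_iff, Algebra.algebraMap_eq_smul_one] at this
      exact this
    convert Matrix.PosDef.one.add_posSemidef (h3.add h3) using 1
    push_cast
    module
  · convert Matrix.PosDef.one.add (Matrix.PosDef.one (n := Fin n) (R := ℂ)) using 1
    rw [← hH]
    noncomm_ring

end Crest.Agent.Crouzeix
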