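import Mathlib

/-! Montel, Hurwitz and the Riemann mapping theorem. -/

set_option autoImplicit false

open Set Metric Filter Topology Complex

namespace Crest.Agent.Crouzeix

/-- Montel/Vitali: bounded holomorphic functions converging pointwise converge locally
uniformly. -/
theorem montel {ι : Type*} {l : Filter ι} [l.NeBot] {U : Set ℂ} (hU : IsOpen U)
    {F : ι → ℂ → ℂ} {f : ℂ → ℂ} {C : ℝ}
    (hF : ∀ᶠ i in l, DifferentiableOn ℂ (F i) U ∧ ∀ z ∈ U, ‖F i z‖ ≤ C)
    (hlim : ∀ z ∈ U, Tendsto (fun i => F i z) l (𝓝 (f z))) :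
    TendstoLocallyUniformlyOn F f l U := by
  rw [Metric.tendstoLocallyUniformlyOn_iff]
  intro ε hε x hx
  obtain ⟨R, hR, hRU⟩ := Metric.isOpen_iff.mp hU x hx
  have hC : 0 ≤ C := by
    obtain ⟨i, hi⟩ := hF.exists
    exact (norm_nonneg _).trans (hi.2 x hx)
  have key : ∀ᶠ i in l, ∀ y ∈ ball x R, dist (F i y) (F i x) ≤ (2 * C) / R * dist y x := by
    filter_upwards [hF] with i hi y hy
    refine Complex.dist_le_div_mul_dist_of_mapsTo_ball (hi.1.mono hRU) ?_ hy
    intro z hz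
    rw [mem_closedBall, dist_eq_norm]
    calc ‖F i z - F i x‖ ≤ ‖F i z‖ + ‖F i x‖ := norm_sub_le _ _
      _ ≤ C + C := add_le_add (hi.2 z (hRU hz)) (hi.2 x hx)
      _ = 2 * C := by ring
  have keyf : ∀ y ∈ ball x R, dist (f y) (f x) ≤ (2 * C) / R * dist y x := by
    intro y hy
    refine le_of_tendsto ((hlim y (hRU hy)).dist (hlim x hx)) ?_
    filter_upwards [key] with i hi using hi y hy
  set L := (2 * C) / R with hL
  have hL0 : 0 ≤ L := by positivity
  set δ := min R (ε / 3 / (L + 1)) with hδ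
  have hδ0 : 0 < δ := lt_min hR (by positivity)
  refine ⟨ball x δ, mem_nhdsWithin_of_mem_nhds (ball_mem_nhds x hδ0), ?_⟩
  have h3 : ∀ᶠ i in l, dist (F i x) (f x) < ε / 3 :=
    (Metric.tendsto_nhds.mp (hlim x hx)) _ (by positivity)
  filter_upwards [key, h3] with i hi hi3 y hy
  have hyR : y ∈ ball x R := ball_subset_ball (min_le_left _ _) hy
  have hd : dist y x ≤ ε / 3 / (L + 1) := (mem_ball.mp hy).le.trans (min_le_right _ _)
  have hLd : L * dist y x ≤ ε / 3 := by
    calc L * dist y x ≤ (L + 1) * (ε / 3 / (L + 1)) := by gcongr; linarith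
      _ = ε / 3 := by field_simp
  have h1 := hi y hyR
  have h2 := keyf y hyR
  calc dist (f y) (F i y) ≤ dist (f y) (f x) + dist (f x) (F i x) + dist (F i x) (F i y) :=
        dist_triangle4 _ _ _ _
    _ < ε := by
        rw [dist_comm (f x), dist_comm (F i x) (F i y)]
        linarith

/-- Hurwitz: a locally uniform limit of nonvanishing holomorphic functions is identically zero
or nonvanishing. -/
theorem hurwitz {ι : Type*} {l : Filter ι} [l.NeBot] {U : Set ℂ} (hU : IsOpen U)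
    (hUc : IsPreconnected U) {F : ι → ℂ → ℂ} {f : ℂ → ℂ}
    (hF : ∀ᶠ i in l, DifferentiableOn ℂ (F i) U ∧ ∀ z ∈ U, F i z ≠ 0)
    (hlim : TendstoLocallyUniformlyOn F f l U) :
    (∀ z ∈ U, f z = 0) ∨ (∀ z ∈ U, f z ≠ 0) := by
  have hfd : DifferentiableOn ℂ f U := hlim.differentiableOn (hF.mono fun i hi => hi.1) hU
  have hfa : AnalyticOnNhd ℂ f U := hfd.analyticOnNhd hU
  by_contra hcon
  push Not at hcon
  obtain ⟨⟨z₁, hz₁, hf₁⟩, z₀, hz₀, hf₀⟩ := hcon
  have hev : ∀ᶠ z in 𝓝[≠] z₀, f z ≠ 0 := by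
    rcases (hfa z₀ hz₀).eventually_eq_zero_or_eventually_ne_zero with h | h
    · exact absurd (hfa.eqOn_zero_of_preconnected_of_eventuallyEq_zero hUc hz₀ h hz₁) hf₁
    · exact h
  rw [eventually_nhdsWithin_iff] at hev
  obtain ⟨r, hr, hrU⟩ := Metric.nhds_basis_closedBall.mem_iff.mp
    (inter_mem hev (hU.mem_nhds hz₀))
  have hsub : closedBall z₀ r ⊆ U := fun z hz => (hrU hz).2
  have hsph : ∀ z ∈ sphere z₀ r, f z ≠ 0 := by
    intro z hz
    refine (hrU (sphere_subset_closedBall hz)).1 ?_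
    intro h
    rw [mem_singleton_iff] at h
    rw [h, mem_sphere, dist_self] at hz
    exact hr.ne hz
  obtain ⟨w, hw, hwmin⟩ := (isCompact_sphere z₀ r).exists_isMinOn
    (NormedSpace.sphere_nonempty.mpr hr.le)
    ((hfd.continuousOn.mono (sphere_subset_closedBall.trans hsub)).norm)
  have hm : 0 < ‖f w‖ := norm_pos_iff.mpr (hsph w hw)
  have hunif : TendstoUniformlyOn F f l (closedBall z₀ r) :=
    (tendstoLocallyUniformlyOn_iff_forall_isCompact hU).mp hlim _ hsub (isCompact_closedBall _ _)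
  rw [Metric.tendstoUniformlyOn_iff] at hunif
  obtain ⟨i, hi, hi2⟩ := (hF.and (hunif (‖f w‖ / 2) (by positivity))).exists
  have hinv : DiffContOnCl ℂ (fun z => (F i z)⁻¹) (ball z₀ r) := by
    apply DifferentiableOn.diffContOnCl
    rw [closure_ball z₀ hr.ne']
    exact (hi.1.mono hsub).inv fun z hz => hi.2 z (hsub hz)
  have hle : ‖(F i z₀)⁻¹‖ ≤ (‖f w‖ / 2)⁻¹ := by
    refine Complex.norm_le_of_forall_mem_frontier_norm_le isBounded_ball hinv ?_
      (subset_closure (mem_ball_self hr))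
    intro z hz
    rw [frontier_ball z₀ hr.ne'] at hz
    rw [norm_inv]
    apply inv_anti₀ (by positivity)
    have h1 := hi2 z (sphere_subset_closedBall hz)
    have h2 : ‖f w‖ ≤ ‖f z‖ := hwmin hz
    rw [dist_eq_norm] at h1
    have := norm_sub_norm_le (f z) (F i z)
    linarith
  have h1 := hi2 z₀ (mem_closedBall_self hr.le)
  rw [hf₀, dist_comm, dist_zero_right] at h1
  rw [norm_inv] at hle
  have h0 : 0 < ‖F i z₀‖ := norm_pos_iff.mpr (hi.2 z₀ hz₀)
  have := (inv_le_inv₀ h0 (by positivity)).mp hle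
  linarith

/-- An injective holomorphic function has nonvanishing derivative. -/
theorem deriv_ne_zero_of_injOn {U : Set ℂ} (hU : IsOpen U) {f : ℂ → ℂ}
    (hf : DifferentiableOn ℂ f U) (hinj : InjOn f U) {z₀ : ℂ} (hz₀ : z₀ ∈ U) :
    deriv f z₀ ≠ 0 := by
  obtain ⟨R, hR, hRU⟩ := Metric.nhds_basis_closedBall.mem_iff.mp (hU.mem_nhds hz₀)
  obtain ⟨C, hC⟩ := (isCompact_closedBall z₀ R).exists_bound_of_continuousOn
    (hf.continuousOn.mono hRU)
  have hsub : ∀ z ∈ ball z₀ (R / 2), ball z (R / 2) ⊆ closedBall z₀ R := by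
    intro z hz w hw
    rw [mem_ball] at hz hw
    rw [mem_closedBall]
    linarith [dist_triangle w z z₀]
  have hsub0 : ball z₀ (R / 2) ⊆ U := (ball_subset_closedBall.trans
    (closedBall_subset_closedBall (by linarith))).trans hRU
  have hev : ∀ᶠ t in 𝓝[≠] (0 : ℂ), ‖t‖ < R / 2 ∧ t ≠ 0 := by
    have h1 : ∀ᶠ t in 𝓝 (0 : ℂ), ‖t‖ < R / 2 := by
      filter_upwards [ball_mem_nhds (0 : ℂ) (half_pos hR)] with t ht using by simpa using ht
    exact (h1.filter_mono nhdsWithin_le_nhds).and self_mem_nhdsWithin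
  have hmem : ∀ t : ℂ, ‖t‖ < R / 2 → ∀ z ∈ ball z₀ (R / 2), z + t ∈ ball z (R / 2) := by
    intro t ht z _
    simpa using ht
  have hdiff : ∀ t : ℂ, ‖t‖ < R / 2 →
      DifferentiableOn ℂ (fun z => t⁻¹ * (f (z + t) - f z)) (ball z₀ (R / 2)) := by
    intro t ht
    refine DifferentiableOn.const_mul (DifferentiableOn.sub ?_ (hf.mono hsub0)) _
    exact hf.comp (differentiableOn_id.add_const t)
      fun z hz => hRU (hsub z hz (hmem t ht z hz))
  have hlim : TendstoLocallyUniformlyOn (fun t z => t⁻¹ * (f (z + t) - f z)) (deriv f)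
      (𝓝[≠] (0 : ℂ)) (ball z₀ (R / 2)) := by
    refine montel isOpen_ball (C := 2 * C / (R / 2)) ?_ ?_
    · filter_upwards [hev] with t ht
      refine ⟨hdiff t ht.1, fun z hz => ?_⟩
      have h1 : dist (f (z + t)) (f z) ≤ (2 * C) / (R / 2) * dist (z + t) z := by
        refine Complex.dist_le_div_mul_dist_of_mapsTo_ball
          (hf.mono ((hsub z hz).trans hRU)) ?_ (hmem t ht.1 z hz)
        intro w hw
        rw [mem_closedBall, dist_eq_norm]
        calc ‖f w - f z‖ ≤ ‖f w‖ + ‖f z‖ := norm_sub_le _ _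
          _ ≤ C + C := add_le_add (hC w (hsub z hz hw))
              (hC z (hsub z hz (mem_ball_self (half_pos hR))))
          _ = 2 * C := by ring
      rw [dist_eq_norm, dist_eq_norm, add_sub_cancel_left] at h1
      rw [norm_mul, norm_inv, inv_mul_le_iff₀ (norm_pos_iff.mpr ht.2)]
      linarith
    · intro z hz
      have := (hf.differentiableAt (hU.mem_nhds (hsub0 hz))).hasDerivAt
      rw [hasDerivAt_iff_tendsto_slope_zero] at this
      simpa [smul_eq_mul] using this
  have hnz : ∀ᶠ t in 𝓝[≠] (0 : ℂ),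
      DifferentiableOn ℂ (fun z => t⁻¹ * (f (z + t) - f z)) (ball z₀ (R / 2)) ∧
      ∀ z ∈ ball z₀ (R / 2), t⁻¹ * (f (z + t) - f z) ≠ 0 := by
    filter_upwards [hev] with t ht
    refine ⟨hdiff t ht.1, fun z hz => ?_⟩
    refine mul_ne_zero (inv_ne_zero ht.2) (sub_ne_zero.mpr fun h => ?_)
    have := hinj (hRU (hsub z hz (hmem t ht.1 z hz))) (hsub0 hz) h
    exact ht.2 (by linear_combination this)
  rcases hurwitz isOpen_ball (convex_ball z₀ (R / 2)).isPreconnected hnz hlim with h | h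
  · exfalso
    have hconst := isOpen_ball.is_const_of_deriv_eq_zero (convex_ball z₀ (R / 2)).isPreconnected
      (hf.mono hsub0) (fun z hz => h z hz) (mem_ball_self (half_pos hR))
      (y := z₀ + (R / 4 : ℝ)) (by
        rw [mem_ball, dist_eq_norm, add_sub_cancel_left, Complex.norm_real, Real.norm_eq_abs,
          abs_of_pos (by positivity)]
        linarith)
    have := hinj hz₀ (hsub0 (by
        rw [mem_ball, dist_eq_norm, add_sub_cancel_left, Complex.norm_real, Real.norm_eq_abs,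
          abs_of_pos (by positivity)]
        linarith)) hconst
    have h2 : ((R / 4 : ℝ) : ℂ) = 0 := by linear_combination -this
    have h3 : R / 4 = 0 := by exact_mod_cast h2
    linarith
  · exact h z₀ (mem_ball_self (half_pos hR))

/-- The disc automorphism `w ↦ (w - a) / (1 - conj a * w)`. -/
noncomputable def mob (a w : ℂ) : ℂ := (w - a) / (1 - (starRingEnd ℂ) a * w)

lemma mob_den_ne {a w : ℂ} (ha : ‖a‖ < 1) (hw : ‖w‖ ≤ 1) : 1 - (starRingEnd ℂ) a * w ≠ 0 := by
  intro h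
  have h1 : (starRingEnd ℂ) a * w = 1 := by linear_combination -h
  have h2 := congrArg norm h1
  rw [norm_mul, Complex.norm_conj, norm_one] at h2
  nlinarith [norm_nonneg a, norm_nonneg w]

lemma normSq_mob_den (a w : ℂ) :
    ‖1 - (starRingEnd ℂ) a * w‖ ^ 2 - ‖w - a‖ ^ 2 = (1 - ‖a‖ ^ 2) * (1 - ‖w‖ ^ 2) := by
  simp only [Complex.sq_norm, Complex.normSq_apply, sub_re, sub_im, mul_re, mul_im, one_re,
    one_im, conj_re, conj_im]
  ring

lemma norm_mob_lt {a w : ℂ} (ha : ‖a‖ < 1) (hw : ‖w‖ < 1) : ‖mob a w‖ < 1 := by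
  have hd := norm_pos_iff.mpr (mob_den_ne ha hw.le)
  rw [mob, norm_div, div_lt_one hd]
  have h := normSq_mob_den a w
  have h1 : 0 < 1 - ‖a‖ ^ 2 := by nlinarith [norm_nonneg a]
  have h2 : 0 < 1 - ‖w‖ ^ 2 := by nlinarith [norm_nonneg w]
  have h3 := mul_pos h1 h2
  exact lt_of_pow_lt_pow_left₀ 2 hd.le (by linarith)

lemma mob_inj {a w w' : ℂ} (ha : ‖a‖ < 1) (hw : ‖w‖ < 1) (hw' : ‖w'‖ < 1)
    (h : mob a w = mob a w') : w = w' := by
  have hd := mob_den_ne ha hw.le
  have hd' := mob_den_ne ha hw'.le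
  have hda := mob_den_ne ha ha.le
  rw [mob, mob, div_eq_div_iff hd hd'] at h
  have : (w - w') * (1 - (starRingEnd ℂ) a * a) = 0 := by linear_combination h
  rcases mul_eq_zero.mp this with h1 | h1
  · linear_combination h1
  · exact absurd h1 hda

lemma mob_self (a : ℂ) : mob a a = 0 := by simp [mob]

lemma mob_zero (a : ℂ) : mob a 0 = -a := by simp [mob]

lemma hasDerivAt_mob {a w : ℂ} (ha : ‖a‖ < 1) (hw : ‖w‖ ≤ 1) :
    HasDerivAt (mob a) ((1 - (starRingEnd ℂ) a * a) / (1 - (starRingEnd ℂ) a * w) ^ 2) w := by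
  have hd := mob_den_ne ha hw
  have h1 : HasDerivAt (fun w => w - a) 1 w := (hasDerivAt_id w).sub_const a
  have h2 : HasDerivAt (fun w => 1 - (starRingEnd ℂ) a * w) (-(starRingEnd ℂ) a) w := by
    simpa using ((hasDerivAt_id w).const_mul ((starRingEnd ℂ) a)).const_sub 1
  have h3 := h1.div h2 hd
  have h4 : (1 - (starRingEnd ℂ) a * a) / (1 - (starRingEnd ℂ) a * w) ^ 2 =
      (1 * (1 - (starRingEnd ℂ) a * w) - (w - a) * -(starRingEnd ℂ) a) /
        (1 - (starRingEnd ℂ) a * w) ^ 2 := by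
    congr 1
    ring
  rw [h4]
  exact h3

lemma norm_one_sub_conj_mul_self {a : ℂ} (ha : ‖a‖ < 1) :
    ‖1 - (starRingEnd ℂ) a * a‖ = 1 - ‖a‖ ^ 2 := by
  rw [Complex.conj_mul', ← Complex.ofReal_pow, ← Complex.ofReal_one, ← Complex.ofReal_sub,
    Complex.norm_real, Real.norm_eq_abs, abs_of_nonneg]
  nlinarith [norm_nonneg a]

/-- Admissible maps. -/
structure Adm (U : Set ℂ) (x : ℂ) (f : ℂ → ℂ) : Prop where
  diff : DifferentiableOn ℂ f U
  inj : InjOn f U
  maps : ∀ z ∈ U, ‖f z‖ < 1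
  zero : f x = 0

lemma adm_mob {U : Set ℂ} {x : ℂ} (hx : x ∈ U) {f : ℂ → ℂ} (hd : DifferentiableOn ℂ f U)
    (hi : InjOn f U) (hm : ∀ z ∈ U, ‖f z‖ < 1) : Adm U x (fun z => mob (f x) (f z)) where
  diff := fun z hz =>
    (hasDerivAt_mob (hm x hx) (hm z hz).le).differentiableAt.comp_differentiableWithinAt z
      (hd z hz)
  inj := fun z hz w hw h => hi hz hw (mob_inj (hm x hx) (hm z hz) (hm w hw) h)
  maps := fun z hz => norm_mob_lt (hm x hx) (hm z hz)
  zero := mob_self _

/-- The square root trick. -/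
lemma exists_adm_gt {U : Set ℂ} (hU : IsOpen U) (hUc : IsSimplyConnected U) {x : ℂ}
    (hx : x ∈ U) {f : ℂ → ℂ} (hf : Adm U x f) {a : ℂ} (ha : ‖a‖ < 1) (hfa : a ∉ f '' U) :
    ∃ F, Adm U x F ∧ ‖deriv f x‖ < ‖deriv F x‖ := by
  set g : ℂ → ℂ := fun z => mob a (f z) with hg
  have hgd : ∀ z ∈ U, HasStrictDerivAt g (deriv g z) z := by
    intro z hz
    have : DifferentiableOn ℂ g U := fun z hz =>
      (hasDerivAt_mob ha (hf.maps z hz).le).differentiableAt.comp_differentiableWithinAt z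
        (hf.diff z hz)
    exact (this.analyticAt (hU.mem_nhds hz)).hasStrictDerivAt
  have hg0 : ∀ z ∈ U, g z ≠ 0 := by
    intro z hz h
    rw [← mob_self a] at h
    exact hfa ⟨z, hz, mob_inj ha (hf.maps z hz) ha h⟩
  have hgc : ContinuousOn g U := fun z hz =>
    (hgd z hz).hasDerivAt.continuousAt.continuousWithinAt
  obtain ⟨h, hhc, hh⟩ := Complex.exists_continuousOn_pow_eq hUc hU hgc
    (by rintro ⟨z, hz, h⟩; exact hg0 z hz h) two_ne_zero
  have hh0 : ∀ z ∈ U, h z ≠ 0 := by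
    intro z hz h0
    apply hg0 z hz
    rw [← hh z, h0]; simp
  have hhd : ∀ z ∈ U, HasDerivAt h (deriv g z / (2 * h z)) z := by
    intro z hz
    have hc : ContinuousAt h z := hhc.continuousAt (hU.mem_nhds hz)
    rw [hasDerivAt_iff_tendsto_slope]
    have h1 := hasDerivAt_iff_tendsto_slope.mp (hgd z hz).hasDerivAt
    have h2 : Tendsto (fun w => h w + h z) (𝓝[≠] z) (𝓝 (2 * h z)) := by
      rw [two_mul]
      exact (hc.tendsto.mono_left nhdsWithin_le_nhds).add_const _
    have h3 := h1.div h2 (mul_ne_zero two_ne_zero (hh0 z hz))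
    refine h3.congr' ?_
    filter_upwards [h2.eventually_ne (mul_ne_zero two_ne_zero (hh0 z hz))] with w hw
    simp only [slope_def_field, Pi.div_apply, ← hh]
    field_simp
    ring
  have hhm : ∀ z ∈ U, ‖h z‖ < 1 := by
    intro z hz
    have : ‖h z‖ ^ 2 < 1 := by
      rw [← norm_pow, hh]
      exact norm_mob_lt ha (hf.maps z hz)
    nlinarith [norm_nonneg (h z)]
  have hhi : InjOn h U := by
    intro z hz w hw hzw
    apply hf.inj hz hw
    apply mob_inj ha (hf.maps z hz) (hf.maps w hw)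
    change g z = g w
    rw [← hh, ← hh, hzw]
  refine ⟨fun z => mob (h x) (h z),
    adm_mob hx (fun z hz => (hhd z hz).differentiableAt.differentiableWithinAt) hhi hhm, ?_⟩
  have hfx := (hf.diff.differentiableAt (hU.mem_nhds hx)).hasDerivAt
  have hgx : deriv g x = (1 - (starRingEnd ℂ) a * a) * deriv f x := by
    have := (hasDerivAt_mob ha (hf.maps x hx).le).comp x hfx
    rw [hf.zero] at this
    change deriv (mob a ∘ f) x = _
    simpa using this.deriv
  have hFx := ((hasDerivAt_mob (hhm x hx) (hhm x hx).le).comp x (hhd x hx)).deriv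
  change ‖deriv f x‖ < ‖deriv (mob (h x) ∘ h) x‖
  rw [hFx, hgx]
  have hb : ‖h x‖ ^ 2 = ‖a‖ := by
    rw [← norm_pow, hh, hg]
    simp [hf.zero, mob_zero]
  have hb0 : 0 < ‖h x‖ := norm_pos_iff.mpr (hh0 x hx)
  have hb1 := hhm x hx
  have hd0 : 0 < ‖deriv f x‖ := norm_pos_iff.mpr (deriv_ne_zero_of_injOn hU hf.diff hf.inj hx)
  simp only [norm_mul, norm_div, norm_pow, norm_one_sub_conj_mul_self hb1,
    norm_one_sub_conj_mul_self ha, Complex.norm_ofNat, ← hb]
  set b := ‖h x‖
  set d := ‖deriv f x‖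
  have h1 : 0 < 1 - b ^ 2 := by nlinarith
  have h2 : (1 - b ^ 2) / (1 - b ^ 2) ^ 2 * ((1 - (b ^ 2) ^ 2) * d / (2 * b))
      = (1 + b ^ 2) / (2 * b) * d := by
    field_simp
    ring
  rw [h2]
  refine lt_mul_of_one_lt_left hd0 ?_
  rw [one_lt_div (by positivity)]
  nlinarith

/-- The Riemann mapping theorem. -/
theorem exists_riemann_map {U : Set ℂ} (hU : IsOpen U) (hUc : IsSimplyConnected U)
    (hb : Bornology.IsBounded U) {x : ℂ} (hx : x ∈ U) :
    ∃ f : ℂ → ℂ, DifferentiableOn ℂ f U ∧ InjOn f U ∧ f '' U = ball 0 1 ∧ f x = 0 := by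
  have hUp : IsPreconnected U := hUc.isPathConnected.isConnected.isPreconnected
  obtain ⟨C, hC0, hC⟩ := hb.exists_pos_norm_lt
  set f₀ : ℂ → ℂ := fun z => z / C with hf₀
  have hA₀ : Adm U x (fun z => mob (f₀ x) (f₀ z)) := by
    refine adm_mob hx (differentiableOn_id.div_const _) ?_ ?_
    · intro z _ w _ h
      have hC' : (C : ℂ) ≠ 0 := by exact_mod_cast hC0.ne'
      simpa [hf₀, div_left_inj' hC'] using h
    · intro z hz
      simp only [hf₀, norm_div, Complex.norm_real, Real.norm_eq_abs, abs_of_pos hC0]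
      rw [div_lt_one hC0]
      exact hC z hz
  obtain ⟨R, hR, hRU⟩ := Metric.isOpen_iff.mp hU x hx
  set S : Set ℝ := (fun f => ‖deriv f x‖) '' {f | Adm U x f} with hS
  have hSne : S.Nonempty := ⟨_, _, hA₀, rfl⟩
  have hSb : BddAbove S := by
    refine ⟨1 / R, ?_⟩
    rintro _ ⟨f, hf, rfl⟩
    refine Complex.norm_deriv_le_div_of_mapsTo_ball (hf.diff.mono hRU) ?_ hR
    intro z hz
    rw [hf.zero, mem_closedBall, dist_zero_right]
    exact (hf.maps z (hRU hz)).le
  obtain ⟨u, -, hu, huS⟩ := exists_seq_tendsto_sSup hSne hSb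
  choose F hF hFu using huS
  have hpos : 0 < sSup S := by
    refine lt_of_lt_of_le ?_ (le_csSup hSb ⟨_, hA₀, rfl⟩)
    exact norm_pos_iff.mpr (deriv_ne_zero_of_injOn hU hA₀.diff hA₀.inj hx)
  set l : Ultrafilter ℕ := Ultrafilter.of atTop with hl
  have hll : (l : Filter ℕ) ≤ atTop := Ultrafilter.of_le _
  have hex : ∀ z ∈ U, ∃ w ∈ closedBall (0 : ℂ) 1,
      Tendsto (fun n => F n z) (l : Filter ℕ) (𝓝 w) := by
    intro z hz
    obtain ⟨w, hw, hw2⟩ := (isCompact_closedBall (0 : ℂ) 1).ultrafilter_le_nhds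
      (l.map fun n => F n z) (by
        rw [le_principal_iff, Ultrafilter.mem_coe, Ultrafilter.mem_map]
        exact Filter.univ_mem' fun n => by simpa using ((hF n).maps z hz).le)
    exact ⟨w, hw, hw2⟩
  choose! f hf1 hf2 using hex
  have hlim : TendstoLocallyUniformlyOn F f l U :=
    montel hU (C := 1) (Eventually.of_forall fun n =>
      ⟨(hF n).diff, fun z hz => ((hF n).maps z hz).le⟩) hf2
  have hfd : DifferentiableOn ℂ f U :=
    hlim.differentiableOn (Eventually.of_forall fun n => (hF n).diff) hU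
  have hfx : f x = 0 := by
    have := hf2 x hx
    simp only [(hF _).zero] at this
    exact tendsto_nhds_unique this tendsto_const_nhds
  have hdx : ‖deriv f x‖ = sSup S := by
    have h1 := ((hlim.deriv (Eventually.of_forall fun n => (hF n).diff) hU).tendsto_at hx).norm
    have h2 : Tendsto (fun n => ‖deriv (F n) x‖) l (𝓝 (sSup S)) := by
      simp only [hFu] 
      exact hu.mono_left hll
    exact tendsto_nhds_unique h1 h2
  have hinj : InjOn f U := by
    intro z₁ hz₁ z₂ hz₂ h12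
    by_contra hne12
    obtain ⟨r, hr, hrU⟩ := Metric.isOpen_iff.mp (hU.inter isOpen_compl_singleton) z₂
      ⟨hz₂, fun h => hne12 (mem_singleton_iff.mp h).symm⟩
    have hrU1 : ball z₂ r ⊆ U := fun z hz => (hrU hz).1
    have hlim2 : TendstoLocallyUniformlyOn (fun n z => F n z - F n z₁) (fun z => f z - f z₁) l
        (ball z₂ r) := by
      refine montel isOpen_ball (C := 2) (Eventually.of_forall fun n => ⟨?_, ?_⟩) ?_
      · exact ((hF n).diff.mono hrU1).sub_const _
      · intro z hz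
        have h1 := (hF n).maps z (hrU1 hz)
        have h2 := (hF n).maps z₁ hz₁
        linarith [norm_sub_le (F n z) (F n z₁)]
      · intro z hz
        exact (hf2 z (hrU1 hz)).sub (hf2 z₁ hz₁)
    rcases hurwitz isOpen_ball (convex_ball z₂ r).isPreconnected
      (Eventually.of_forall fun n => ⟨((hF n).diff.mono hrU1).sub_const _, fun z hz h => by
        have := (hF n).inj (hrU1 hz) hz₁ (sub_eq_zero.mp h)
        exact (hrU hz).2 (mem_singleton_iff.mpr this)⟩) hlim2 with h | h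
    · have ha : AnalyticOnNhd ℂ (fun z => f z - f z₁) U := (hfd.sub_const _).analyticOnNhd hU
      have h0 := ha.eqOn_zero_of_preconnected_of_eventuallyEq_zero hUp hz₂
        (by filter_upwards [ball_mem_nhds z₂ hr] with z hz using h z hz)
      have h1 : f =ᶠ[𝓝 x] fun _ => f z₁ := by
        filter_upwards [hU.mem_nhds hx] with z hz using sub_eq_zero.mp (h0 hz)
      rw [h1.deriv_eq] at hdx
      simp at hdx
      linarith
    · exact h z₂ (mem_ball_self hr) (by simp [h12])
  have hmaps : ∀ z ∈ U, ‖f z‖ < 1 := by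
    intro z hz
    have h1 : f '' U ∈ 𝓝 (f z) := by
      rw [← ((hfd.analyticAt (hU.mem_nhds hz)).hasStrictDerivAt).map_nhds_eq
        (deriv_ne_zero_of_injOn hU hfd hinj hz)]
      exact image_mem_map (hU.mem_nhds hz)
    have h2 : closedBall (0 : ℂ) 1 ∈ 𝓝 (f z) := by
      refine mem_of_superset h1 ?_
      rintro _ ⟨w, hw, rfl⟩
      exact hf1 w hw
    rw [← mem_interior_iff_mem_nhds, interior_closedBall _ one_ne_zero] at h2
    simpa using h2
  have hA : Adm U x f := ⟨hfd, hinj, hmaps, hfx⟩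
  refine ⟨f, hfd, hinj, ?_, hfx⟩
  apply Subset.antisymm
  · rintro _ ⟨z, hz, rfl⟩
    simpa using hmaps z hz
  · intro a ha
    by_contra hfa
    obtain ⟨G, hG, hlt⟩ := exists_adm_gt hU hUc hx hA (by simpa using ha) hfa
    have := le_csSup hSb ⟨G, hG, rfl⟩
    simp only at this
    linarith

end Crest.Agent.Crouzeix
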