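import Crest.Agent.Crouzeix.Paulsen

/-! Reparametrisation of the circle, Taylor polynomials, Poisson kernel of a contraction. -/

set_option autoImplicit false

open Set Metric Filter Topology Complex Real MeasureTheory
open scoped ComplexConjugate InnerProductSpace ComplexOrder Matrix Matrix.Norms.L2Operator
  MatrixOrder Kronecker

namespace Crest.Agent.Crouzeix

lemma reparam {W : Set ℂ} (hW : IsOpen W) (hSW : sphere (0 : ℂ) 1 ⊆ W) {γ : ℂ → ℂ}
    (hγ : DifferentiableOn ℂ γ W) (hinj : InjOn γ W) (hn : ∀ t ∈ sphere (0 : ℂ) 1, ‖γ t‖ = 1)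
    (hout : ∀ t ∈ sphere (0 : ℂ) 1, ∀ᶠ ρ : ℝ in 𝓝[>] 0, 1 ≤ ‖γ (t + ρ * t)‖) :
    ∃ w : ℂ → ℝ, ContinuousOn w (sphere 0 1) ∧ (∀ t ∈ sphere (0 : ℂ) 1, 0 ≤ w t) ∧
      ∀ h : ℂ → ℂ, ContinuousOn h (sphere 0 1) →
        circleAverage (fun t => (w t : ℂ) * h (γ t)) 0 1 = circleAverage h 0 1 := by
  have hs : ∀ θ : ℝ, circleMap 0 1 θ ∈ sphere (0 : ℂ) 1 :=
    fun θ => circleMap_mem_sphere 0 zero_le_one θ
  have hd : ∀ t ∈ sphere (0 : ℂ) 1, HasDerivAt γ (deriv γ t) t := fun t ht =>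
    (hγ.differentiableAt (hW.mem_nhds (hSW ht))).hasDerivAt
  have h0 : ∀ t ∈ sphere (0 : ℂ) 1, γ t ≠ 0 := fun t ht => by
    rw [← norm_pos_iff, hn t ht]; exact one_pos
  set l : ℂ → ℂ := fun t => t * deriv γ t / γ t with hl
  have hlc : ContinuousOn l (sphere 0 1) :=
    (continuousOn_id.mul ((hγ.deriv hW).continuousOn.mono hSW)).div
      (hγ.continuousOn.mono hSW) h0
  have hinner : ∀ t ∈ sphere (0 : ℂ) 1, ∀ c : ℂ, ⟪γ t, c * l t * γ t⟫_ℝ = (c * l t).re := by
    intro t ht c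
    rw [Complex.inner, mul_assoc, Complex.mul_conj, Complex.normSq_eq_norm_sq, hn t ht]
    simp
  have hc : ∀ θ, HasDerivAt (fun θ => γ (circleMap 0 1 θ))
      (I * l (circleMap 0 1 θ) * γ (circleMap 0 1 θ)) θ := by
    intro θ
    have := (hd _ (hs θ)).scomp θ (hasDerivAt_circleMap 0 1 θ)
    refine this.congr_deriv ?_
    have := h0 _ (hs θ)
    simp only [hl, smul_eq_mul]
    field_simp
  have him : ∀ θ, (l (circleMap 0 1 θ)).im = 0 := by
    intro θ
    have h1 := (hc θ).norm_sq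
    simp only [hn _ (hs _)] at h1
    have h2 := h1.unique (hasDerivAt_const θ _)
    rw [hinner _ (hs θ)] at h2
    simpa using h2
  have hre : ∀ t ∈ sphere (0 : ℂ) 1, 0 ≤ (l t).re := by
    intro t ht
    have h1 : HasDerivAt (fun ρ : ℂ => γ (t + ρ * t)) (1 * l t * γ t) 0 := by
      have h2 : HasDerivAt (fun ρ : ℂ => t + ρ * t) t 0 := by
        simpa using ((hasDerivAt_id (0 : ℂ)).mul_const t).const_add t
      refine ((hd t ht).comp_of_eq (0 : ℂ) h2 (by simp)).congr_deriv ?_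
      have := h0 _ ht
      simp only [hl]
      field_simp
    have hN := (HasDerivAt.comp_ofReal (z := (0 : ℝ)) (by simpa only [ofReal_zero] using h1)).norm_sq
    simp only [ofReal_zero, zero_mul, add_zero, hinner t ht] at hN
    rw [one_mul] at hN
    have hs := (hasDerivAt_iff_tendsto_slope_zero.mp hN).mono_left
      (nhdsWithin_mono _ (fun s (hs : 0 < s) => hs.ne') : 𝓝[>] (0 : ℝ) ≤ 𝓝[≠] 0)
    have := ge_of_tendsto (b := 0) hs (by
      filter_upwards [hout t ht, self_mem_nhdsWithin] with s h1 (h2 : 0 < s)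
      simp only [zero_add, ofReal_zero, zero_mul, add_zero, hn t ht, one_pow, smul_eq_mul]
      refine mul_nonneg (inv_nonneg.mpr h2.le) ?_
      nlinarith)
    linarith
  set w : ℝ → ℝ := fun θ => (l (circleMap 0 1 θ)).re with hw
  have hwc : Continuous w := Complex.continuous_re.comp (cont_circle hlc)
  have hlw : ∀ θ, l (circleMap 0 1 θ) = w θ := fun θ => Complex.ext (by simp [hw]) (by simp [him])
  have hwpos : ∀ θ, 0 < w θ := by
    intro θ
    refine lt_of_le_of_ne (hre _ (hs θ)) fun e => ?_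
    have h1 := hlw θ
    rw [← e] at h1
    refine div_ne_zero (mul_ne_zero (Conf.ne_zero_of_sphere one_pos (hs θ))
      (deriv_ne_zero_of_injOn hW hγ hinj (hSW (hs θ)))) (h0 _ (hs θ)) ?_
    exact h1
  set φ : ℝ → ℝ := fun θ => arg (γ (circleMap 0 1 0)) + ∫ x in (0 : ℝ)..θ, w x with hφ
  have hφd : ∀ θ, HasDerivAt φ (w θ) θ := fun θ =>
    (hwc.integral_hasStrictDerivAt 0 θ).hasDerivAt.const_add _
  have hφc : Continuous φ := continuous_iff_continuousAt.mpr fun θ => (hφd θ).continuousAt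
  have hexp : ∀ θ, γ (circleMap 0 1 θ) = circleMap 0 1 (φ θ) := by
    have h1 : ∀ θ, HasDerivAt (fun θ => γ (circleMap 0 1 θ) * cexp (-(φ θ * I))) 0 θ := by
      intro θ
      have h2 := (((hφd θ).ofReal_comp.mul_const I).neg).cexp
      refine ((hc θ).mul h2).congr_deriv ?_
      rw [hlw]
      simp only [Pi.neg_apply]
      ring
    have h2 := is_const_of_deriv_eq_zero (fun θ => (h1 θ).differentiableAt)
      (fun θ => (h1 θ).deriv)
    have h3 : γ (circleMap 0 1 0) = cexp (φ 0 * I) := by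
      have := Complex.norm_mul_exp_arg_mul_I (γ (circleMap 0 1 0))
      rw [hn _ (hs 0)] at this
      simpa [hφ] using this.symm
    intro θ
    have h4 := h2 θ 0
    rw [h3, ← Complex.exp_add, add_neg_cancel, Complex.exp_zero, Complex.exp_neg,
      mul_inv_eq_one₀ (Complex.exp_ne_zero _)] at h4
    rw [h4, circleMap_zero]
    simp
  have hend : φ (2 * π) = φ 0 + 2 * π := by
    have h1 : circleMap 0 1 (φ (2 * π)) = circleMap 0 1 (φ 0) := by
      rw [← hexp, ← hexp, ← (periodic_circleMap 0 1).eq]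
    rw [circleMap_eq_circleMap_iff 0 one_ne_zero] at h1
    obtain ⟨k, hk⟩ := h1
    have hk' : φ (2 * π) = φ 0 + k * (2 * π) := by
      have := congrArg Complex.im hk
      simpa using this
    have h2 : φ 0 < φ (2 * π) := by
      have := intervalIntegral.intervalIntegral_pos_of_pos (hwc.intervalIntegrable 0 (2 * π))
        hwpos Real.two_pi_pos
      simpa [hφ] using this
    have h3 : 0 < k := by
      have : 0 < (k : ℝ) * (2 * π) := by linarith
      exact_mod_cast (mul_pos_iff_of_pos_right Real.two_pi_pos).mp this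
    have h4 : k ≤ 1 := by
      by_contra hcon
      push Not at hcon
      have h5 : (1 : ℝ) < k := by exact_mod_cast hcon
      have h6 : 2 * π < k * (2 * π) := lt_mul_of_one_lt_left Real.two_pi_pos h5
      obtain ⟨θ, hθ, hθ2⟩ := intermediate_value_Ioo Real.two_pi_pos.le hφc.continuousOn
        (show φ 0 + 2 * π ∈ Ioo (φ 0) (φ (2 * π)) from
          ⟨by linarith [Real.two_pi_pos], by linarith⟩)
      have h7 : γ (circleMap 0 1 θ) = γ (circleMap 0 1 0) := by
        rw [hexp, hexp, hθ2, periodic_circleMap 0 1]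
      have h8 := eq_of_circleMap_eq one_ne_zero (by
        rw [sub_zero, abs_of_pos hθ.1]; exact hθ.2) (hinj (hSW (hs θ)) (hSW (hs 0)) h7)
      exact hθ.1.ne' h8
    have : k = 1 := by omega
    rw [hk', this]
    simp
  refine ⟨fun t => (l t).re, Complex.continuous_re.comp_continuousOn hlc, hre, fun h hh => ?_⟩
  rw [circleAverage_def, circleAverage_def]
  congr 1
  have h1 := intervalIntegral.integral_deriv_smul_comp (a := 0) (b := 2 * π)
    (fun x _ => hφd x) hwc.continuousOn (cont_circle hh)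
  have h2 : Function.Periodic (fun θ => h (circleMap 0 1 θ)) (2 * π) :=
    (periodic_circleMap 0 1).comp h
  rw [hend, h2.intervalIntegral_add_eq (φ 0) 0, zero_add] at h1
  rw [← h1]
  congr 1
  ext θ
  simp only [Function.comp_apply, ← hexp, Complex.real_smul, hw]

lemma taylor_approx {g : ℂ → ℂ} {ρ : ℝ} (hρ : 0 < ρ) (hg : DifferentiableOn ℂ g (closedBall 0 ρ)) :
    ∃ t : ℕ → Polynomial ℂ,
      TendstoLocallyUniformlyOn (fun N w => (t N).eval w) g atTop (ball 0 ρ) := by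
  lift ρ to NNReal using hρ.le
  have h := (hg.hasFPowerSeriesOnBall (by exact_mod_cast hρ)).tendstoLocallyUniformlyOn'
  rw [Metric.eball_coe] at h
  refine ⟨fun N => ∑ k ∈ Finset.range N,
    Polynomial.monomial k ((cauchyPowerSeries g 0 ρ).coeff k), ?_⟩
  convert h using 3 with N w
  simp [FormalMultilinearSeries.partialSum, Polynomial.eval_finsetSum, mul_comm]

lemma avg_tendsto {F : ℕ → ℂ → ℂ} {f : ℂ → ℂ} (hF : ∀ N, ContinuousOn (F N) (sphere 0 1))
    (h : TendstoUniformlyOn F f atTop (sphere 0 1)) :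
    Tendsto (fun N => circleAverage (F N) 0 1) atTop (𝓝 (circleAverage f 0 1)) := by
  simp only [circleAverage_def]
  refine Tendsto.const_smul ?_ _
  refine TendstoUniformlyOn.tendsto_intervalIntegral_of_continuousOn
    (Eventually.of_forall fun N => (cont_circle (hF N)).continuousOn) ?_
  exact (h.comp (circleMap 0 1)).mono fun θ _ => circleMap_mem_sphere 0 zero_le_one θ

variable {n : ℕ}

/-- The Poisson kernel of a contraction whose powers tend to zero. -/
lemma exists_poisson {X : Matrix (Fin n) (Fin n) ℂ} (hX : (1 - Xᴴ * X).PosSemidef)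
    (h0 : Tendsto (fun j => X ^ j) atTop (𝓝 0)) :
    ∃ P : ℂ → Matrix (Fin n) (Fin n) ℂ, ContinuousOn P (sphere 0 1) ∧
      (∀ ζ ∈ sphere (0 : ℂ) 1, (P ζ).PosSemidef) ∧
      ∀ t : Polynomial ℂ, circleAverage (fun ζ => t.eval ζ • P ζ) 0 1 = Polynomial.aeval X t := by
  have hcomp : CompleteSpace (Matrix (Fin n) (Fin n) ℂ) := FiniteDimensional.complete ℂ _
  have hunit : ∀ ζ ∈ closedBall (0 : ℂ) 1, IsUnit (1 - ζ • Xᴴ) := by
    intro ζ hζ
    obtain ⟨j, hj⟩ := (h0.norm.eventually (gt_mem_nhds (by simp : ‖(0 : Matrix (Fin n) (Fin n) ℂ)‖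
      < 1))).exists
    have h1 : ‖(ζ • Xᴴ) ^ j‖ < 1 := by
      rw [smul_pow, norm_smul, ← Matrix.conjTranspose_pow, Matrix.l2_opNorm_conjTranspose,
        norm_pow]
      exact (mul_le_of_le_one_left (norm_nonneg _)
        (pow_le_one₀ (norm_nonneg _) (by simpa using hζ))).trans_lt hj
    have h2 := isUnit_one_sub_of_norm_lt_one h1
    rw [← mul_neg_geom_sum] at h2
    refine ((Commute.isUnit_mul_iff ?_).mp h2).1
    exact Commute.sum_right _ _ _ fun i _ =>
      (Commute.one_left _).sub_left ((Commute.refl _).pow_right i)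
  set Φ : ℂ → Matrix (Fin n) (Fin n) ℂ := fun ζ => Ring.inverse (1 - ζ • Xᴴ) with hΦ
  have hΦd : DifferentiableOn ℂ Φ (closedBall 0 1) :=
    DifferentiableOn.inverse ((differentiableOn_const _).sub (differentiableOn_id.smul_const _))
      hunit
  have hΦc : ContinuousOn Φ (sphere 0 1) := hΦd.continuousOn.mono sphere_subset_closedBall
  have hΦc' : ContinuousOn (fun ζ => (Φ ζ)ᴴ) (sphere 0 1) :=
    continuous_id.matrix_conjTranspose.comp_continuousOn hΦc
  have havg : ∀ {f : ℂ → Matrix (Fin n) (Fin n) ℂ}, DifferentiableOn ℂ f (closedBall 0 1) →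
      circleAverage f 0 1 = f 0 := by
    intro f hf
    apply DiffContOnCl.circleAverage
    rw [abs_one]
    exact (hf.mono closure_ball_subset_closedBall).diffContOnCl
  have hΦ0 : Φ 0 = 1 := by simp [hΦ]
  have hl : ∀ ζ ∈ sphere (0 : ℂ) 1, Φ ζ * (1 - ζ • Xᴴ) = 1 := fun ζ hζ =>
    Ring.inverse_mul_cancel _ (hunit ζ (sphere_subset_closedBall hζ))
  have hr : ∀ ζ ∈ sphere (0 : ℂ) 1, (1 - conj ζ • X) * (Φ ζ)ᴴ = 1 := by
    intro ζ hζ
    have := congrArg Matrix.conjTranspose (hl ζ hζ)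
    simpa [Matrix.conjTranspose_mul] using this
  have hζ1 : ∀ ζ ∈ sphere (0 : ℂ) 1, ζ * conj ζ = 1 := by
    intro ζ hζ
    rw [Complex.mul_conj, Complex.normSq_eq_norm_sq, mem_sphere_zero_iff_norm.mp hζ]
    simp
  have hN : ∀ k : ℕ, circleAverage (fun ζ => ζ ^ k • (Φ ζ)ᴴ) 0 1 = X ^ k := by
    intro k
    induction k with
    | zero =>
      let L : Matrix (Fin n) (Fin n) ℂ →L[ℝ] Matrix (Fin n) (Fin n) ℂ :=
        (starL' ℝ : Matrix (Fin n) (Fin n) ℂ ≃L[ℝ] Matrix (Fin n) (Fin n) ℂ)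
      have := L.circleAverage_comp_comm (cint one_pos hΦc)
      rw [havg hΦd, hΦ0] at this
      simp only [pow_zero, one_smul]
      refine Eq.trans this ?_
      simp [L]
    | succ k ih =>
      let L : Matrix (Fin n) (Fin n) ℂ →L[ℝ] Matrix (Fin n) (Fin n) ℂ :=
        ContinuousLinearMap.mul ℝ _ X
      have h1 := L.circleAverage_comp_comm (f := fun ζ => ζ ^ k • (Φ ζ)ᴴ)
        (cint one_pos (by fun_prop))
      rw [ih] at h1
      have h2 : circleAverage (fun ζ : ℂ => ζ ^ (k + 1) • (1 : Matrix (Fin n) (Fin n) ℂ)) 0 1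
          = 0 := by
        rw [havg (by fun_prop)]
        simp
      have h3 : circleAverage (fun ζ => ζ ^ (k + 1) • (Φ ζ)ᴴ) 0 1 = circleAverage
          (fun ζ : ℂ => ζ ^ (k + 1) • (1 : Matrix (Fin n) (Fin n) ℂ) +
            X * (ζ ^ k • (Φ ζ)ᴴ)) 0 1 := by
        refine avg_congr one_pos fun ζ hζ => ?_
        rw [← hr ζ hζ, sub_mul, one_mul, smul_sub, smul_mul_assoc, smul_smul, pow_succ,
          mul_assoc, hζ1 ζ hζ, mul_one, mul_smul_comm]
        abel
      rw [h3, avg_add one_pos (by fun_prop) (by fun_prop), h2, zero_add, pow_succ']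
      exact h1
  refine ⟨fun ζ => (Φ ζ)ᴴ + (Φ ζ - 1), by fun_prop, fun ζ hζ => ?_, fun t => ?_⟩
  · convert hX.mul_mul_conjTranspose_same (Φ ζ) using 1
    have e1 : Φ ζ * (ζ • Xᴴ) = Φ ζ - 1 := by
      rw [← hl ζ hζ, mul_sub, mul_one]; abel
    have e2 : (conj ζ • X) * (Φ ζ)ᴴ = (Φ ζ)ᴴ - 1 := by
      rw [← hr ζ hζ, sub_mul, one_mul]; abel
    have e3 : Xᴴ * X = (ζ • Xᴴ) * (conj ζ • X) := by
      rw [smul_mul_smul_comm, hζ1 ζ hζ, one_smul]
    rw [e3, mul_sub, sub_mul, ← mul_assoc, e1, mul_assoc (Φ ζ - 1), e2]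
    noncomm_ring
  · simp only [smul_add]
    have hc := t.continuous
    rw [avg_add one_pos (by fun_prop) (by fun_prop), havg (f := fun ζ => t.eval ζ • (Φ ζ - 1))
      (t.differentiable.differentiableOn.smul (hΦd.sub_const 1)), hΦ0, sub_self, smul_zero,
      add_zero]
    clear hc
    induction t using Polynomial.induction_on' with
    | add p q hp hq =>
      have hc := p.continuous
      have hc' := q.continuous
      simp only [Polynomial.eval_add, add_smul]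
      rw [avg_add one_pos (by fun_prop) (by fun_prop), hp, hq, map_add]
    | monomial k a =>
      simp only [Polynomial.eval_monomial, mul_smul, Polynomial.aeval_monomial,
        Algebra.algebraMap_eq_smul_one, smul_mul_assoc, one_mul]
      rw [circleAverage_fun_smul, hN]

section norms
variable {ι : Type} [Fintype ι] [DecidableEq ι]

lemma norm_le_of_psd {Y : Matrix ι ι ℂ} {c : ℝ} (hc : 0 ≤ c)
    (h : (((c ^ 2 : ℝ) : ℂ) • (1 : Matrix ι ι ℂ) - Yᴴ * Y).PosSemidef) : ‖Y‖ ≤ c := by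
  have h1 : ‖Yᴴ * Y‖ ≤ c ^ 2 := by
    rw [CStarAlgebra.norm_le_iff_le_algebraMap _ (by positivity)
      (Matrix.posSemidef_conjTranspose_mul_self Y).nonneg, Matrix.le_iff,
      Algebra.algebraMap_eq_smul_one]
    exact h
  rw [Matrix.l2_opNorm_conjTranspose_mul_self] at h1
  exact (abs_le_of_sq_le_sq' (by nlinarith) hc).2

lemma psd_of_norm_le {Y : Matrix ι ι ℂ} {c : ℝ} (h : ‖Y‖ ≤ c) :
    (((c ^ 2 : ℝ) : ℂ) • (1 : Matrix ι ι ℂ) - Yᴴ * Y).PosSemidef := by
  have h1 : ‖Yᴴ * Y‖ ≤ c ^ 2 := by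
    rw [Matrix.l2_opNorm_conjTranspose_mul_self]
    nlinarith [norm_nonneg Y]
  rw [CStarAlgebra.norm_le_iff_le_algebraMap _ (by positivity)
      (Matrix.posSemidef_conjTranspose_mul_self Y).nonneg, Matrix.le_iff,
      Algebra.algebraMap_eq_smul_one] at h1
  exact h1

variable {κ : Type} [Fintype κ] [DecidableEq κ]

lemma norm_kron_one {Y : Matrix ι ι ℂ} {c : ℝ} (hc : 0 ≤ c) (h : ‖Y‖ ≤ c) :
    ‖Y ⊗ₖ (1 : Matrix κ κ ℂ)‖ ≤ c := by
  refine norm_le_of_psd hc ?_
  have key := (psd_of_norm_le h).kronecker (Matrix.PosSemidef.one (n := κ) (R := ℂ))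
  refine Eq.mp (congrArg _ (Eq.symm ?_)) key
  rw [Matrix.conjTranspose_kronecker, ← Matrix.mul_kronecker_mul, sub_eq_add_neg, sub_eq_add_neg,
    Matrix.add_kronecker, Matrix.smul_kronecker, Matrix.one_kronecker_one,
    ← neg_one_smul ℂ (Yᴴ * Y), Matrix.smul_kronecker]
  simp

lemma norm_one_kron {Y : Matrix κ κ ℂ} {c : ℝ} (hc : 0 ≤ c) (h : ‖Y‖ ≤ c) :
    ‖(1 : Matrix ι ι ℂ) ⊗ₖ Y‖ ≤ c := by
  refine norm_le_of_psd hc ?_
  have key := (Matrix.PosSemidef.one (n := ι) (R := ℂ)).kronecker (psd_of_norm_le h)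
  refine Eq.mp (congrArg _ (Eq.symm ?_)) key
  rw [Matrix.conjTranspose_kronecker, ← Matrix.mul_kronecker_mul, sub_eq_add_neg, sub_eq_add_neg,
    Matrix.kronecker_add, Matrix.kronecker_smul, Matrix.one_kronecker_one,
    ← neg_one_smul ℂ (Yᴴ * Y), Matrix.kronecker_smul]
  simp

lemma kron_pointwise {L : Matrix ι ι ℂ} (hL : L.PosSemidef) {w : Matrix κ κ ℂ} {M : ℝ}
    (hM : 0 ≤ M) (hw : ‖w‖ ≤ M) (x y : EuclideanSpace ℂ (ι × κ)) :
    (⟪x, op (L ⊗ₖ w) y⟫_ℂ).re ≤ M / 2 * ((⟪x, op (L ⊗ₖ (1 : Matrix κ κ ℂ)) x⟫_ℂ).re +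
      (⟪y, op (L ⊗ₖ (1 : Matrix κ κ ℂ)) y⟫_ℂ).re) := by
  obtain ⟨B, rfl⟩ := CStarAlgebra.nonneg_iff_eq_star_mul_self.mp hL.nonneg
  set C := B ⊗ₖ (1 : Matrix κ κ ℂ) with hC
  have e1 : (star B * B) ⊗ₖ w = star C * ((1 : Matrix ι ι ℂ) ⊗ₖ w * C) := by
    rw [hC, Matrix.star_eq_conjTranspose, Matrix.star_eq_conjTranspose,
      Matrix.conjTranspose_kronecker, ← Matrix.mul_kronecker_mul, ← Matrix.mul_kronecker_mul]
    simp
  have e2 : (star B * B) ⊗ₖ (1 : Matrix κ κ ℂ) = star C * C := by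
    rw [hC, Matrix.star_eq_conjTranspose, Matrix.star_eq_conjTranspose,
      Matrix.conjTranspose_kronecker, ← Matrix.mul_kronecker_mul]
    simp
  rw [e1, e2]
  simp only [op, map_mul, map_star, mul_apply_eq_comp, ContinuousLinearMap.star_eq_adjoint,
    ContinuousLinearMap.adjoint_inner_right]
  set x' := Matrix.toEuclideanCLM (n := ι × κ) (𝕜 := ℂ) C x
  set y' := Matrix.toEuclideanCLM (n := ι × κ) (𝕜 := ℂ) C y
  have h1 : ∀ z : EuclideanSpace ℂ (ι × κ), (⟪z, z⟫_ℂ).re = ‖z‖ ^ 2 :=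
    fun z => inner_self_eq_norm_sq (𝕜 := ℂ) z
  rw [h1, h1]
  have h2 := (op ((1 : Matrix ι ι ℂ) ⊗ₖ w)).le_of_opNorm_le (norm_one_kron hM hw) y'
  have h3 := re_inner_le_norm (𝕜 := ℂ) x' (op ((1 : Matrix ι ι ℂ) ⊗ₖ w) y')
  have h4 := mul_le_mul_of_nonneg_left h2 (norm_nonneg x')
  have h5 := mul_nonneg hM (sq_nonneg (‖x'‖ - ‖y'‖))
  simp only [RCLike.re_to_complex, op] at h3 h4
  nlinarith

lemma inner_avg {Y : ℂ → Matrix ι ι ℂ} (hY : ∀ i j, ContinuousOn (fun t => Y t i j) (sphere 0 1))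
    {V : Matrix ι ι ℂ} (hV : ∀ i j, V i j = circleAverage (fun t => Y t i j) 0 1)
    (x y : EuclideanSpace ℂ ι) :
    ContinuousOn (fun t => (⟪x, op (Y t) y⟫_ℂ).re) (sphere 0 1) ∧
    (⟪x, op V y⟫_ℂ).re = circleAverage (fun t => (⟪x, op (Y t) y⟫_ℂ).re) 0 1 := by
  have e : ∀ Z : Matrix ι ι ℂ, ⟪x, op Z y⟫_ℂ = ∑ i, ∑ j, (conj (x i) * y j) * Z i j := by
    intro Z
    simp only [PiLp.inner_apply, RCLike.inner_apply, Matrix.ofLp_toEuclideanCLM, Matrix.mulVec,
      dotProduct, Finset.sum_mul]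
    refine Finset.sum_congr rfl fun i _ => Finset.sum_congr rfl fun j _ => by ring
  simp only [e]
  refine ⟨by fun_prop, ?_⟩
  rw [avg_re one_pos (by fun_prop), avg_sum one_pos _ (fun i _ => by fun_prop)]
  congr 1
  refine Finset.sum_congr rfl fun i _ => ?_
  rw [avg_sum one_pos _ (fun j _ => by fun_prop)]
  refine Finset.sum_congr rfl fun j _ => ?_
  rw [avg_const_mul, hV]

lemma norm_avg_kron {L : ℂ → Matrix ι ι ℂ} (hL : ∀ t ∈ sphere (0 : ℂ) 1, (L t).PosSemidef)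
    (hLc : ∀ a b, ContinuousOn (fun t => L t a b) (sphere 0 1))
    (hL1 : ∀ a b, circleAverage (fun t => L t a b) 0 1 = (1 : Matrix ι ι ℂ) a b)
    {w : ℂ → Matrix κ κ ℂ} (hwc : ∀ c d, ContinuousOn (fun t => w t c d) (sphere 0 1))
    {M : ℝ} (hw : ∀ t ∈ sphere (0 : ℂ) 1, ‖w t‖ ≤ M) {V : Matrix (ι × κ) (ι × κ) ℂ}
    (hV : ∀ i j, V i j = circleAverage (fun t => L t i.1 j.1 * w t i.2 j.2) 0 1) : ‖V‖ ≤ M := by
  have hM : 0 ≤ M := (norm_nonneg _).trans (hw 1 (by simp))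
  rw [Matrix.cstar_norm_def]
  refine ContinuousLinearMap.opNorm_le_of_re_inner_le hM fun y x hy hx => ?_
  rw [← inner_conj_symm, RCLike.conj_re, RCLike.re_to_complex]
  obtain ⟨c1, a1⟩ := inner_avg (Y := fun t => L t ⊗ₖ w t) (V := V)
    (fun i j => (hLc i.1 j.1).mul (hwc i.2 j.2)) hV x y
  have key : ∀ z : EuclideanSpace ℂ (ι × κ), ‖z‖ = 1 →
      ContinuousOn (fun t => (⟪z, op (L t ⊗ₖ (1 : Matrix κ κ ℂ)) z⟫_ℂ).re) (sphere 0 1) ∧
      circleAverage (fun t => (⟪z, op (L t ⊗ₖ (1 : Matrix κ κ ℂ)) z⟫_ℂ).re) 0 1 = 1 := by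
    intro z hz
    obtain ⟨c2, a2⟩ := inner_avg (Y := fun t => L t ⊗ₖ (1 : Matrix κ κ ℂ)) (V := 1)
      (fun i j => (hLc i.1 j.1).mul continuousOn_const) (by
        rintro ⟨a, c⟩ ⟨b, d⟩
        simp only [Matrix.kronecker_apply, mul_comm (L _ _ _)]
        rw [avg_const_mul, hL1, ← Matrix.one_kronecker_one, Matrix.kronecker_apply, mul_comm]) z z
    refine ⟨c2, ?_⟩
    rw [← a2, op, map_one, one_apply_eq_self]
    have := inner_self_eq_norm_sq (𝕜 := ℂ) z
    rw [hz] at this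
    simpa using this
  obtain ⟨c2, a2⟩ := key x hx
  obtain ⟨c3, a3⟩ := key y hy
  refine a1.le.trans ((avg_mono one_pos c1 (by fun_prop) fun t ht =>
    kron_pointwise (hL t ht) hM (hw t ht) x y).trans ?_)
  rw [avg_const_mul_real, avg_add one_pos c2 c3, a2, a3]
  linarith

end norms

end Crest.Agent.Crouzeix
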