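import Crest.Agent.Crouzeix.TH

/-! Polynomial approximation on convex sets and the functional calculus via jets. -/

set_option autoImplicit false

open Set Metric Filter Topology Complex Real MeasureTheory
open scoped ComplexConjugate InnerProductSpace

namespace Crest.Agent.Crouzeix

lemma inv_mem_closure {K : Set ℂ} (hK : IsCompact K) (hc : Convex ℝ K) {σ : ℂ} (hσ : σ ∉ K)
    [CompactSpace K] (g : C(K, ℂ)) (hg : ∀ z : K, g z = (σ - z)⁻¹) :
    g ∈ (polynomialFunctions K).topologicalClosure := by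
  obtain ⟨φ, u, h1, h2⟩ := RCLike.geometric_hahn_banach_closed_point (𝕜 := ℂ) hc hK.isClosed hσ
  set c := φ 1 with hcdef
  have hφ : ∀ z, φ z = c * z := fun z => by
    rw [hcdef, mul_comm, ← smul_eq_mul, ← map_smul, smul_eq_mul, mul_one]
  set δ := (c * σ).re - u with hδ
  have hδ0 : 0 < δ := by
    rw [hφ] at h2
    exact sub_pos.mpr h2
  have hre : ∀ z ∈ K, δ ≤ (c * (σ - z)).re := by
    intro z hz
    have := h1 z hz
    rw [hφ] at this
    rw [mul_sub, sub_re]
    exact sub_le_sub_left this.le _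
  obtain ⟨C, hC⟩ := hK.exists_bound_of_continuousOn (f := fun z => c * (σ - z)) (by fun_prop)
  set t : ℝ := δ / (C ^ 2 + 1) with ht
  have ht0 : 0 < t := by positivity
  set b : C(K, ℂ) := (1 - Polynomial.C (t * c) * (Polynomial.C σ - Polynomial.X) :
    Polynomial ℂ).toContinuousMapOn K with hb
  have hbz : ∀ z : K, b z = 1 - t * (c * (σ - z)) := fun z => by
    simp [hb, mul_assoc]
  have hbn : ‖b‖ < 1 := by
    rw [ContinuousMap.norm_lt_iff _ one_pos]
    intro z
    rw [hbz]
    have e1 := hre z z.2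
    have e2 := hC z z.2
    set w := c * (σ - z)
    have e3 : ‖w‖ ^ 2 ≤ C ^ 2 := pow_le_pow_left₀ (norm_nonneg _) e2 2
    have e4 : ‖1 - t * w‖ ^ 2 = 1 - 2 * t * w.re + t ^ 2 * ‖w‖ ^ 2 := by
      simp only [Complex.sq_norm, Complex.normSq_apply, sub_re, sub_im, one_re, one_im, mul_re,
        mul_im, ofReal_re, ofReal_im]
      ring
    have e5 : t * (C ^ 2 + 1) = δ := by rw [ht]; field_simp
    refine lt_of_pow_lt_pow_left₀ 2 zero_le_one ?_
    rw [e4]
    nlinarith [mul_le_mul_of_nonneg_left e3 (sq_nonneg t), mul_le_mul_of_nonneg_left e1 ht0.le,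
      mul_pos ht0 hδ0, mul_pos ht0 ht0]
  have hbP : b ∈ (polynomialFunctions K).topologicalClosure :=
    Subalgebra.le_topologicalClosure _ ⟨_, trivial, rfl⟩
  have hsum := (summable_geometric_of_norm_lt_one hbn).hasSum
  have hS : ∑' k, b ^ k ∈ (polynomialFunctions K).topologicalClosure :=
    (Subalgebra.isClosed_topologicalClosure _).mem_of_tendsto hsum
      (Eventually.of_forall fun s => Subalgebra.sum_mem _ fun k _ => Subalgebra.pow_mem _ hbP k)
  have hmul := geom_series_mul_neg b hbn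
  have : g = ((t : ℂ) * c) • ∑' k, b ^ k := by
    ext z
    have e1 := congrArg (fun h : C(K, ℂ) => h z) hmul
    simp only [ContinuousMap.mul_apply, ContinuousMap.sub_apply, ContinuousMap.one_apply,
      hbz] at e1
    rw [hg, ContinuousMap.smul_apply, smul_eq_mul]
    apply inv_eq_of_mul_eq_one_left
    linear_combination e1
  rw [this]
  exact Subalgebra.smul_mem _ hS _

/-- Polynomial approximation of a conformal map onto the disc on compact convex subsets. -/
theorem runge {Ω : Set ℂ} (hΩ : IsOpen Ω) {f : ℂ → ℂ} (hf : DifferentiableOn ℂ f Ω)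
    (hinj : InjOn f Ω) (him : f '' Ω = ball 0 1) {K : Set ℂ} (hK : IsCompact K)
    (hc : Convex ℝ K) (hKΩ : K ⊆ Ω) {ε : ℝ} (hε : 0 < ε) :
    ∃ p : Polynomial ℂ, ∀ z ∈ K, ‖f z - p.eval z‖ < ε := by
  obtain ⟨-, F, hF, hl, hr⟩ := exists_holo_inv hΩ hf hinj
  rw [him] at hF hr
  have hFi : InjOn F (ball 0 1) := by
    intro a ha b hb hab
    rw [← (hr a ha).2, hab, (hr b hb).2]
  obtain ⟨ρ', hρ', hρ2⟩ := exists_lt_subset_ball
    (hK.image_of_continuousOn (hf.continuousOn.mono hKΩ)).isClosed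
    (x := (0 : ℂ)) (r := 1) (him ▸ image_mono hKΩ)
  set ρ := max ρ' (1 / 2) with hρ
  have hρ0 : 0 < ρ := lt_of_lt_of_le (by norm_num) (le_max_right _ _)
  have hρ1 : ρ < 1 := max_lt hρ' (by norm_num)
  have hfK : ∀ z ∈ K, ‖f z‖ < ρ := fun z hz =>
    (mem_ball_zero_iff.mp (hρ2 (mem_image_of_mem f hz))).trans_le (le_max_left _ _)
  have hsph : ∀ θ, circleMap 0 ρ θ ∈ sphere (0 : ℂ) ρ := circleMap_mem_sphere 0 hρ0.le
  have hball : ∀ θ, circleMap 0 ρ θ ∈ ball (0 : ℂ) 1 := fun θ => sphere_sub_ball hρ1 (hsph θ)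
  have hnot : ∀ ζ ∈ sphere (0 : ℂ) ρ, F ζ ∉ K := by
    intro ζ hζ hk
    have := hfK _ hk
    rw [(hr ζ (sphere_sub_ball hρ1 hζ)).2, mem_sphere_zero_iff_norm.mp hζ] at this
    exact lt_irrefl _ this
  have hcompact : CompactSpace K := isCompact_iff_compactSpace.mp hK
  have hFc : Continuous fun θ => F (circleMap 0 ρ θ) :=
    hF.continuousOn.comp_continuous (continuous_circleMap 0 ρ) hball
  have hF'c : Continuous fun θ => deriv F (circleMap 0 ρ θ) :=
    (hF.deriv isOpen_ball).continuousOn.comp_continuous (continuous_circleMap 0 ρ) hball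
  let G : C(ℝ × K, ℂ) := ⟨fun p => (circleMap 0 ρ p.1 * (circleMap 0 ρ p.1 *
    deriv F (circleMap 0 ρ p.1))) * (F (circleMap 0 ρ p.1) - p.2)⁻¹, by
      have c1 : Continuous fun p : ℝ × K => F (circleMap 0 ρ p.1) := hFc.comp continuous_fst
      have c2 : Continuous fun p : ℝ × K => deriv F (circleMap 0 ρ p.1) := hF'c.comp continuous_fst
      have c3 : Continuous fun p : ℝ × K => circleMap 0 ρ p.1 :=
        (continuous_circleMap 0 ρ).comp continuous_fst
      refine Continuous.mul (c3.mul (c3.mul c2)) (Continuous.inv₀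
        (c1.sub (continuous_subtype_val.comp continuous_snd)) fun p => ?_)
      exact sub_ne_zero.mpr fun e => hnot _ (hsph p.1) (e ▸ p.2.2)⟩
  have hG : ∀ θ, G.curry θ ∈ (polynomialFunctions K).topologicalClosure := by
    intro θ
    let g : C(K, ℂ) := ⟨fun z => (F (circleMap 0 ρ θ) - z)⁻¹,
      Continuous.inv₀ (by fun_prop) fun p =>
        sub_ne_zero.mpr fun e => hnot _ (hsph θ) (e ▸ p.2)⟩
    have h1 := inv_mem_closure hK hc (hnot _ (hsph θ)) g fun z => rfl
    have : G.curry θ = (circleMap 0 ρ θ * (circleMap 0 ρ θ * deriv F (circleMap 0 ρ θ))) • g := by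
      ext z; rfl
    rw [this]
    exact Subalgebra.smul_mem _ h1 _
  have hint : IntervalIntegrable (fun θ => G.curry θ) volume 0 (2 * π) :=
    G.curry.continuous.intervalIntegrable _ _
  set I : C(K, ℂ) := (2 * π)⁻¹ • ∫ θ in (0 : ℝ)..2 * π, G.curry θ with hI
  have hIP : I ∈ (polynomialFunctions K).topologicalClosure := by
    have h1 : I = ⨍ θ in (0 : ℝ)..2 * π, G.curry θ := by
      rw [interval_average_eq, sub_zero]
    rw [h1]
    have hconv : Convex ℝ ((polynomialFunctions K).topologicalClosure : Set C(K, ℂ)) :=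
      (((polynomialFunctions K).topologicalClosure.toSubmodule).restrictScalars ℝ).convex
    refine hconv.set_average_mem (Subalgebra.isClosed_topologicalClosure _) ?_ ?_
      (Eventually.of_forall hG) hint.def'
    · simp [Real.pi_ne_zero]
    · simp [ENNReal.mul_eq_top]
  have hIz : ∀ z : K, I z = f z := by
    intro z
    have hz : f z ∈ ball (0 : ℂ) 1 := him ▸ mem_image_of_mem f (hKΩ z.2)
    have e1 : I z = circleAverage
        (fun ζ => (ζ * (ζ * deriv F ζ)) * (F ζ - z)⁻¹) 0 ρ := by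
      rw [hI, ContinuousMap.smul_apply, circleAverage_def]
      congr 1
      exact ((ContinuousMap.evalCLM ℂ z).intervalIntegral_comp_comm hint).symm
    have hd : ∀ ζ ∈ ball (0 : ℂ) 1, dslope F (f z) ζ ≠ 0 := by
      intro ζ hζ
      rcases eq_or_ne ζ (f z) with rfl | hne
      · rw [dslope_same]; exact deriv_ne_zero_of_injOn isOpen_ball hF hFi hζ
      · rw [Conf.dslope_eq hne]
        exact div_ne_zero (sub_ne_zero.mpr fun e => hne (hFi hζ hz e)) (sub_ne_zero.mpr hne)
    have e2 := avg_cauchy hρ0 hρ1 (f := fun ζ => ζ * deriv F ζ / dslope F (f z) ζ)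
      ((differentiableOn_id.mul (hF.deriv isOpen_ball)).div
        ((Complex.differentiableOn_dslope (isOpen_ball.mem_nhds hz)).mpr hF) hd) (hfK z z.2)
    rw [dslope_same, mul_div_cancel_right₀ _ (deriv_ne_zero_of_injOn isOpen_ball hF hFi hz)] at e2
    rw [e1, ← e2]
    refine avg_congr hρ0 fun ζ hζ => ?_
    have hne := Conf.ne_of_sphere hζ (hfK z z.2)
    have h3 : F ζ - z ≠ 0 := sub_ne_zero.mpr fun e => hnot _ hζ (e ▸ z.2)
    have h4 := sub_ne_zero.mpr hne
    rw [Conf.dslope_eq hne, hl z (hKΩ z.2)]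
    field_simp
  obtain ⟨_, ⟨p, -, rfl⟩, hp⟩ := Metric.mem_closure_iff.mp hIP ε hε
  refine ⟨p, fun z hz => ?_⟩
  have := (ContinuousMap.dist_apply_le_dist (⟨z, hz⟩ : K)).trans_lt hp
  rw [hIz, dist_eq_norm] at this
  simpa using this

lemma exists_factor {V W M : Type*} [AddCommGroup V] [Module ℂ V] [AddCommGroup W] [Module ℂ W]
    [AddCommGroup M] [Module ℂ M] (J : V →ₗ[ℂ] W) (φ : V →ₗ[ℂ] M)
    (h : ∀ v, J v = 0 → φ v = 0) : ∃ L : W →ₗ[ℂ] M, ∀ v, L (J v) = φ v := by
  obtain ⟨g, hg⟩ := J.rangeRestrict.exists_rightInverse_of_surjective J.range_rangeRestrict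
  obtain ⟨L, hL⟩ := (φ.comp g).exists_extend
  refine ⟨L, fun v => ?_⟩
  have h1 := congrArg (fun T => T (J.rangeRestrict v)) hL
  have h2 := congrArg (fun T => (T (J.rangeRestrict v) : W)) hg
  simp only [LinearMap.comp_apply, LinearMap.id_apply, Submodule.subtype_apply,
    LinearMap.codRestrict_apply] at h1 h2
  rw [h1, ← sub_eq_zero, ← map_sub]
  apply h
  rw [map_sub, h2, sub_self]

lemma iteratedDeriv_eval (p : Polynomial ℂ) (j : ℕ) :
    iteratedDeriv j (fun z => p.eval z) = fun z => (Polynomial.derivative^[j] p).eval z := by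
  induction j with
  | zero => simp
  | succ j ih =>
    rw [iteratedDeriv_succ, ih, Function.iterate_succ_apply']
    ext z
    exact Polynomial.deriv _

/-- Jets of order `< n` on the spectrum. -/
noncomputable def jets {n : ℕ} (A : Matrix (Fin n) (Fin n) ℂ) (h : ℂ → ℂ) :
    spectrum ℂ A × Fin n → ℂ := fun x => iteratedDeriv x.2 h x.1

lemma exists_fc {n : ℕ} (A : Matrix (Fin n) (Fin n) ℂ) :
    ∃ L : (spectrum ℂ A × Fin n → ℂ) → Matrix (Fin n) (Fin n) ℂ, Continuous L ∧
      ∀ p : Polynomial ℂ, L (jets A fun z => p.eval z) = Polynomial.aeval A p := by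
  let J : Polynomial ℂ →ₗ[ℂ] (spectrum ℂ A × Fin n → ℂ) :=
    { toFun := fun p => jets A fun z => p.eval z
      map_add' := fun p q => by
        ext x
        simp only [jets, iteratedDeriv_eval, Pi.add_apply]
        rw [iterate_map_add, Polynomial.eval_add]
      map_smul' := fun c p => by
        ext x
        simp only [jets, iteratedDeriv_eval, Pi.smul_apply, RingHom.id_apply]
        rw [Polynomial.iterate_derivative_smul, Polynomial.eval_smul] }
  obtain ⟨L, hL⟩ := exists_factor J (Polynomial.aeval A).toLinearMap (by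
    intro p hp
    rcases eq_or_ne p 0 with rfl | hp0
    · simp
    have hdvd : A.charpoly ∣ p := by
      refine (IsAlgClosed.splits A.charpoly).dvd_of_roots_le_roots A.charpoly_monic.ne_zero ?_
      rw [Multiset.le_iff_count]
      intro μ
      by_cases hμ : μ ∈ A.charpoly.roots
      · have hμ' : μ ∈ spectrum ℂ A := Matrix.mem_spectrum_iff_isRoot_charpoly.mpr
          ((Polynomial.mem_roots A.charpoly_monic.ne_zero).mp hμ)
        have h1 : Multiset.count μ A.charpoly.roots ≤ n :=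
          (Multiset.count_le_card _ _).trans ((Polynomial.card_roots' _).trans (by simp))
        have h2 : 0 < Multiset.count μ A.charpoly.roots := Multiset.count_pos.mpr hμ
        rw [Polynomial.count_roots (p := p)]
        have h3 : n - 1 < p.rootMultiplicity μ := by
          refine Polynomial.lt_rootMultiplicity_of_isRoot_iterate_derivative hp0 fun m hm => ?_
          have := congrFun hp (⟨μ, hμ'⟩, ⟨m, by omega⟩)
          simpa [J, jets, iteratedDeriv_eval] using this
        omega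
      · rw [Multiset.count_eq_zero_of_notMem hμ]
        exact Nat.zero_le _
    obtain ⟨q, rfl⟩ := hdvd
    simp [Matrix.aeval_self_charpoly])
  exact ⟨L, L.continuous_of_finiteDimensional, hL⟩

lemma tendsto_iteratedDeriv {ι : Type*} {l : Filter ι} [l.NeBot] {V : Set ℂ} (hV : IsOpen V)
    {H : ι → ℂ → ℂ} {h : ℂ → ℂ} (hH : ∀ᶠ k in l, DifferentiableOn ℂ (H k) V)
    (hlim : TendstoLocallyUniformlyOn H h l V) (j : ℕ) :
    (∀ᶠ k in l, DifferentiableOn ℂ (iteratedDeriv j (H k)) V) ∧
      TendstoLocallyUniformlyOn (fun k => iteratedDeriv j (H k)) (iteratedDeriv j h) l V := by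
  induction j with
  | zero => simpa using ⟨hH, hlim⟩
  | succ j ih =>
    simp only [iteratedDeriv_succ]
    exact ⟨ih.1.mono fun k hk => hk.deriv hV, ih.2.deriv ih.1 hV⟩

lemma tendsto_jets {n : ℕ} (A : Matrix (Fin n) (Fin n) ℂ) {ι : Type*} {l : Filter ι} [l.NeBot]
    {V : Set ℂ} (hV : IsOpen V) (hAV : spectrum ℂ A ⊆ V)
    {H : ι → ℂ → ℂ} {h : ℂ → ℂ} (hH : ∀ᶠ k in l, DifferentiableOn ℂ (H k) V)
    (hlim : TendstoLocallyUniformlyOn H h l V) :
    Tendsto (fun k => jets A (H k)) l (𝓝 (jets A h)) := by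
  rw [tendsto_pi_nhds]
  intro x
  exact (tendsto_iteratedDeriv hV hH hlim x.2).2.tendsto_at (hAV x.1.2)

end Crest.Agent.Crouzeix
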