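import Crest.Agent.Crouzeix.Runge
import Crest.Prelude.Def_NumRangeMetric

/-! The conformal image `T = f(A)` is completely polynomially bounded. -/

set_option autoImplicit false

open Set Metric Filter Topology Complex Real MeasureTheory
open scoped ComplexConjugate InnerProductSpace
open Crest.AnalysisR.NumRange

namespace Crest.Agent.Crouzeix

/-- Abbreviation for the operator attached to a matrix. -/
noncomputable abbrev op {ι : Type*} [Fintype ι] [DecidableEq ι] (A : Matrix ι ι ℂ) :
    EuclideanSpace ℂ ι →L[ℂ] EuclideanSpace ℂ ι := Matrix.toEuclideanCLM (n := ι) (𝕜 := ℂ) A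

lemma continuous_op {ι : Type*} [Fintype ι] [DecidableEq ι] :
    Continuous fun A : Matrix ι ι ℂ => op A :=
  LinearMap.continuous_of_finiteDimensional
    (Matrix.toEuclideanCLM (n := ι) (𝕜 := ℂ)).toAlgEquiv.toLinearMap

lemma op_aeval {ι : Type*} [Fintype ι] [DecidableEq ι] (A : Matrix ι ι ℂ) (p : Polynomial ℂ) :
    op (Polynomial.aeval A p) = Polynomial.aeval (op A) p :=
  (Polynomial.aeval_algHom_apply (Matrix.toEuclideanCLM (n := ι) (𝕜 := ℂ)) A p).symm

lemma numRange_eq {n : ℕ} (A : Matrix (Fin n) (Fin n) ℂ) :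
    numRange A = (fun x => ⟪x, op A x⟫_ℂ) '' sphere 0 1 := by
  ext z
  simp only [numRange, mem_ofPred_eq, mem_image, mem_sphere_zero_iff_norm]
  constructor
  · rintro ⟨x, hx, rfl⟩; exact ⟨x, hx, rfl⟩
  · rintro ⟨x, hx, rfl⟩; exact ⟨x, hx, rfl⟩

lemma spectrum_subset {n : ℕ} (A : Matrix (Fin n) (Fin n) ℂ) : spectrum ℂ A ⊆ numRange A := by
  intro μ hμ
  rw [← Matrix.spectrum_toLpLin 2, ← Module.End.hasEigenvalue_iff_mem_spectrum] at hμ
  obtain ⟨x, hx⟩ := hμ.exists_hasEigenvector
  have h0 : 0 < ‖x‖ := norm_pos_iff.mpr hx.2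
  have h1 : ‖((‖x‖ : ℝ) : ℂ)⁻¹ • x‖ = 1 := by
    rw [norm_smul, norm_inv, Complex.norm_real, norm_norm, inv_mul_cancel₀ h0.ne']
  refine ⟨((‖x‖ : ℝ) : ℂ)⁻¹ • x, h1, ?_⟩
  rw [map_smul, hx.apply_eq_smul, smul_comm, inner_smul_right, inner_self_eq_norm_sq_to_K, h1]
  simp

/-- Complete polynomial boundedness with constant two on the disc of radius `s`. -/
def CB {n : ℕ} (T : Matrix (Fin n) (Fin n) ℂ) (s : ℝ) : Prop :=
  ∀ (ι : Type) [Fintype ι] [DecidableEq ι] (B : ι → ι → Polynomial ℂ) (M : ℝ),
    (∀ w : ℂ, ‖w‖ ≤ s → ‖op (Matrix.of fun i j => (B i j).eval w)‖ ≤ M) →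
    ∀ v, ‖polyOp (op T) B v‖ ≤ 2 * M * ‖v‖

theorem setting {n : ℕ} (hn : 1 ≤ n) (A : Matrix (Fin n) (Fin n) ℂ) {Ω : Set ℂ} (hΩ : IsOpen Ω)
    {f : ℂ → ℂ} (hf : DifferentiableOn ℂ f Ω) (hinj : InjOn f Ω) (him : f '' Ω = ball 0 1)
    (hA : numRange A ⊆ Ω) (p : Polynomial ℂ) (hp : AgreesOnSpectrum A f p) :
    (∃ s, 0 ≤ s ∧ s < 1 ∧ CB (Polynomial.aeval A p) s) ∧
    ∀ (t : ℕ → Polynomial ℂ) (g v : ℂ → ℂ) (q : Polynomial ℂ),
      TendstoLocallyUniformlyOn (fun N w => (t N).eval w) g atTop (ball 0 1) →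
      (∀ z ∈ Ω, g (f z) = v z) → AgreesOnSpectrum A v q →
      Tendsto (fun N => Polynomial.aeval (Polynomial.aeval A p) (t N)) atTop
        (𝓝 (Polynomial.aeval A q)) := by
  have hne : Nonempty (Fin n) := ⟨⟨0, hn⟩⟩
  have hKc : IsCompact (numRange A) := by
    rw [numRange_eq]
    exact (isCompact_sphere 0 1).image (by fun_prop)
  have hKv : Convex ℝ (numRange A) := by
    rw [numRange_eq]
    exact convex_numRange _
  obtain ⟨δ, hδ, hδΩ⟩ := hKc.exists_cthickening_subset_open hΩ hA
  set V := thickening δ (numRange A) with hV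
  have hVK : V ⊆ cthickening δ (numRange A) := thickening_subset_cthickening _ _
  have hVΩ : V ⊆ Ω := hVK.trans hδΩ
  have hKV : numRange A ⊆ V := self_subset_thickening hδ _
  have hsV : spectrum ℂ A ⊆ V := (spectrum_subset A).trans hKV
  have hrunge := fun k : ℕ => runge hΩ hf hinj him hKc.cthickening (hKv.cthickening δ) hδΩ
    (ε := 1 / ((k : ℝ) + 1)) (by positivity)
  choose P hP using hrunge
  have hPu : TendstoUniformlyOn (fun k z => (P k).eval z) f atTop V := by
    rw [Metric.tendstoUniformlyOn_iff]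
    intro ε hε
    filter_upwards [(tendsto_one_div_add_atTop_nhds_zero_nat (𝕜 := ℝ)).eventually
      (gt_mem_nhds hε)] with k hk z hz
    rw [dist_eq_norm]
    exact (hP k z (hVK hz)).trans hk
  obtain ⟨L, hLc, hL⟩ := exists_fc A
  have hagree : ∀ (v : ℂ → ℂ) (q : Polynomial ℂ), AgreesOnSpectrum A v q →
      L (jets A v) = Polynomial.aeval A q := by
    intro v q hq
    rw [← hL q]
    congr 1
    ext x
    exact (hq x.1 x.1.2 x.2 x.2.2).symm
  have hPA : Tendsto (fun k => Polynomial.aeval A (P k)) atTop (𝓝 (Polynomial.aeval A p)) := by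
    rw [← hagree f p hp]
    simp only [← hL]
    exact (hLc.tendsto _).comp (tendsto_jets A isOpen_thickening hsV
      (Eventually.of_forall fun k => (P k).differentiable.differentiableOn)
      hPu.tendstoLocallyUniformlyOn)
  constructor
  · obtain ⟨s', hs', hs2⟩ := exists_lt_subset_ball
      (hKc.image_of_continuousOn (hf.continuousOn.mono hA)).isClosed
      (x := (0 : ℂ)) (r := 1) (him ▸ image_mono hA)
    refine ⟨max s' 0, le_max_right _ _, max_lt hs' one_pos, ?_⟩
    intro ι _ _ B M hM v
    have hcont : Continuous fun z : ℂ => ‖op (Matrix.of fun i j => (B i j).eval z)‖ :=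
      (continuous_op.comp (continuous_matrix fun i j => (B i j).continuous)).norm
    have key : ∀ η > 0, ‖polyOp (op (Polynomial.aeval A p)) B v‖ ≤ 2 * (M + η) * ‖v‖ := by
      intro η hη
      obtain ⟨ε, hε, hsub⟩ := (isCompact_closedBall (0 : ℂ) (max s' 0)
        ).exists_thickening_subset_open (isOpen_lt hcont (continuous_const (y := M + η)))
        (fun z hz => (hM z (by simpa using hz)).trans_lt (by linarith))
      have hc2 : Continuous fun X : Matrix (Fin n) (Fin n) ℂ => ‖polyOp (op X) B v‖ := by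
        refine Continuous.norm ?_
        refine (PiLp.continuous_toLp 2 _).comp (continuous_pi fun i => ?_)
        refine continuous_finsetSum _ fun j _ => ?_
        exact ((Polynomial.continuous_aeval (B i j)).comp continuous_op).clm_apply
          continuous_const
      refine le_of_tendsto ((hc2.tendsto _).comp hPA) ?_
      filter_upwards [Metric.tendstoUniformlyOn_iff.mp hPu ε hε] with k hk
      have := core_numRange (op A) (fun i j => (B i j).comp (P k)) (M := M + η) (by
        intro x hx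
        have hz : ⟪x, op A x⟫_ℂ ∈ numRange A := ⟨x, hx, rfl⟩
        simp only [Polynomial.eval_comp]
        refine (hsub (mem_thickening_iff.mpr ⟨f ⟪x, op A x⟫_ℂ, ?_, ?_⟩)).le
        · exact closedBall_subset_closedBall (le_max_left _ _)
            (ball_subset_closedBall (hs2 (mem_image_of_mem f hz)))
        · rw [dist_comm]
          exact hk _ (hKV hz)) v
      simpa only [polyOp, LinearMap.coe_mk, AddHom.coe_mk, Polynomial.aeval_comp, op_aeval,
        Function.comp_apply] using this
    have hlim : Tendsto (fun η : ℝ => 2 * (M + η) * ‖v‖) (𝓝[>] 0) (𝓝 (2 * (M + 0) * ‖v‖)) :=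
      (Continuous.tendsto (by fun_prop) 0).mono_left nhdsWithin_le_nhds
    rw [add_zero] at hlim
    exact ge_of_tendsto hlim (by filter_upwards [self_mem_nhdsWithin] with η hη using key η hη)
  · intro t g v q ht hg hq
    have hcomp : ∀ r : Polynomial ℂ,
        Polynomial.aeval (Polynomial.aeval A p) r = L (jets A fun z => r.eval (f z)) := by
      intro r
      have h1 : Tendsto (fun k => Polynomial.aeval (Polynomial.aeval A (P k)) r) atTop
          (𝓝 (Polynomial.aeval (Polynomial.aeval A p) r)) :=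
        ((Polynomial.continuous_aeval r).tendsto _).comp hPA
      have h2 : Tendsto (fun k => Polynomial.aeval (Polynomial.aeval A (P k)) r) atTop
          (𝓝 (L (jets A fun z => r.eval (f z)))) := by
        have e0 : ∀ k, Polynomial.aeval (Polynomial.aeval A (P k)) r =
            L (jets A fun z => r.eval ((P k).eval z)) := by
          intro k
          rw [← Polynomial.aeval_comp, ← hL]
          simp only [Polynomial.eval_comp]
        simp only [e0]
        refine (hLc.tendsto _).comp (tendsto_jets A isOpen_thickening hsV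
          (H := fun k z => r.eval ((P k).eval z)) (Eventually.of_forall fun k =>
            (r.differentiable.comp (P k).differentiable).differentiableOn) ?_)
        have hfc : ContinuousOn f V := hf.continuousOn.mono hVΩ
        rw [isOpen_thickening.tendstoLocallyUniformlyOn_iff_forall_tendsto]
        intro x hx
        have e1 : Tendsto (fun y : ℕ × ℂ => f y.2) (atTop ×ˢ 𝓝 x) (𝓝 (f x)) :=
          (hfc.continuousAt (isOpen_thickening.mem_nhds hx)).tendsto.comp tendsto_snd
        have e2 : Tendsto (fun y : ℕ × ℂ => (P y.1).eval y.2) (atTop ×ˢ 𝓝 x) (𝓝 (f x)) :=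
          e1.congr_uniformity (isOpen_thickening.tendstoLocallyUniformlyOn_iff_forall_tendsto.mp
            hPu.tendstoLocallyUniformlyOn x hx)
        exact (((r.continuous.tendsto _).comp e1).prodMk_nhds
          ((r.continuous.tendsto _).comp e2)).mono_right (nhds_le_uniformity _)
      exact tendsto_nhds_unique h1 h2
    simp only [hcomp]
    have hj : jets A v = jets A fun z => g (f z) := by
      ext x
      refine Filter.EventuallyEq.iteratedDeriv_eq _ ?_
      filter_upwards [hΩ.mem_nhds (hVΩ (hsV x.1.2))] with z hz using (hg z hz).symm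
    rw [← hagree v q hq, hj]
    refine (hLc.tendsto _).comp (tendsto_jets A hΩ (hsV.trans hVΩ)
      (Eventually.of_forall fun N => (t N).differentiable.comp_differentiableOn hf) ?_)
    exact ht.comp f (fun z hz => him ▸ mem_image_of_mem f hz) hf.continuousOn

lemma CB.pow_le {n : ℕ} {T : Matrix (Fin n) (Fin n) ℂ} {s : ℝ} (h : CB T s) (hs : 0 ≤ s) (j : ℕ) :
    ‖op (T ^ j)‖ ≤ 2 * s ^ j := by
  refine ContinuousLinearMap.opNorm_le_bound _ (by positivity) fun x => ?_
  have := h Unit (fun _ _ => Polynomial.X ^ j) (s ^ j) (by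
    intro w hw
    have e : (Matrix.of fun _ _ : Unit => (Polynomial.X ^ j : Polynomial ℂ).eval w) =
        (w ^ j) • (1 : Matrix Unit Unit ℂ) := by
      ext i k; simp
    rw [e, op, map_smul, map_one, norm_smul, norm_one, mul_one, norm_pow]
    exact pow_le_pow_left₀ (norm_nonneg _) hw j) (WithLp.toLp 2 fun _ => x)
  simpa [polyOp, PiLp.norm_eq_of_L2] using this

lemma CB.tendsto_pow {n : ℕ} {T : Matrix (Fin n) (Fin n) ℂ} {s : ℝ} (h : CB T s) (hs : 0 ≤ s)
    (hs1 : s < 1) : Tendsto (fun j => T ^ j) atTop (𝓝 0) := by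
  have h1 : Tendsto (fun j => op (T ^ j)) atTop (𝓝 0) := by
    refine squeeze_zero_norm (h.pow_le hs) ?_
    simpa using (tendsto_pow_atTop_nhds_zero_of_lt_one hs hs1).const_mul 2
  have h2 : Continuous fun X => (Matrix.toEuclideanCLM (n := Fin n) (𝕜 := ℂ)).symm X :=
    LinearMap.continuous_of_finiteDimensional
      (Matrix.toEuclideanCLM (n := Fin n) (𝕜 := ℂ)).symm.toAlgEquiv.toLinearMap
  have h3 := (h2.tendsto _).comp h1
  rw [map_zero] at h3
  refine h3.congr fun j => ?_
  simp only [Function.comp_apply, op, StarAlgEquiv.symm_apply_apply]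

end Crest.Agent.Crouzeix
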