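import Crest.Agent.Crouzeix.Exterior

/-! Toeplitz–Hausdorff and the finite dimensional theorem. -/

set_option autoImplicit false

open Set Metric Filter Topology Complex Real
open scoped ComplexConjugate InnerProductSpace

namespace Crest.Agent.Crouzeix

variable {E : Type*} [NormedAddCommGroup E] [InnerProductSpace ℂ E]

lemma th_aux (C : E →L[ℂ] E) {x y : E} (hx : ‖x‖ = 1) (hy : ‖y‖ = 1) (h1 : ⟪x, C x⟫_ℂ = 1)
    (h0 : ⟪y, C y⟫_ℂ = 0) {t : ℝ} (ht : t ∈ Icc (0 : ℝ) 1) :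
    ∃ z : E, ‖z‖ = 1 ∧ ⟪z, C z⟫_ℂ = t := by
  obtain ⟨l, hl, hl2⟩ := RCLike.exists_norm_eq_mul_self (K := ℂ) (⟪x, C y⟫_ℂ - conj ⟪y, C x⟫_ℂ)
  set r : ℝ := (l * ⟪x, C y⟫_ℂ + conj l * ⟪y, C x⟫_ℂ).re with hr
  have hr2 : l * ⟪x, C y⟫_ℂ + conj l * ⟪y, C x⟫_ℂ = r := by
    apply Complex.ext
    · simp [hr]
    · have := congrArg Complex.im hl2
      simp only [Complex.coe_algebraMap, ofReal_im, mul_im, sub_re, conj_re, sub_im, conj_im,
        add_im] at this ⊢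
      linarith
  set z : ℝ → E := fun s => (s : ℂ) • x + ((1 - s : ℝ) * l : ℂ) • y with hz
  have hφ : ∀ s, ⟪z s, C (z s)⟫_ℂ = ((s ^ 2 + s * (1 - s) * r : ℝ) : ℂ) := by
    intro s
    simp only [hz, map_add, map_smul, inner_add_left, inner_add_right, inner_smul_left,
      inner_smul_right, h1, h0, map_mul, Complex.conj_ofReal]
    push_cast
    rw [← hr2]
    ring
  have hz0 : ∀ s, z s ≠ 0 := by
    intro s hs
    have e1 : (s : ℂ) • x = -(((1 - s : ℝ) * l : ℂ) • y) := eq_neg_of_add_eq_zero_left hs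
    have e2 : ⟪(s : ℂ) • x, C ((s : ℂ) • x)⟫_ℂ = 0 := by
      rw [e1]
      simp [inner_smul_left, inner_smul_right, h0]
    simp only [map_smul, inner_smul_left, inner_smul_right, h1, Complex.conj_ofReal, mul_one,
      mul_self_eq_zero, Complex.ofReal_eq_zero] at e2
    subst e2
    have e3 := congrArg norm e1
    simp [norm_smul, hl, hy] at e3
  have hzc : Continuous z := by rw [hz]; fun_prop
  have hc : Continuous fun s => (s ^ 2 + s * (1 - s) * r) / ‖z s‖ ^ 2 :=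
    Continuous.div (by fun_prop) (by fun_prop)
      fun s => pow_ne_zero _ (norm_ne_zero_iff.mpr (hz0 s))
  obtain ⟨s, -, hs⟩ := intermediate_value_Icc zero_le_one hc.continuousOn
    (show t ∈ Icc _ _ by simpa [hz, hx] using ht)
  have hn : 0 < ‖z s‖ := norm_pos_iff.mpr (hz0 s)
  have hn' : ((‖z s‖ : ℝ) : ℂ) ≠ 0 := by exact_mod_cast hn.ne'
  refine ⟨((‖z s‖ : ℝ) : ℂ)⁻¹ • z s, ?_, ?_⟩
  · rw [norm_smul, norm_inv, Complex.norm_real, norm_norm, inv_mul_cancel₀ hn.ne']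
  · rw [map_smul, inner_smul_left, inner_smul_right, hφ, ← hs, map_inv₀, Complex.conj_ofReal]
    push_cast
    field_simp

/-- Toeplitz–Hausdorff. -/
theorem convex_numRange (A : E →L[ℂ] E) : Convex ℝ ((fun x => ⟪x, A x⟫_ℂ) '' sphere 0 1) := by
  rw [convex_iff_add_mem]
  rintro _ ⟨x, hx, rfl⟩ _ ⟨y, hy, rfl⟩ a b ha hb hab
  have hx1 : ‖x‖ = 1 := by simpa using hx
  have hy1 : ‖y‖ = 1 := by simpa using hy
  beta_reduce
  set α := ⟪x, A x⟫_ℂ with hα
  set β := ⟪y, A y⟫_ℂ with hβ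
  have hb' : (b : ℂ) = 1 - a := by
    have : b = 1 - a := by linarith
    rw [this]; push_cast; ring
  by_cases h : α = β
  · refine ⟨x, hx, ?_⟩
    simp only [Complex.real_smul, ← hα, ← h, hb']
    ring
  have hne := sub_ne_zero.mpr h
  have hC : ∀ z : E, ‖z‖ = 1 →
      ⟪z, ((α - β)⁻¹ • (A - β • 1) : E →L[ℂ] E) z⟫_ℂ = (α - β)⁻¹ * (⟪z, A z⟫_ℂ - β) := by
    intro z hz
    simp [hz]
  obtain ⟨z, hz, hz2⟩ := th_aux ((α - β)⁻¹ • (A - β • 1)) hx1 hy1
    (by rw [hC x hx1, ← hα, inv_mul_cancel₀ hne]) (by rw [hC y hy1, ← hβ, sub_self, mul_zero])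
    (t := a) ⟨ha, by linarith⟩
  refine ⟨z, by simpa using hz, ?_⟩
  rw [hC z hz, inv_mul_eq_iff_eq_mul₀ hne] at hz2
  simp only [Complex.real_smul, hb']
  linear_combination hz2

theorem core_numRange [FiniteDimensional ℂ E] (A : E →L[ℂ] E)
    {ι : Type*} [Fintype ι] [DecidableEq ι] (B : ι → ι → Polynomial ℂ) {M : ℝ}
    (hM : ∀ x, ‖x‖ = 1 → ‖Matrix.toEuclideanCLM (n := ι) (𝕜 := ℂ)
      (Matrix.of fun i j => (B i j).eval ⟪x, A x⟫_ℂ)‖ ≤ M)
    (v : PiLp 2 (fun _ : ι => E)) : ‖polyOp A B v‖ ≤ 2 * M * ‖v‖ := by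
  have := FiniteDimensional.proper ℂ E
  rcases subsingleton_or_nontrivial E with hs | hs
  · have : v = 0 := by ext i; exact Subsingleton.elim _ _
    simp [this]
  refine core A (K := (fun x => ⟪x, A x⟫_ℂ) '' sphere 0 1)
    ((isCompact_sphere 0 1).image (by fun_prop)) (convex_numRange A)
    ((NormedSpace.sphere_nonempty (E := E).mpr zero_le_one).image _)
    (fun x hx => ⟨x, by simpa using hx, rfl⟩) B ?_ v
  rintro _ ⟨x, hx, rfl⟩
  exact hM x (by simpa using hx)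

end Crest.Agent.Crouzeix
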